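import Vale.Agent.P226.MathlibUsed

set_option linter.all false

section

section

/-!
# P226: the three cell case in every dimension

For a measurable partition of a finite dimensional inner product space into three cells
the sum of the squared Gaussian first moments is at most 9/(8π).
-/

open MeasureTheory ProbabilityTheory
open scoped RealInnerProductSpace

namespace Vale.Agent.P226.K3

section onedim

/-- First absolute moment of the standard Gaussian on the line. -/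
lemma integral_abs_gaussianReal :
    ∫ t, |t| ∂(gaussianReal 0 1) = 2 / √(2 * Real.pi) := by
  have hI : ∫ t in Set.Ioi (0 : ℝ), t * Real.exp (-(1 / 2) * t ^ 2) = 1 := by
    have h := integral_Ioi_of_hasDerivAt_of_tendsto (a := 0) (m := 0)
      (f := fun t : ℝ => -Real.exp (-(1 / 2) * t ^ 2))
      (f' := fun t : ℝ => t * Real.exp (-(1 / 2) * t ^ 2)) ?_ ?_ ?_ ?_
    · rw [h]; simp
    · exact Continuous.continuousWithinAt (by fun_prop)
    · intro t _
      have h1 : HasDerivAt (fun t : ℝ => -(1 / 2) * t ^ 2) (-t) t := by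
        have := ((hasDerivAt_id t).pow 2).const_mul (-(1 / 2) : ℝ)
        convert! this using 1
        simp only [one_div, Nat.cast_ofNat, id_eq, Nat.add_one_sub_one, pow_one, mul_one, neg_mul, ne_eq, OfNat.ofNat_ne_zero, not_false_eq_true, inv_mul_cancel_left₀]
      have h2 := h1.exp.neg
      convert! h2 using 1
      ring
    · exact (integrable_mul_exp_neg_mul_sq (by norm_num : (0 : ℝ) < 1 / 2)).integrableOn
    · have h3 : Filter.Tendsto (fun t : ℝ => (1 / 2) * t ^ 2) Filter.atTop Filter.atTop :=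
        (Filter.tendsto_pow_atTop (by norm_num)).const_mul_atTop (by norm_num)
      have h4 := Real.tendsto_exp_neg_atTop_nhds_zero.comp h3
      have h5 := h4.neg
      simp only [neg_zero] at h5
      refine h5.congr fun t => ?_
      simp
  rw [integral_gaussianReal_eq_integral_smul (by norm_num)]
  have h0 : ∀ t : ℝ, gaussianPDFReal 0 1 t • |t|
      = (fun s : ℝ => (√(2 * Real.pi))⁻¹ * (s * Real.exp (-(1 / 2) * s ^ 2))) |t| := by
    intro t
    simp only [gaussianPDFReal, smul_eq_mul, sq_abs]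
    have : -(t - 0) ^ 2 / (2 * ((1 : NNReal) : ℝ)) = -(1 / 2) * t ^ 2 := by
      simp; ring
    rw [this]
    simp only [NNReal.coe_one, mul_one, Nat.ofNat_nonneg, Real.sqrt_mul, mul_inv_rev, one_div, neg_mul]
    ring
  simp_rw [h0]
  rw [integral_comp_abs (f := fun s : ℝ => (√(2 * Real.pi))⁻¹ * (s * Real.exp (-(1 / 2) * s ^ 2)))]
  rw [integral_const_mul, hI]
  field_simp

end onedim

variable {E : Type*} [NormedAddCommGroup E] [InnerProductSpace ℝ E] [FiniteDimensional ℝ E]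
  [MeasurableSpace E] [BorelSpace E]

/-- The law of a linear form under the standard Gaussian. -/
lemma map_inner_stdGaussian (u : E) :
    (stdGaussian E).map (fun x => ⟪u, x⟫) = (gaussianReal 0 1).map (fun t => ‖u‖ * t) := by
  have h1 : (stdGaussian E).map (fun x => ⟪u, x⟫)
      = gaussianReal 0 (Var[innerSL ℝ u; stdGaussian E]).toNNReal := by
    have := IsGaussian.map_eq_gaussianReal (μ := stdGaussian E) (innerSL ℝ u)
    rw [integral_strongDual_stdGaussian] at this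
    exact this
  rw [h1, variance_dual_stdGaussian, gaussianReal_map_const_mul]
  congr 1
  · simp
  · ext
    simp only [innerSL_apply_norm, Real.coe_toNNReal', norm_nonneg, pow_succ_nonneg, sup_of_le_left, mul_one, NNReal.coe_mk]

lemma integral_abs_inner_stdGaussian (u : E) :
    ∫ x, |⟪u, x⟫| ∂(stdGaussian E) = 2 / √(2 * Real.pi) * ‖u‖ := by
  have h1 : ∫ x, |⟪u, x⟫| ∂(stdGaussian E)
      = ∫ t, |t| ∂((stdGaussian E).map (fun x => ⟪u, x⟫)) := by
    rw [integral_map (by fun_prop) (by fun_prop)]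
  rw [h1, map_inner_stdGaussian, integral_map (by fun_prop) (by fun_prop)]
  simp_rw [abs_mul, abs_norm]
  rw [integral_const_mul, integral_abs_gaussianReal]
  ring

lemma integral_inner_stdGaussian (u : E) :
    ∫ x, ⟪u, x⟫ ∂(stdGaussian E) = 0 :=
  integral_strongDual_stdGaussian (innerSL ℝ u)

lemma integrable_id_stdGaussian : Integrable (fun x : E => x) (stdGaussian E) :=
  IsGaussian.integrable_fun_id

lemma integrable_inner_stdGaussian (u : E) :
    Integrable (fun x : E => ⟪u, x⟫) (stdGaussian E) :=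
  integrable_id_stdGaussian.const_inner u

/-- Range of three numbers as half the perimeter of their differences. -/
lemma max_formula (a b c : ℝ) :
    max a (max b c) + max (-a) (max (-b) (-c)) = (|a - b| + |b - c| + |a - c|) / 2 := by
  rcases le_total a b with h1 | h1 <;> rcases le_total b c with h2 | h2 <;>
  rcases le_total a c with h3 | h3 <;>
  simp only [abs_of_nonpos, abs_of_nonneg, sub_nonneg, sub_nonpos, h1, h2, h3, max_eq_left,
    max_eq_right, neg_le_neg_iff] <;>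
  grind

/-- The standard Gaussian is symmetric. -/
lemma integral_neg_stdGaussian (f : E → ℝ) :
    ∫ x, f (-x) ∂(stdGaussian E) = ∫ x, f x ∂(stdGaussian E) := by
  have h := stdGaussian_map (E := E) (LinearIsometryEquiv.neg ℝ)
  calc ∫ x, f (-x) ∂(stdGaussian E)
      = ∫ x, f ((LinearIsometryEquiv.neg ℝ : E ≃ₗᵢ[ℝ] E) x) ∂(stdGaussian E) := by simp
    _ = ∫ x, f x ∂((stdGaussian E).map (LinearIsometryEquiv.neg ℝ : E ≃ₗᵢ[ℝ] E)) := by
        rw [MeasurableEmbedding.integral_map]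
        exact (LinearIsometryEquiv.neg ℝ : E ≃ₗᵢ[ℝ] E).toHomeomorph.measurableEmbedding
    _ = ∫ x, f x ∂(stdGaussian E) := by rw [h]

lemma integrable_max3 (u v w : E) :
    Integrable (fun x : E => max ⟪u, x⟫ (max ⟪v, x⟫ ⟪w, x⟫)) (stdGaussian E) :=
  (integrable_inner_stdGaussian u).sup
    ((integrable_inner_stdGaussian v).sup (integrable_inner_stdGaussian w))

/-- Mean of the maximum of three linear forms. -/
lemma integral_max3 (u v w : E) :
    ∫ x, max ⟪u, x⟫ (max ⟪v, x⟫ ⟪w, x⟫) ∂(stdGaussian E)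
      = (‖u - v‖ + ‖v - w‖ + ‖u - w‖) / (2 * √(2 * Real.pi)) := by
  have hneg : ∫ x, max (-⟪u, x⟫) (max (-⟪v, x⟫) (-⟪w, x⟫)) ∂(stdGaussian E)
      = ∫ x, max ⟪u, x⟫ (max ⟪v, x⟫ ⟪w, x⟫) ∂(stdGaussian E) := by
    rw [← integral_neg_stdGaussian (fun x => max ⟪u, x⟫ (max ⟪v, x⟫ ⟪w, x⟫))]
    simp only [inner_neg_right]
  have hint : Integrable (fun x : E => max (-⟪u, x⟫) (max (-⟪v, x⟫) (-⟪w, x⟫)))
      (stdGaussian E) :=
    (integrable_inner_stdGaussian u).neg.sup
      ((integrable_inner_stdGaussian v).neg.sup (integrable_inner_stdGaussian w).neg)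
  have habs : ∀ u v : E, ∫ x, |⟪u, x⟫ - ⟪v, x⟫| ∂(stdGaussian E)
      = 2 / √(2 * Real.pi) * ‖u - v‖ := by
    intro u v
    rw [← integral_abs_inner_stdGaussian]
    simp [inner_sub_left]
  have hiabs : ∀ u v : E, Integrable (fun x => |⟪u, x⟫ - ⟪v, x⟫|) (stdGaussian E) :=
    fun u v => ((integrable_inner_stdGaussian u).sub (integrable_inner_stdGaussian v)).abs
  have hsum : ∫ x, max ⟪u, x⟫ (max ⟪v, x⟫ ⟪w, x⟫) ∂(stdGaussian E)
      + ∫ x, max (-⟪u, x⟫) (max (-⟪v, x⟫) (-⟪w, x⟫)) ∂(stdGaussian E)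
      = (2 / √(2 * Real.pi) * ‖u - v‖ + 2 / √(2 * Real.pi) * ‖v - w‖
          + 2 / √(2 * Real.pi) * ‖u - w‖) / 2 := by
    have e1 := integral_add (hiabs u v) (hiabs v w)
    have e2 := integral_add ((hiabs u v).add (hiabs v w)) (hiabs u w)
    have e3 := integral_add (integrable_max3 u v w) hint
    simp only [Pi.add_apply] at e2
    rw [← e3, ← habs, ← habs, ← habs, ← e1, ← e2, ← integral_div]
    refine integral_congr_ae (Filter.Eventually.of_forall fun x => ?_)
    exact max_formula _ _ _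
  rw [hneg] at hsum
  have h2 : (2 : ℝ) * √(2 * Real.pi) ≠ 0 := by positivity
  have h3 : √(2 * Real.pi) ≠ 0 := by positivity
  field_simp at hsum ⊢
  linarith

/-- The first moment vector of a set. -/
noncomputable def fm (A : Set E) : E := ∫ x in A, x ∂(stdGaussian E)

lemma inner_fm (u : E) (A : Set E) :
    ⟪u, fm A⟫ = ∫ x in A, ⟪u, x⟫ ∂(stdGaussian E) := by
  rw [fm, ← integral_inner integrable_id_stdGaussian.integrableOn]

/-- Bound of a linear functional of the moments of a finite partition by the mean of any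
integrable majorant of the linear forms. -/
lemma sum_inner_fm_le {ι : Type*} [Fintype ι] (A : ι → Set E) (hm : ∀ i, MeasurableSet (A i))
    (hd : Pairwise fun i j => Disjoint (A i) (A j)) (hU : ⋃ i, A i = Set.univ)
    (v : ι → E) (M : E → ℝ) (hM : Integrable M (stdGaussian E))
    (hv : ∀ i x, ⟪v i, x⟫ ≤ M x) :
    ∑ i, ⟪v i, fm (A i)⟫ ≤ ∫ x, M x ∂(stdGaussian E) := by
  have h1 : ∫ x, M x ∂(stdGaussian E) = ∑ i, ∫ x in A i, M x ∂(stdGaussian E) := by
    rw [← setIntegral_univ, ← hU, integral_iUnion_fintype hm hd fun i => hM.integrableOn]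
  rw [h1]
  refine Finset.sum_le_sum fun i _ => ?_
  rw [inner_fm]
  exact setIntegral_mono (integrable_inner_stdGaussian _).integrableOn hM.integrableOn
    fun x => hv i x

omit [FiniteDimensional ℝ E] [MeasurableSpace E] [BorelSpace E] in
/-- Elementary: for three vectors, the square of the perimeter is at most nine times the sum of
the squared norms. -/
lemma perimeter_sq_le (u v w : E) :
    (‖u - v‖ + ‖v - w‖ + ‖u - w‖) ^ 2 ≤ 9 * (‖u‖ ^ 2 + ‖v‖ ^ 2 + ‖w‖ ^ 2) := by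
  have h1 := norm_sub_sq_real u v
  have h2 := norm_sub_sq_real v w
  have h3 := norm_sub_sq_real u w
  have h4 : 0 ≤ ‖u + v + w‖ ^ 2 := by positivity
  rw [norm_add_sq_real, norm_add_sq_real, inner_add_left] at h4
  nlinarith [sq_nonneg (‖u - v‖ - ‖v - w‖), sq_nonneg (‖v - w‖ - ‖u - w‖),
    sq_nonneg (‖u - v‖ - ‖u - w‖)]

/-- The three cell bound: a real number `F` dominated by the mean of the maximum of three linear
forms whose squared norms sum to `F` is at most 9/(8π). -/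
lemma bound_of_le_max3 (u v w : E)
    (h : ‖u‖ ^ 2 + ‖v‖ ^ 2 + ‖w‖ ^ 2 ≤
      ∫ x, max ⟪u, x⟫ (max ⟪v, x⟫ ⟪w, x⟫) ∂(stdGaussian E)) :
    ‖u‖ ^ 2 + ‖v‖ ^ 2 + ‖w‖ ^ 2 ≤ 9 / (8 * Real.pi) := by
  rw [integral_max3] at h
  set F := ‖u‖ ^ 2 + ‖v‖ ^ 2 + ‖w‖ ^ 2 with hF
  set P := ‖u - v‖ + ‖v - w‖ + ‖u - w‖ with hP
  have hPsq : P ^ 2 ≤ 9 * F := perimeter_sq_le u v w
  have hF0 : 0 ≤ F := by (clear * -; positivity)
  have hP0 : 0 ≤ P := by (clear * -; positivity)
  have hs : √(2 * Real.pi) ^ 2 = 2 * Real.pi := Real.sq_sqrt (by positivity)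
  have hspos : 0 < √(2 * Real.pi) := by positivity
  rcases hF0.eq_or_lt with h0 | h0
  · rw [← h0]; positivity
  · have h5 : F * (2 * √(2 * Real.pi)) ≤ P := by
      rwa [le_div_iff₀ (by positivity)] at h
    have h6 : (F * (2 * √(2 * Real.pi))) ^ 2 ≤ P ^ 2 := by
      (clear * - h0 h5; gcongr)
    have h7 : F * F * (8 * Real.pi) ≤ 9 * F := by
      calc F * F * (8 * Real.pi) = (F * (2 * √(2 * Real.pi))) ^ 2 := by
            rw [mul_pow, mul_pow, hs]; ring
        _ ≤ 9 * F := h6.trans hPsq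
    have h8 : F * (8 * Real.pi) ≤ 9 := by
      by_contra hc
      push Not at hc
      nlinarith only [h7, h0, hc]
    rwa [le_div_iff₀ (by positivity)]

/-- At most three cells: the propeller bound in every dimension. -/
theorem sum_norm_fm_sq_le_three (A : Fin 3 → Set E) (hm : ∀ i, MeasurableSet (A i))
    (hd : Pairwise fun i j => Disjoint (A i) (A j)) (hU : ⋃ i, A i = Set.univ) :
    ∑ i, ‖fm (A i)‖ ^ 2 ≤ 9 / (8 * Real.pi) := by
  rw [Fin.sum_univ_three]
  apply bound_of_le_max3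
  have h := sum_inner_fm_le A hm hd hU (fun i => fm (A i)) _
    (integrable_max3 (fm (A 0)) (fm (A 1)) (fm (A 2))) (by
      intro i x
      fin_cases i <;> simp)
  simp only [real_inner_self_eq_norm_sq] at h
  rwa [Fin.sum_univ_three] at h

/-- At most three cells, any number `k ≤ 3` of them. -/
theorem sum_norm_fm_sq_le_of_le_three {k : ℕ} (hk : k ≤ 3) (A : Fin k → Set E)
    (hm : ∀ i, MeasurableSet (A i))
    (hd : Pairwise fun i j => Disjoint (A i) (A j)) (hU : ⋃ i, A i = Set.univ) :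
    ∑ i, ‖fm (A i)‖ ^ 2 ≤ 9 / (8 * Real.pi) := by
  interval_cases k
  · simp only [Finset.univ_eq_empty, Finset.sum_empty]
    positivity
  · have h := sum_inner_fm_le A hm hd hU (fun i => fm (A i)) _
      (integrable_max3 (fm (A 0)) 0 0) (by
        intro i x
        fin_cases i
        simp only [Fin.zero_eta, Fin.isValue, inner_zero_left, max_self, le_sup_left])
    have h2 := bound_of_le_max3 (fm (A 0)) 0 0 (by
      simp only [real_inner_self_eq_norm_sq] at h
      simpa only [Fin.isValue, norm_zero, ne_eq, OfNat.ofNat_ne_zero, not_false_eq_true, zero_pow, add_zero,     inner_zero_left, max_self, Finset.univ_unique, Fin.default_eq_zero, Finset.sum_singleton] using h)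
    simpa only [Finset.univ_unique, Fin.default_eq_zero, Fin.isValue, Finset.sum_singleton, ge_iff_le, norm_zero,     ne_eq, OfNat.ofNat_ne_zero, not_false_eq_true, zero_pow, add_zero] using h2
  · have h := sum_inner_fm_le A hm hd hU (fun i => fm (A i)) _
      (integrable_max3 (fm (A 0)) (fm (A 1)) 0) (by
        intro i x
        fin_cases i <;> simp)
    have h2 := bound_of_le_max3 (fm (A 0)) (fm (A 1)) 0 (by
      simp only [real_inner_self_eq_norm_sq] at h
      simpa only [Fin.isValue, norm_zero, ne_eq, OfNat.ofNat_ne_zero, not_false_eq_true, zero_pow, add_zero,     inner_zero_left, Fin.sum_univ_two] using h)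
    simpa only [Fin.sum_univ_two, Fin.isValue, ge_iff_le, norm_zero, ne_eq, OfNat.ofNat_ne_zero,     not_false_eq_true, zero_pow, add_zero] using h2
  · exact sum_norm_fm_sq_le_three A hm hd hU

end Vale.Agent.P226.K3
end
end

section

section

/-!
# P226: partitions, merging of two cells, minimal counterexample

`fm A` (from `K3.lean`) is the Gaussian first moment of `A`.  This file reduces the propeller
inequality to a statement about a strictly obtuse centred configuration of at least four vectors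
which are the first moments of a measurable partition.
-/

open MeasureTheory ProbabilityTheory
open scoped RealInnerProductSpace

namespace Vale.Agent.P226

open K3

variable {E : Type*} [NormedAddCommGroup E] [InnerProductSpace ℝ E] [FiniteDimensional ℝ E]
  [MeasurableSpace E] [BorelSpace E]

/-- A finite family of sets is a measurable partition of the space. -/
structure IsPart {ι : Type*} (A : ι → Set E) : Prop where
  meas : ∀ i, MeasurableSet (A i)
  disj : Pairwise fun i j => Disjoint (A i) (A j)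
  cover : ⋃ i, A i = Set.univ

/-- Gaussian first moments of disjoint sets add up. -/
lemma fm_union {A B : Set E} (hB : MeasurableSet B) (h : Disjoint A B) :
    fm (A ∪ B) = fm A + fm B := by
  unfold fm
  exact setIntegral_union h hB integrable_id_stdGaussian.integrableOn
    integrable_id_stdGaussian.integrableOn

lemma fm_univ : fm (Set.univ : Set E) = 0 := by
  refine ext_inner_left ℝ fun u => ?_
  rw [inner_fm, setIntegral_univ, integral_inner_stdGaussian, inner_zero_right]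

/-- The moments of a partition sum to zero. -/
lemma IsPart.sum_fm {ι : Type*} [Fintype ι] {A : ι → Set E} (h : IsPart A) :
    ∑ i, fm (A i) = 0 := by
  have h1 := integral_iUnion_fintype (μ := stdGaussian E) (f := fun x : E => x) h.meas h.disj
    fun i => integrable_id_stdGaussian.integrableOn
  rw [h.cover] at h1
  have h2 : ∑ i, fm (A i) = fm (Set.univ : Set E) := h1.symm
  rw [h2, fm_univ]

omit [NormedAddCommGroup E] [InnerProductSpace ℝ E] [FiniteDimensional ℝ E] [BorelSpace E] in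
/-- Reindexing a partition. -/
lemma IsPart.comp {ι κ : Type*} {A : ι → Set E} (h : IsPart A) (e : κ ≃ ι) :
    IsPart (fun i => A (e i)) where
  meas i := h.meas _
  disj i j hij := h.disj (fun hc => hij (e.injective hc))
  cover := by
    rw [← h.cover]
    exact e.surjective.iUnion_comp A

/-- The propeller bound for `k` cells in the space `E`. -/
def Bdd (E : Type*) [NormedAddCommGroup E] [InnerProductSpace ℝ E] [FiniteDimensional ℝ E]
    [MeasurableSpace E] [BorelSpace E] (k : ℕ) : Prop :=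
  ∀ A : Fin k → Set E, IsPart A → ∑ i, ‖fm (A i)‖ ^ 2 ≤ 9 / (8 * Real.pi)

lemma Bdd.of_card {k : ℕ} (hb : Bdd E k) {ι : Type*} [Fintype ι] (hc : Fintype.card ι = k)
    (A : ι → Set E) (h : IsPart A) : ∑ i, ‖fm (A i)‖ ^ 2 ≤ 9 / (8 * Real.pi) := by
  have e : Fin k ≃ ι := (Fintype.equivFinOfCardEq hc).symm
  have h1 := hb _ (h.comp e)
  rwa [e.sum_comp (fun i => ‖fm (A i)‖ ^ 2)] at h1

lemma bdd_of_le_three {k : ℕ} (hk : k ≤ 3) : Bdd E k := fun A h =>
  sum_norm_fm_sq_le_of_le_three hk A h.meas h.disj h.cover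

omit [NormedAddCommGroup E] [InnerProductSpace ℝ E] [FiniteDimensional ℝ E] [BorelSpace E] in
/-- Merging two different cells of a partition. -/
lemma IsPart.merge {ι : Type*} [DecidableEq ι] {A : ι → Set E} (h : IsPart A) {i j : ι}
    (hij : i ≠ j) :
    IsPart (fun l : {l : ι // l ≠ j} => if l.1 = i then A i ∪ A j else A l.1) where
  meas l := by
    split_ifs
    · exact (h.meas i).union (h.meas j)
    · exact h.meas _
  disj l m hlm := by
    have hlm' : l.1 ≠ m.1 := fun hc => hlm (Subtype.ext hc)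
    dsimp only
    split_ifs with h1 h2 h2
    · exact absurd (h1.trans h2.symm) hlm'
    · refine Set.disjoint_union_left.2 ⟨h.disj (Ne.symm h2), h.disj (Ne.symm m.2)⟩
    · refine Set.disjoint_union_right.2 ⟨h.disj h1, h.disj l.2⟩
    · exact h.disj hlm'
  cover := by
    refine Set.eq_univ_of_forall fun x => ?_
    have hx : x ∈ ⋃ i, A i := by rw [h.cover]; trivial
    obtain ⟨l, hl⟩ := Set.mem_iUnion.1 hx
    by_cases hlj : l = j
    · refine Set.mem_iUnion.2 ⟨⟨i, hij⟩, ?_⟩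
      dsimp only
      rw [if_pos rfl]
      exact Or.inr (hlj ▸ hl)
    · refine Set.mem_iUnion.2 ⟨⟨l, hlj⟩, ?_⟩
      dsimp only
      split_ifs with h1
      · exact Or.inl (h1 ▸ hl)
      · exact hl

lemma sum_merge {ι : Type*} [Fintype ι] [DecidableEq ι] {A : ι → Set E} (h : IsPart A)
    {i j : ι} (hij : i ≠ j) :
    ∑ l : {l : ι // l ≠ j}, ‖fm (if l.1 = i then A i ∪ A j else A l.1)‖ ^ 2
      = ∑ l, ‖fm (A l)‖ ^ 2 + 2 * ⟪fm (A i), fm (A j)⟫ := by
  have h1 : ∑ l : {l : ι // l ≠ j}, ‖fm (if l.1 = i then A i ∪ A j else A l.1)‖ ^ 2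
      = ∑ l ∈ Finset.univ.erase j, ‖fm (if l = i then A i ∪ A j else A l)‖ ^ 2 := by
    rw [← Finset.sum_subtype (Finset.univ.erase j) (p := fun l => l ≠ j)
      (f := fun l => ‖fm (if l = i then A i ∪ A j else A l)‖ ^ 2) (by simp only [Finset.mem_erase, ne_eq, Finset.mem_univ, and_true, implies_true])]
  have hi : i ∈ Finset.univ.erase j := by simp [hij]
  rw [h1, ← Finset.add_sum_erase _ _ hi, ← Finset.add_sum_erase Finset.univ _ (Finset.mem_univ j),
    ← Finset.add_sum_erase _ (fun l => ‖fm (A l)‖ ^ 2) hi]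
  have h2 : ∑ l ∈ (Finset.univ.erase j).erase i, ‖fm (if l = i then A i ∪ A j else A l)‖ ^ 2
      = ∑ l ∈ (Finset.univ.erase j).erase i, ‖fm (A l)‖ ^ 2 := by
    refine Finset.sum_congr rfl fun l hl => ?_
    rw [if_neg (Finset.ne_of_mem_erase hl)]
  rw [h2, if_pos rfl, fm_union (h.meas j) (h.disj hij), norm_add_sq_real]
  ring

/-- If the bound holds for `k` cells and fails for a partition in `k+1` cells then the moments
of that partition have pairwise negative inner products. -/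
lemma inner_fm_neg_of_bad {k : ℕ} (hb : Bdd E k) {ι : Type*} [Fintype ι] [DecidableEq ι]
    (hc : Fintype.card ι = k + 1) {A : ι → Set E} (h : IsPart A)
    (hbad : 9 / (8 * Real.pi) < ∑ i, ‖fm (A i)‖ ^ 2) {i j : ι} (hij : i ≠ j) :
    ⟪fm (A i), fm (A j)⟫ < 0 := by
  have hcard : Fintype.card {l : ι // l ≠ j} = k := by
    rw [Fintype.card_subtype_compl, Fintype.card_subtype_eq, hc]
    simp only [add_tsub_cancel_right]
  have h1 := hb.of_card hcard _ (h.merge hij)
  rw [sum_merge h hij] at h1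
  (clear k hb hc h hij hcard; linarith)

/-- The data of a minimal counterexample: at least four vectors, sorted by decreasing norm,
pairwise strictly obtuse, with sum zero, which are the moments of a partition, and whose sum of
squared norms exceeds the propeller constant. -/
structure Bad (E : Type*) [NormedAddCommGroup E] [InnerProductSpace ℝ E] [FiniteDimensional ℝ E]
    [MeasurableSpace E] [BorelSpace E] where
  /-- number of cells minus four -/
  m : ℕ
  /-- the cells -/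
  A : Fin (m + 4) → Set E
  part : IsPart A
  big : 9 / (8 * Real.pi) < ∑ i, ‖fm (A i)‖ ^ 2
  obtuse : ∀ i j, i ≠ j → ⟪fm (A i), fm (A j)⟫ < 0
  anti : Antitone fun i => ‖fm (A i)‖

/-- If the propeller bound fails for some number of cells then there is a minimal
counterexample. -/
theorem exists_bad {k : ℕ} (hk : ¬ Bdd E k) : Nonempty (Bad E) := by
  classical
  have hex : ∃ k, ¬ Bdd E k := ⟨k, hk⟩
  obtain ⟨n, hn, hmin⟩ : ∃ n, ¬ Bdd E n ∧ ∀ l < n, Bdd E l :=
    ⟨Nat.find hex, Nat.find_spec hex, fun l hl => not_not.1 (Nat.find_min hex hl)⟩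
  have hn4 : 4 ≤ n := by
    by_contra hc
    exact hn (bdd_of_le_three (by omega))
  obtain ⟨m, rfl⟩ : ∃ m, n = m + 4 := ⟨n - 4, by omega⟩
  unfold Bdd at hn
  push Not at hn
  obtain ⟨A, hA, hbig⟩ := hn
  let σ : Equiv.Perm (Fin (m + 4)) := Tuple.sort fun i => -‖fm (A i)‖
  have hσ : Monotone ((fun i => -‖fm (A i)‖) ∘ σ) := Tuple.monotone_sort _
  have hA' : IsPart (fun i => A (σ i)) := hA.comp σ
  have hbig' : 9 / (8 * Real.pi) < ∑ i, ‖fm (A (σ i))‖ ^ 2 := by
    rwa [Equiv.sum_comp σ (fun i => ‖fm (A i)‖ ^ 2)]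
  refine ⟨⟨m, fun i => A (σ i), hA', hbig', fun i j hij => ?_, fun i j hij => ?_⟩⟩
  · exact inner_fm_neg_of_bad (k := m + 3) (hmin _ (by omega)) (by simp) hA' hbig' hij
  · have := hσ hij
    simp only [Function.comp] at this
    exact neg_le_neg_iff.1 this

/-- It is enough to exclude minimal counterexamples. -/
theorem bdd_of_isEmpty_bad (h : IsEmpty (Bad E)) (k : ℕ) : Bdd E k := by
  by_contra hk
  exact h.elim (exists_bad hk).some

namespace Bad

/-- The moment vectors of a minimal counterexample. -/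
noncomputable def z (B : Bad E) (i : Fin (B.m + 4)) : E := fm (B.A i)

lemma sum_z (B : Bad E) : ∑ i, B.z i = 0 := B.part.sum_fm

lemma inner_z_neg (B : Bad E) {i j : Fin (B.m + 4)} (h : i ≠ j) : ⟪B.z i, B.z j⟫ < 0 :=
  B.obtuse i j h

lemma norm_z_anti (B : Bad E) {i j : Fin (B.m + 4)} (h : i ≤ j) : ‖B.z j‖ ≤ ‖B.z i‖ :=
  B.anti h

lemma lt_sum_sq (B : Bad E) : 9 / (8 * Real.pi) < ∑ i, ‖B.z i‖ ^ 2 := B.big

end Bad

end Vale.Agent.P226
end
end

section

section

/-!
# P226: Gaussian integrals attached to a three dimensional threshold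

Closed forms for `E |x|` and `E (a x₁ + η u - l |x|)₊`, where `x` is standard Gaussian in `ℝ³`
and `u` is an independent standard Gaussian.
-/

open MeasureTheory ProbabilityTheory Set
open scoped ENNReal NNReal RealInnerProductSpace

namespace Vale.Agent.P226.Gauss3

/-- The standard Gaussian density as a plain function. -/
lemma gaussianPDF_std (x : ℝ) :
    gaussianPDF 0 1 x = ENNReal.ofReal ((√(2 * Real.pi))⁻¹ * Real.exp (-x ^ 2 / 2)) := by
  simp only [gaussianPDF, gaussianPDFReal, NNReal.coe_one, mul_one, Nat.ofNat_nonneg, Real.sqrt_mul, mul_inv_rev, sub_zero, inv_pos, Real.sqrt_pos, Nat.ofNat_pos, mul_nonneg_iff_of_pos_right, inv_nonneg, Real.sqrt_nonneg, ENNReal.ofReal_mul, ENNReal.ofReal_inv_of_pos]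

lemma lintegral_gaussianReal_std (f : ℝ → ℝ≥0∞) :
    ∫⁻ x, f x ∂(gaussianReal 0 1)
      = ∫⁻ x, ENNReal.ofReal ((√(2 * Real.pi))⁻¹ * Real.exp (-x ^ 2 / 2)) * f x := by
  rw [gaussianReal_of_var_ne_zero _ (by norm_num),
    lintegral_withDensity_eq_lintegral_mul_non_measurable _ (measurable_gaussianPDF 0 1)
      (Filter.Eventually.of_forall fun x => gaussianPDF_lt_top)]
  simp only [Pi.mul_apply, gaussianPDF_std, Nat.ofNat_nonneg, Real.sqrt_mul, mul_inv_rev, inv_pos, Real.sqrt_pos, Nat.ofNat_pos, mul_nonneg_iff_of_pos_right, inv_nonneg, Real.sqrt_nonneg, ENNReal.ofReal_mul, ENNReal.ofReal_inv_of_pos]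

/-- The square of the radius of a planar standard Gaussian is exponential with mean `2`. -/
lemma lintegral_sq_add_sq {f : ℝ → ℝ≥0∞} (hf : Measurable f) :
    ∫⁻ y, ∫⁻ z, f (y ^ 2 + z ^ 2) ∂(gaussianReal 0 1) ∂(gaussianReal 0 1)
      = ∫⁻ w in Ioi (0 : ℝ), ENNReal.ofReal (1 / 2 * Real.exp (-w / 2)) * f w := by
  have hpi : (0 : ℝ) < 2 * Real.pi := by positivity
  set c : ℝ := (√(2 * Real.pi))⁻¹ with hc
  have hc0 : 0 ≤ c := by positivity
  have hc2 : c * c * (2 * Real.pi) = 1 := by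
    rw [hc, ← mul_inv, Real.mul_self_sqrt hpi.le]
    field_simp
  simp_rw [lintegral_gaussianReal_std, ← hc]
  have h1 : ∀ y : ℝ, ENNReal.ofReal (c * Real.exp (-y ^ 2 / 2)) *
      ∫⁻ z, ENNReal.ofReal (c * Real.exp (-z ^ 2 / 2)) * f (y ^ 2 + z ^ 2)
      = ∫⁻ z, ENNReal.ofReal (c * c * Real.exp (-(y ^ 2 + z ^ 2) / 2)) * f (y ^ 2 + z ^ 2) := by
    intro y
    rw [← lintegral_const_mul _ (by fun_prop)]
    refine lintegral_congr fun z => ?_
    rw [← mul_assoc, ← ENNReal.ofReal_mul (by positivity)]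
    congr 2
    have : -(y ^ 2 + z ^ 2) / 2 = -y ^ 2 / 2 + -z ^ 2 / 2 := by ring
    rw [this, Real.exp_add]
    ring
  simp_rw [h1]
  rw [← lintegral_prod (μ := volume) (ν := volume)
    (f := fun p : ℝ × ℝ => ENNReal.ofReal (c * c * Real.exp (-(p.1 ^ 2 + p.2 ^ 2) / 2)) *
      f (p.1 ^ 2 + p.2 ^ 2)) (by fun_prop)]
  rw [← Measure.volume_eq_prod]
  rw [← lintegral_comp_polarCoord_symm]
  have h2 : ∀ p : ℝ × ℝ, ENNReal.ofReal p.1 • (ENNReal.ofReal (c * c *
      Real.exp (-((polarCoord.symm p).1 ^ 2 + (polarCoord.symm p).2 ^ 2) / 2)) *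
      f ((polarCoord.symm p).1 ^ 2 + (polarCoord.symm p).2 ^ 2))
      = ENNReal.ofReal p.1 * (ENNReal.ofReal (c * c * Real.exp (-(p.1 ^ 2) / 2)) * f (p.1 ^ 2)) := by
    intro p
    have : (polarCoord.symm p).1 ^ 2 + (polarCoord.symm p).2 ^ 2 = p.1 ^ 2 := by
      simp only [polarCoord_symm_apply]
      have := Real.cos_sq_add_sin_sq p.2
      nlinarith only [this]
    rw [this, smul_eq_mul]
  simp_rw [h2]
  rw [polarCoord_target, Measure.volume_eq_prod, ← Measure.prod_restrict,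
    lintegral_prod _ (by fun_prop)]
  simp only [lintegral_const, Measure.restrict_apply, MeasurableSet.univ, univ_inter,
    Real.volume_Ioo]
  have himg : (fun r : ℝ => r ^ 2) '' Ioi 0 = Ioi 0 := by
    ext w
    constructor
    · rintro ⟨r, hr, rfl⟩
      have hr' : (0 : ℝ) < r := hr
      exact pow_pos hr' 2
    · intro hw
      exact ⟨√w, Real.sqrt_pos.2 hw, Real.sq_sqrt (le_of_lt hw)⟩
  have h3 := lintegral_image_eq_lintegral_abs_deriv_mul (s := Ioi (0 : ℝ)) measurableSet_Ioi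
    (f := fun r : ℝ => r ^ 2) (f' := fun r => 2 * r)
    (fun x _ => by simpa only [Nat.cast_ofNat, Nat.add_one_sub_one, pow_one] using ((hasDerivAt_pow 2 x).hasDerivWithinAt))
    (fun x hx y hy h => by
      have hx' : (0 : ℝ) < x := hx
      have hy' : (0 : ℝ) < y := hy
      exact (pow_left_inj₀ hx'.le hy'.le two_ne_zero).1 h)
    (fun w => ENNReal.ofReal (1 / 2 * Real.exp (-w / 2)) * f w)
  rw [himg] at h3
  rw [h3]
  refine setLIntegral_congr_fun measurableSet_Ioi fun r hr => ?_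
  have hr' : (0 : ℝ) < r := hr
  rw [abs_of_pos (by positivity), ← mul_assoc, mul_right_comm, ← mul_assoc,
    ← ENNReal.ofReal_mul hr'.le, ← ENNReal.ofReal_mul (by positivity),
    ← ENNReal.ofReal_mul (by positivity)]
  congr 2
  have : r * (c * c * Real.exp (-(r ^ 2) / 2)) * (Real.pi - -Real.pi)
      = (c * c * (2 * Real.pi)) * (r * Real.exp (-(r ^ 2) / 2)) := by ring
  rw [this, hc2]
  ring

/-- Joint law of the first coordinate and of the norm of a standard Gaussian in `ℝ³`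
(Archimedes: given the norm `r`, the first coordinate is uniform in `(-r, r)`). -/
lemma lintegral_fst_norm3 {F : ℝ × ℝ → ℝ≥0∞} (hF : Measurable F) :
    ∫⁻ x, ∫⁻ y, ∫⁻ z, F (x, √(x ^ 2 + (y ^ 2 + z ^ 2)))
        ∂(gaussianReal 0 1) ∂(gaussianReal 0 1) ∂(gaussianReal 0 1)
      = ∫⁻ r in Ioi (0 : ℝ), ∫⁻ s in Ioo (-1 : ℝ) 1,
          ENNReal.ofReal ((√(2 * Real.pi))⁻¹ * (r ^ 2 * Real.exp (-r ^ 2 / 2))) * F (r * s, r) := by
  set c : ℝ := (√(2 * Real.pi))⁻¹ with hc
  have hc0 : 0 ≤ c := by positivity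
  have h1 : ∀ x : ℝ, ∫⁻ y, ∫⁻ z, F (x, √(x ^ 2 + (y ^ 2 + z ^ 2)))
        ∂(gaussianReal 0 1) ∂(gaussianReal 0 1)
      = ∫⁻ w in Ioi (0 : ℝ), ENNReal.ofReal (1 / 2 * Real.exp (-w / 2)) * F (x, √(x ^ 2 + w)) := by
    intro x
    exact lintegral_sq_add_sq (f := fun w => F (x, √(x ^ 2 + w))) (by fun_prop)
  have h2 : ∀ x : ℝ, ∫⁻ w in Ioi (0 : ℝ), ENNReal.ofReal (1 / 2 * Real.exp (-w / 2)) *
      F (x, √(x ^ 2 + w))
      = ∫⁻ r in Ioi |x|, ENNReal.ofReal (r * Real.exp (-(r ^ 2 - x ^ 2) / 2)) * F (x, r) := by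
    intro x
    have himg : (fun r : ℝ => r ^ 2 - x ^ 2) '' Ioi |x| = Ioi 0 := by
      ext w
      constructor
      · rintro ⟨r, hr, rfl⟩
        have hr' : |x| < r := hr
        have h0 := abs_nonneg x
        have h3 : |x| ^ 2 < r ^ 2 := by nlinarith only [hr', h0]
        rw [sq_abs] at h3
        show (0 : ℝ) < r ^ 2 - x ^ 2
        linarith
      · intro hw
        have hw' : (0 : ℝ) < w := hw
        refine ⟨√(x ^ 2 + w), ?_, ?_⟩
        · show |x| < √(x ^ 2 + w)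
          rw [← Real.sqrt_sq_eq_abs]
          exact Real.sqrt_lt_sqrt (by positivity) (by linarith)
        · show √(x ^ 2 + w) ^ 2 - x ^ 2 = w
          rw [Real.sq_sqrt (by positivity)]
          ring
    have h3 := lintegral_image_eq_lintegral_abs_deriv_mul (s := Ioi |x|) measurableSet_Ioi
      (f := fun r : ℝ => r ^ 2 - x ^ 2) (f' := fun r => 2 * r)
      (fun y _ => by simpa only [hasDerivWithinAt_sub_const_iff, Nat.cast_ofNat, Nat.add_one_sub_one, pow_one] using     (((hasDerivAt_pow 2 y).sub_const (x ^ 2)).hasDerivWithinAt))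
      (fun y hy z hz h => by
        have hy' : |x| < y := hy
        have hz' : |x| < z := hz
        have h0 := abs_nonneg x
        have h' : y ^ 2 = z ^ 2 := by
          have : y ^ 2 - x ^ 2 = z ^ 2 - x ^ 2 := h
          linarith only [h]
        exact (pow_left_inj₀ (by linarith) (by linarith) two_ne_zero).1 h')
      (fun w => ENNReal.ofReal (1 / 2 * Real.exp (-w / 2)) * F (x, √(x ^ 2 + w)))
    rw [himg] at h3
    rw [h3]
    refine setLIntegral_congr_fun measurableSet_Ioi fun r hr => ?_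
    have hr' : |x| < r := hr
    have hr0 : 0 < r := lt_of_le_of_lt (abs_nonneg x) hr'
    have h4 : √(x ^ 2 + (r ^ 2 - x ^ 2)) = r := by
      rw [add_sub_cancel, Real.sqrt_sq hr0.le]
    rw [h4, abs_of_pos (by positivity), ← mul_assoc, ← ENNReal.ofReal_mul (by positivity)]
    congr 2
    ring
  simp_rw [h1, h2, lintegral_gaussianReal_std, ← hc]
  have h5 : ∀ x : ℝ, ENNReal.ofReal (c * Real.exp (-x ^ 2 / 2)) *
      ∫⁻ r in Ioi |x|, ENNReal.ofReal (r * Real.exp (-(r ^ 2 - x ^ 2) / 2)) * F (x, r)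
      = ∫⁻ r, {p : ℝ × ℝ | |p.1| < p.2}.indicator
          (fun p => ENNReal.ofReal (c * (p.2 * Real.exp (-p.2 ^ 2 / 2))) * F p) (x, r) := by
    intro x
    rw [← lintegral_const_mul _ (by fun_prop), ← lintegral_indicator measurableSet_Ioi]
    refine lintegral_congr fun r => ?_
    by_cases hr : |x| < r
    · rw [indicator_of_mem (show r ∈ Ioi |x| from hr),
        indicator_of_mem (show (x, r) ∈ {p : ℝ × ℝ | |p.1| < p.2} from hr)]
      rw [← mul_assoc, ← ENNReal.ofReal_mul (by positivity)]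
      congr 2
      have : -r ^ 2 / 2 = -x ^ 2 / 2 + -(r ^ 2 - x ^ 2) / 2 := by ring
      simp only
      rw [this, Real.exp_add]
      ring
    · rw [indicator_of_notMem (show r ∉ Ioi |x| from hr),
        indicator_of_notMem (show (x, r) ∉ {p : ℝ × ℝ | |p.1| < p.2} from hr)]
  simp_rw [h5]
  rw [lintegral_lintegral_swap]
  swap
  · apply Measurable.aemeasurable
    apply Measurable.indicator (by fun_prop)
    exact measurableSet_lt (by fun_prop) (by fun_prop)
  rw [← lintegral_indicator measurableSet_Ioi]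
  refine lintegral_congr fun r => ?_
  by_cases hr : 0 < r
  · rw [indicator_of_mem (show r ∈ Ioi (0 : ℝ) from hr)]
    have himg : (fun s : ℝ => r * s) '' Ioo (-1) 1 = Ioo (-r) r := by
      rw [image_mul_left_Ioo hr]
      simp only [mul_neg, mul_one]
    have h3 := lintegral_image_eq_lintegral_abs_deriv_mul (s := Ioo (-1 : ℝ) 1) measurableSet_Ioo
      (f := fun s : ℝ => r * s) (f' := fun _ => r)
      (fun y _ => by simpa only [id_eq, mul_one] using (((hasDerivAt_id y).const_mul r).hasDerivWithinAt))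
      (fun y _ z _ h => by
        have h' : r * y = r * z := h
        exact mul_left_cancel₀ hr.ne' h')
      (fun x => ENNReal.ofReal (c * (r * Real.exp (-r ^ 2 / 2))) * F (x, r))
    rw [himg] at h3
    have h6 : ∀ x : ℝ, {p : ℝ × ℝ | |p.1| < p.2}.indicator
          (fun p => ENNReal.ofReal (c * (p.2 * Real.exp (-p.2 ^ 2 / 2))) * F p) (x, r)
        = (Ioo (-r) r).indicator
          (fun x => ENNReal.ofReal (c * (r * Real.exp (-r ^ 2 / 2))) * F (x, r)) x := by
      intro x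
      by_cases hx : |x| < r
      · rw [indicator_of_mem (show (x, r) ∈ {p : ℝ × ℝ | |p.1| < p.2} from hx),
          indicator_of_mem (show x ∈ Ioo (-r) r from abs_lt.1 hx)]
      · rw [indicator_of_notMem (show (x, r) ∉ {p : ℝ × ℝ | |p.1| < p.2} from hx),
          indicator_of_notMem (show x ∉ Ioo (-r) r from fun h => hx (abs_lt.2 h))]
    simp_rw [h6]
    rw [lintegral_indicator measurableSet_Ioo, h3]
    refine lintegral_congr fun s => ?_
    rw [abs_of_pos hr, ← mul_assoc, ← ENNReal.ofReal_mul hr.le]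
    congr 2
    ring
  · rw [indicator_of_notMem (show r ∉ Ioi (0 : ℝ) from hr)]
    have h6 : ∀ x : ℝ, {p : ℝ × ℝ | |p.1| < p.2}.indicator
          (fun p => ENNReal.ofReal (c * (p.2 * Real.exp (-p.2 ^ 2 / 2))) * F p) (x, r) = 0 := by
      intro x
      apply indicator_of_notMem
      intro h
      have h' : |x| < r := h
      exact hr (lt_of_le_of_lt (abs_nonneg x) h')
    simp_rw [h6]
    simp

/-- The angular integral. -/
lemma integral_angle {b η : ℝ} (hη : 0 ≤ η) (hρ : 0 < b ^ 2 + η ^ 2) :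
    ∫⁻ θ in Ioo (-(Real.pi / 2)) (Real.pi / 2),
      ENNReal.ofReal (Real.cos θ ^ 2 * max (b * Real.cos θ + η * Real.sin θ) 0)
      = ENNReal.ofReal ((√(b ^ 2 + η ^ 2) + b) ^ 2 / (3 * √(b ^ 2 + η ^ 2))) := by
  set ρ : ℝ := √(b ^ 2 + η ^ 2) with hρdef
  have hρ0 : 0 < ρ := Real.sqrt_pos.2 hρ
  have hρ2 : ρ ^ 2 = b ^ 2 + η ^ 2 := Real.sq_sqrt hρ.le
  have hbρ : |b| ≤ ρ := by
    rw [hρdef, ← Real.sqrt_sq_eq_abs]
    exact Real.sqrt_le_sqrt (by nlinarith only [])
  have hb1 : -1 ≤ b / ρ := by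
    rw [le_div_iff₀ hρ0]
    linarith only [hbρ, neg_abs_le b]
  have hb2 : b / ρ ≤ 1 := by
    rw [div_le_one hρ0]
    exact le_trans (le_abs_self b) hbρ
  set β : ℝ := Real.arccos (b / ρ) with hβ
  have hcosβ : Real.cos β = b / ρ := Real.cos_arccos hb1 hb2
  have hsinβ : Real.sin β = η / ρ := by
    rw [hβ, Real.sin_arccos]
    have : 1 - (b / ρ) ^ 2 = (η / ρ) ^ 2 := by
      field_simp
      linarith only [hρ2]
    rw [this, Real.sqrt_sq (by (clear * - hη hρ; positivity))]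
  have hβ0 : 0 ≤ β := Real.arccos_nonneg _
  have hβπ : β ≤ Real.pi := Real.arccos_le_pi _
  have hpi := Real.pi_pos
  have hform : ∀ θ : ℝ, b * Real.cos θ + η * Real.sin θ = ρ * Real.cos (θ - β) := by
    intro θ
    rw [Real.cos_sub, hcosβ, hsinβ]
    (clear * - hρ0; field_simp)
  set θ₀ : ℝ := β - Real.pi / 2 with hθ₀
  have hθ₀1 : -(Real.pi / 2) ≤ θ₀ := by rw [hθ₀]; linarith only [hβ0]
  have hθ₀2 : θ₀ ≤ Real.pi / 2 := by rw [hθ₀]; linarith only [hβπ]
  have hpos : ∀ θ ∈ Icc θ₀ (Real.pi / 2), 0 ≤ b * Real.cos θ + η * Real.sin θ := by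
    intro θ hθ
    rw [hform]
    refine mul_nonneg hρ0.le (Real.cos_nonneg_of_neg_pi_div_two_le_of_le ?_ ?_)
    · have := hθ.1
      rw [hθ₀] at this
      linarith only [this]
    · linarith only [hβ0, hθ.2]
  have hneg : ∀ θ ∈ Ioo (-(Real.pi / 2)) θ₀, b * Real.cos θ + η * Real.sin θ ≤ 0 := by
    intro θ hθ
    rw [hform, ← Real.cos_neg]
    refine mul_nonpos_of_nonneg_of_nonpos hρ0.le (Real.cos_nonpos_of_pi_div_two_le_of_le ?_ ?_)
    · have := hθ.2
      rw [hθ₀] at this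
      linarith only [this]
    · linarith only [hβπ, hθ.1]
  -- restrict to `[θ₀, π/2]`
  have h1 : ∫⁻ θ in Ioo (-(Real.pi / 2)) (Real.pi / 2),
      ENNReal.ofReal (Real.cos θ ^ 2 * max (b * Real.cos θ + η * Real.sin θ) 0)
      = ∫⁻ θ in Ioc θ₀ (Real.pi / 2),
        ENNReal.ofReal (Real.cos θ ^ 2 * (b * Real.cos θ + η * Real.sin θ)) := by
    rw [setLIntegral_congr Ioo_ae_eq_Ioc]
    rw [← Ioc_union_Ioc_eq_Ioc hθ₀1 hθ₀2, lintegral_union measurableSet_Ioc]
    swap
    · rw [Set.disjoint_left]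
      intro x hx hx'
      exact absurd hx.2 (not_le.2 hx'.1)
    have hz : ∫⁻ θ in Ioc (-(Real.pi / 2)) θ₀,
      ENNReal.ofReal (Real.cos θ ^ 2 * max (b * Real.cos θ + η * Real.sin θ) 0) = 0 := by
      rw [setLIntegral_congr Ioo_ae_eq_Ioc.symm]
      rw [setLIntegral_congr_fun measurableSet_Ioo (g := fun _ => 0)]
      · simp only [lintegral_const, MeasurableSet.univ, Measure.restrict_apply, univ_inter, Real.volume_Ioo, sub_neg_eq_add, zero_mul]
      · intro θ hθ
        simp only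
        rw [max_eq_right (hneg θ hθ)]
        simp
    rw [hz, zero_add]
    refine setLIntegral_congr_fun measurableSet_Ioc fun θ hθ => ?_
    rw [max_eq_left (hpos θ ⟨hθ.1.le, hθ.2⟩)]
  rw [h1, ← ofReal_integral_eq_lintegral_ofReal]
  rotate_left
  · exact (Continuous.integrableOn_Ioc (by fun_prop))
  · refine (ae_restrict_iff' measurableSet_Ioc).2 (Filter.Eventually.of_forall fun θ hθ => ?_)
    exact mul_nonneg (sq_nonneg _) (hpos θ ⟨hθ.1.le, hθ.2⟩)
  congr 1
  rw [← intervalIntegral.integral_of_le hθ₀2]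
  rw [intervalIntegral.integral_eq_sub_of_hasDerivAt
    (f := fun θ => b * (Real.sin θ - Real.sin θ ^ 3 / 3) - η * (Real.cos θ ^ 3 / 3))]
  · have hs : Real.sin θ₀ = -(b / ρ) := by
      rw [hθ₀, Real.sin_sub_pi_div_two, hcosβ]
    have hcs : Real.cos θ₀ = η / ρ := by
      rw [hθ₀, Real.cos_sub_pi_div_two, hsinβ]
    simp only [hs, hcs, Real.sin_pi_div_two, Real.cos_pi_div_two]
    have hη2 : η ^ 2 = ρ ^ 2 - b ^ 2 := by linarith only [hρ2]
    have hη4 : η ^ 4 = (ρ ^ 2 - b ^ 2) ^ 2 := by rw [← hη2]; ring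
    field_simp
    ring_nf
    rw [hη4]
    ring
  · intro θ _
    have hd := (((Real.hasDerivAt_sin θ).sub (((Real.hasDerivAt_sin θ).pow 3).div_const 3)).const_mul
      b).sub ((((Real.hasDerivAt_cos θ).pow 3).div_const 3).const_mul η)
    convert! hd using 1
    have := Real.sin_sq_add_cos_sq θ
    have h2 : Real.sin θ ^ 2 = 1 - Real.cos θ ^ 2 := by linarith only [this]
    simp only [Nat.cast_ofNat, Nat.add_one_sub_one]
    rw [h2]
    ring
  · exact Continuous.intervalIntegrable (by fun_prop) _ _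

lemma lintegral_radial :
    ∫⁻ R in Ioi (0 : ℝ), ENNReal.ofReal (R ^ 4 * Real.exp (-R ^ 2 / 2))
      = ENNReal.ofReal (3 / 2 * √(2 * Real.pi)) := by
  have h := integral_rpow_mul_exp_neg_mul_rpow (p := 2) (q := 4) (b := 1 / 2) (by norm_num)
    (by norm_num) (by norm_num)
  have hint : ∫ R in Ioi (0 : ℝ), R ^ 4 * Real.exp (-R ^ 2 / 2) = 3 / 2 * √(2 * Real.pi) := by
    have h1 : ∫ R in Ioi (0 : ℝ), R ^ 4 * Real.exp (-R ^ 2 / 2)
        = ∫ x in Ioi (0 : ℝ), x ^ (4 : ℝ) * Real.exp (-(1 / 2) * x ^ (2 : ℝ)) := by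
      refine setIntegral_congr_fun measurableSet_Ioi fun x _ => ?_
      have e1 : x ^ (4 : ℝ) = x ^ (4 : ℕ) := by
        rw [← Real.rpow_natCast]; norm_num
      have e2 : x ^ (2 : ℝ) = x ^ (2 : ℕ) := by
        rw [← Real.rpow_natCast]; norm_num
      simp only [e1, e2]
      congr 2
      ring
    rw [h1, h]
    have g : Real.Gamma ((4 + 1) / 2) = 3 / 4 * √Real.pi := by
      have e : ((4 : ℝ) + 1) / 2 = 3 / 2 + 1 := by norm_num
      rw [e, Real.Gamma_add_one (by norm_num)]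
      have e' : ((3 : ℝ)) / 2 = 1 / 2 + 1 := by norm_num
      rw [e', Real.Gamma_add_one (by norm_num), Real.Gamma_one_half_eq]
      ring
    rw [g]
    have e3 : ((1 : ℝ) / 2) ^ (-((4 : ℝ) + 1) / 2) = 4 * √2 := by
      have : ((1 : ℝ) / 2) ^ (-((4 : ℝ) + 1) / 2) = 2 ^ ((5 : ℝ) / 2) := by
        rw [one_div, Real.inv_rpow (by norm_num), ← Real.rpow_neg (by norm_num)]
        norm_num
      rw [this]
      have : ((5 : ℝ) / 2) = 2 + 1 / 2 := by norm_num
      rw [this, Real.rpow_add (by norm_num), ← Real.sqrt_eq_rpow]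
      norm_num
    rw [e3, Real.sqrt_mul (by norm_num)]
    ring
  rw [← hint, ofReal_integral_eq_lintegral_ofReal]
  · have := (integrableOn_rpow_mul_exp_neg_mul_sq (b := 1 / 2) (by norm_num) (s := 4)
      (by norm_num))
    refine this.congr_fun (fun x _ => ?_) measurableSet_Ioi
    have e1 : x ^ (4 : ℝ) = x ^ (4 : ℕ) := by
      rw [← Real.rpow_natCast]; norm_num
    simp only [e1]
    congr 2
    ring
  · exact Filter.Eventually.of_forall fun R => by positivity

lemma cos_pos_iff_of_mem {θ : ℝ} (hθ : θ ∈ Ioo (-Real.pi) Real.pi) :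
    0 < Real.cos θ ↔ θ ∈ Ioo (-(Real.pi / 2)) (Real.pi / 2) := by
  constructor
  · intro h
    by_contra hn
    rw [mem_Ioo, not_and_or, not_lt, not_lt] at hn
    rcases hn with hn | hn
    · have : Real.cos (-θ) ≤ 0 :=
        Real.cos_nonpos_of_pi_div_two_le_of_le (by linarith) (by linarith only [hn, hθ.1])
      rw [Real.cos_neg] at this
      linarith
    · have : Real.cos θ ≤ 0 :=
        Real.cos_nonpos_of_pi_div_two_le_of_le hn (by linarith [hθ.2, Real.pi_pos])
      linarith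
  · intro h
    exact Real.cos_pos_of_mem_Ioo h

/-- Integral over the norm of the three dimensional variable and the independent coordinate. -/
lemma lintegral_K {b η : ℝ} (hη : 0 ≤ η) (hρ : 0 < b ^ 2 + η ^ 2) :
    ∫⁻ r in Ioi (0 : ℝ), ENNReal.ofReal ((√(2 * Real.pi))⁻¹ * (r ^ 2 * Real.exp (-r ^ 2 / 2))) *
      ∫⁻ u, ENNReal.ofReal (max (r * b + η * u) 0) ∂(gaussianReal 0 1)
      = ENNReal.ofReal ((√(2 * Real.pi))⁻¹ / 2 *
          ((√(b ^ 2 + η ^ 2) + b) ^ 2 / √(b ^ 2 + η ^ 2))) := by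
  set c : ℝ := (√(2 * Real.pi))⁻¹ with hc
  have hc0 : 0 ≤ c := by positivity
  have hcc : c * c * (√(2 * Real.pi)) = c := by
    rw [hc]
    field_simp
  set f : ℝ × ℝ → ℝ≥0∞ := {p : ℝ × ℝ | 0 < p.1}.indicator (fun p => ENNReal.ofReal
    (c * c * (p.1 ^ 2 * max (p.1 * b + η * p.2) 0 * Real.exp (-(p.1 ^ 2 + p.2 ^ 2) / 2)))) with hf
  have hfm : Measurable f := by
    apply Measurable.indicator (by fun_prop)
    exact measurableSet_lt (by fun_prop) (by fun_prop)
  have h1 : ∫⁻ r in Ioi (0 : ℝ), ENNReal.ofReal (c * (r ^ 2 * Real.exp (-r ^ 2 / 2))) *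
      ∫⁻ u, ENNReal.ofReal (max (r * b + η * u) 0) ∂(gaussianReal 0 1) = ∫⁻ p, f p := by
    rw [Measure.volume_eq_prod, lintegral_prod _ hfm.aemeasurable,
      ← lintegral_indicator measurableSet_Ioi]
    refine lintegral_congr fun r => ?_
    by_cases hr : 0 < r
    · rw [indicator_of_mem (show r ∈ Ioi (0 : ℝ) from hr), lintegral_gaussianReal_std,
        ← lintegral_const_mul _ (by fun_prop)]
      refine lintegral_congr fun u => ?_
      rw [hf, indicator_of_mem (show (r, u) ∈ {p : ℝ × ℝ | 0 < p.1} from hr),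
        ← ENNReal.ofReal_mul (by positivity), ← ENNReal.ofReal_mul (by positivity)]
      congr 1
      have : -(r ^ 2 + u ^ 2) / 2 = -r ^ 2 / 2 + -u ^ 2 / 2 := by ring
      simp only
      rw [this, Real.exp_add, ← hc]
      ring
    · rw [indicator_of_notMem (show r ∉ Ioi (0 : ℝ) from hr)]
      have : ∀ u, f (r, u) = 0 := fun u =>
        indicator_of_notMem (show (r, u) ∉ {p : ℝ × ℝ | 0 < p.1} from hr) _
      simp [this]
  rw [h1, ← lintegral_comp_polarCoord_symm]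
  have h2 : ∫⁻ p in polarCoord.target, ENNReal.ofReal p.1 • f (polarCoord.symm p)
      = ∫⁻ p in Ioi (0 : ℝ) ×ˢ Ioo (-Real.pi) Real.pi,
        (ENNReal.ofReal (c * c) * ENNReal.ofReal (p.1 ^ 4 * Real.exp (-p.1 ^ 2 / 2))) *
        ((Ioo (-(Real.pi / 2)) (Real.pi / 2)).indicator (fun θ => ENNReal.ofReal
          (Real.cos θ ^ 2 * max (b * Real.cos θ + η * Real.sin θ) 0)) p.2) := by
    rw [polarCoord_target]
    refine setLIntegral_congr_fun (measurableSet_Ioi.prod measurableSet_Ioo) fun p hp => ?_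
    have hR : (0 : ℝ) < p.1 := hp.1
    have hθ : p.2 ∈ Ioo (-Real.pi) Real.pi := hp.2
    rw [smul_eq_mul, polarCoord_symm_apply]
    by_cases hcos : 0 < Real.cos p.2
    · rw [indicator_of_mem ((cos_pos_iff_of_mem hθ).1 hcos), hf,
        indicator_of_mem (show (p.1 * Real.cos p.2, p.1 * Real.sin p.2) ∈
          {p : ℝ × ℝ | 0 < p.1} from mul_pos hR hcos),
        ← ENNReal.ofReal_mul hR.le, ← ENNReal.ofReal_mul (by positivity),
        ← ENNReal.ofReal_mul (by positivity)]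
      congr 1
      have e1 : (p.1 * Real.cos p.2) ^ 2 + (p.1 * Real.sin p.2) ^ 2 = p.1 ^ 2 := by
        have := Real.cos_sq_add_sin_sq p.2
        nlinarith only [this]
      have e2 : max (p.1 * Real.cos p.2 * b + η * (p.1 * Real.sin p.2)) 0
          = p.1 * max (b * Real.cos p.2 + η * Real.sin p.2) 0 := by
        rw [mul_max_of_nonneg _ _ hR.le, mul_zero]
        congr 1
        ring
      simp only
      rw [e1, e2]
      ring
    · rw [indicator_of_notMem (fun h => hcos ((cos_pos_iff_of_mem hθ).2 h)), hf,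
        indicator_of_notMem (show (p.1 * Real.cos p.2, p.1 * Real.sin p.2) ∉
          {p : ℝ × ℝ | 0 < p.1} from fun h => hcos (pos_of_mul_pos_right h hR.le))]
      simp only [mul_zero]
  rw [h2, Measure.volume_eq_prod, ← Measure.prod_restrict,
    lintegral_prod_mul (f := fun R : ℝ =>
      ENNReal.ofReal (c * c) * ENNReal.ofReal (R ^ 4 * Real.exp (-R ^ 2 / 2))) (g := fun θ : ℝ =>
      (Ioo (-(Real.pi / 2)) (Real.pi / 2)).indicator (fun θ => ENNReal.ofReal
          (Real.cos θ ^ 2 * max (b * Real.cos θ + η * Real.sin θ) 0)) θ) (by fun_prop)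
      (Measurable.indicator (by fun_prop) measurableSet_Ioo).aemeasurable]
  rw [lintegral_const_mul _ (by fun_prop), lintegral_radial,
    lintegral_indicator measurableSet_Ioo, Measure.restrict_restrict measurableSet_Ioo]
  have h3 : Ioo (-(Real.pi / 2)) (Real.pi / 2) ∩ Ioo (-Real.pi) Real.pi
      = Ioo (-(Real.pi / 2)) (Real.pi / 2) := by
    apply inter_eq_left.2
    apply Ioo_subset_Ioo <;> linarith only [Real.pi_pos]
  rw [h3, integral_angle hη hρ, ← ENNReal.ofReal_mul (by positivity),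
    ← ENNReal.ofReal_mul (by positivity)]
  congr 1
  have hs : 0 < √(b ^ 2 + η ^ 2) := Real.sqrt_pos.2 hρ
  calc c * c * (3 / 2 * √(2 * Real.pi)) * ((√(b ^ 2 + η ^ 2) + b) ^ 2 / (3 * √(b ^ 2 + η ^ 2)))
      = (c * c * √(2 * Real.pi)) / 2 * ((√(b ^ 2 + η ^ 2) + b) ^ 2 / √(b ^ 2 + η ^ 2)) := by
        (clear * - hρ; field_simp)
    _ = _ := by rw [hcc]

lemma lintegral_s {a η l : ℝ} (ha : 0 < a) :
    ∫⁻ s in Ioo (-1 : ℝ) 1, ENNReal.ofReal
        ((√((a * s - l) ^ 2 + η ^ 2) + (a * s - l)) ^ 2 / √((a * s - l) ^ 2 + η ^ 2))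
      = ENNReal.ofReal (1 / (2 * a) * ((√((a - l) ^ 2 + η ^ 2) + (a - l)) ^ 2
          - (√((a + l) ^ 2 + η ^ 2) - (a + l)) ^ 2)) := by
  have hint : IntervalIntegrable (fun s : ℝ =>
      (√((a * s - l) ^ 2 + η ^ 2) + (a * s - l)) ^ 2 / √((a * s - l) ^ 2 + η ^ 2))
      volume (-1) 1 := by
    have hb : IntervalIntegrable (fun s : ℝ => 4 * √((a * s - l) ^ 2 + η ^ 2)) volume (-1) 1 :=
      Continuous.intervalIntegrable (by fun_prop) _ _
    refine hb.mono_fun (Measurable.aestronglyMeasurable (by fun_prop))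
      (Filter.Eventually.of_forall fun s => ?_)
    beta_reduce
    set b := a * s - l
    set ρ := √(b ^ 2 + η ^ 2) with hρ
    have hρ0 : 0 ≤ ρ := Real.sqrt_nonneg _
    have hbρ : |b| ≤ ρ := by
      rw [hρ, ← Real.sqrt_sq_eq_abs]
      exact Real.sqrt_le_sqrt (by nlinarith only [])
    have h1 := abs_le.1 hbρ
    rw [Real.norm_of_nonneg (by (clear * -; positivity)), Real.norm_of_nonneg (by (clear * -; positivity))]
    rcases hρ0.eq_or_lt with h0 | h0
    · rw [← h0]; simp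
    · rw [div_le_iff₀ h0]
      nlinarith only [h1]
  rw [setLIntegral_congr Ioo_ae_eq_Ioc, ← ofReal_integral_eq_lintegral_ofReal]
  rotate_left
  · exact (intervalIntegrable_iff_integrableOn_Ioc_of_le (by norm_num)).1 hint
  · exact Filter.Eventually.of_forall fun s => by (clear * -; positivity)
  congr 1
  rw [← intervalIntegral.integral_of_le (by norm_num)]
  have hFTC := MeasureTheory.integral_eq_of_hasDerivAt_off_countable
    (f := fun s : ℝ => 1 / (2 * a) * (√((a * s - l) ^ 2 + η ^ 2) + (a * s - l)) ^ 2)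
    (f' := fun s : ℝ =>
      (√((a * s - l) ^ 2 + η ^ 2) + (a * s - l)) ^ 2 / √((a * s - l) ^ 2 + η ^ 2))
    (a := -1) (b := 1) (s := {l / a}) (countable_singleton _) (by (clear * -; fun_prop)) ?_ hint
  · rw [hFTC]
    have e1 : a * 1 - l = a - l := by ring
    have e2 : (a * -1 - l) ^ 2 = (a + l) ^ 2 := by ring
    have e3 : (a * -1 - l) = -(a + l) := by ring
    rw [e1, e2, e3]
    ring
  · intro s hs
    have hsl : s ≠ l / a := fun h => hs.2 (by simp [h])
    have hb0 : a * s - l ≠ 0 := by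
      intro h
      apply hsl
      field_simp
      linarith
    have hpos : 0 < (a * s - l) ^ 2 + η ^ 2 := by positivity
    have hρ0 : 0 < √((a * s - l) ^ 2 + η ^ 2) := Real.sqrt_pos.2 hpos
    have hd1 : HasDerivAt (fun s : ℝ => a * s - l) a s := by
      simpa using ((hasDerivAt_id s).const_mul a).sub_const l
    have hd2 := ((hd1.pow 2).add_const (η ^ 2)).sqrt hpos.ne'
    have hd3 := ((hd2.add hd1).pow 2).const_mul (1 / (2 * a))
    convert! hd3 using 1
    simp only [Nat.cast_ofNat, Nat.add_one_sub_one, pow_one, Pi.add_apply, Pi.pow_apply]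
    field_simp
    ring

/-- The inner integral, uniformly in the sign of everything. -/
lemma lintegral_G3_aux {a η l : ℝ} (hη : 0 ≤ η) (h : ∀ᵐ s : ℝ, 0 < (a * s - l) ^ 2 + η ^ 2) :
    ∫⁻ x, ∫⁻ y, ∫⁻ z, ∫⁻ u, ENNReal.ofReal (max (a * x + η * u - l * √(x ^ 2 + (y ^ 2 + z ^ 2))) 0)
        ∂(gaussianReal 0 1) ∂(gaussianReal 0 1) ∂(gaussianReal 0 1) ∂(gaussianReal 0 1)
      = ENNReal.ofReal ((√(2 * Real.pi))⁻¹ / 2) * ∫⁻ s in Ioo (-1 : ℝ) 1, ENNReal.ofReal
        ((√((a * s - l) ^ 2 + η ^ 2) + (a * s - l)) ^ 2 / √((a * s - l) ^ 2 + η ^ 2)) := by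
  have hm : Measurable (fun p : ℝ × ℝ => ∫⁻ u, ENNReal.ofReal (max (a * p.1 + η * u - l * p.2) 0)
      ∂(gaussianReal 0 1)) := by
    apply Measurable.lintegral_prod_right' (f := fun q : (ℝ × ℝ) × ℝ =>
      ENNReal.ofReal (max (a * q.1.1 + η * q.2 - l * q.1.2) 0))
    fun_prop
  rw [lintegral_fst_norm3 (F := fun p : ℝ × ℝ => ∫⁻ u, ENNReal.ofReal
    (max (a * p.1 + η * u - l * p.2) 0) ∂(gaussianReal 0 1)) hm]
  have hm2 : Measurable (fun p : ℝ × ℝ => ∫⁻ u, ENNReal.ofReal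
      (max (a * (p.1 * p.2) + η * u - l * p.1) 0) ∂(gaussianReal 0 1)) := by
    apply Measurable.lintegral_prod_right' (f := fun q : (ℝ × ℝ) × ℝ =>
      ENNReal.ofReal (max (a * (q.1.1 * q.1.2) + η * q.2 - l * q.1.1) 0))
    fun_prop
  rw [lintegral_lintegral_swap]
  swap
  · apply Measurable.aemeasurable
    apply Measurable.mul (by fun_prop)
    exact hm2
  rw [← lintegral_const_mul _ (by fun_prop)]
  refine lintegral_congr_ae ?_
  filter_upwards [ae_restrict_of_ae h] with s hs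
  have hK := lintegral_K (b := a * s - l) hη hs
  have e : ∀ r u : ℝ, a * (r * s) + η * u - l * r = r * (a * s - l) + η * u := by
    intro r u; ring
  simp_rw [e]
  rw [hK, ← ENNReal.ofReal_mul (by positivity)]

/-- Closed form of `E (a x₁ + η u - l |x|)₊` for `x` standard Gaussian in `ℝ³`, `a > 0`. -/
theorem lintegral_G3 {a η l : ℝ} (ha : 0 < a) (hη : 0 ≤ η) :
    ∫⁻ x, ∫⁻ y, ∫⁻ z, ∫⁻ u, ENNReal.ofReal (max (a * x + η * u - l * √(x ^ 2 + (y ^ 2 + z ^ 2))) 0)
        ∂(gaussianReal 0 1) ∂(gaussianReal 0 1) ∂(gaussianReal 0 1) ∂(gaussianReal 0 1)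
      = ENNReal.ofReal ((√(2 * Real.pi))⁻¹ * (1 / (4 * a) *
        ((√((a - l) ^ 2 + η ^ 2) + (a - l)) ^ 2 - (√((a + l) ^ 2 + η ^ 2) - (a + l)) ^ 2))) := by
  rw [lintegral_G3_aux hη, lintegral_s ha, ← ENNReal.ofReal_mul (by positivity)]
  · congr 1
    field_simp
    ring
  · have : ∀ᵐ s : ℝ, s ≠ l / a := by
      rw [ae_iff]
      simp
    filter_upwards [this] with s hs
    have hb0 : a * s - l ≠ 0 := by
      intro h
      apply hs
      field_simp
      linarith
    positivity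

/-- Closed form of `E (η u - l |x|)₊` for `x` standard Gaussian in `ℝ³`. -/
theorem lintegral_G3_zero {η l : ℝ} (hη : 0 < η) :
    ∫⁻ x, ∫⁻ y, ∫⁻ z, ∫⁻ u, ENNReal.ofReal (max (0 * x + η * u - l * √(x ^ 2 + (y ^ 2 + z ^ 2))) 0)
        ∂(gaussianReal 0 1) ∂(gaussianReal 0 1) ∂(gaussianReal 0 1) ∂(gaussianReal 0 1)
      = ENNReal.ofReal ((√(2 * Real.pi))⁻¹ *
        ((√(l ^ 2 + η ^ 2) - l) ^ 2 / √(l ^ 2 + η ^ 2))) := by
  rw [lintegral_G3_aux hη.le (Filter.Eventually.of_forall fun s => by positivity)]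
  simp only [zero_mul, zero_sub, even_two, Even.neg_pow, lintegral_const, Measure.restrict_apply,
    MeasurableSet.univ, univ_inter, Real.volume_Ioo]
  rw [← ENNReal.ofReal_mul (by positivity), ← ENNReal.ofReal_mul (by positivity)]
  congr 1
  have : √(l ^ 2 + η ^ 2) + -l = √(l ^ 2 + η ^ 2) - l := by ring
  rw [this]
  ring

lemma lintegral_pi_succ {n : ℕ} (μ : Fin (n + 1) → Measure ℝ) [∀ i, SigmaFinite (μ i)]
    {f : (Fin (n + 1) → ℝ) → ℝ≥0∞} (hf : Measurable f) :
    ∫⁻ y, f y ∂(Measure.pi μ)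
      = ∫⁻ a, ∫⁻ z, f (Fin.cons a z) ∂(Measure.pi fun j => μ j.succ) ∂(μ 0) := by
  have h := (measurePreserving_piFinSuccAbove μ 0).symm
  rw [← h.lintegral_comp hf, lintegral_prod _ (by (clear * - hf; fun_prop))]
  simp only [Fin.succAbove_zero]
  refine lintegral_congr fun a => lintegral_congr fun z => ?_
  congr 1
  funext i
  refine Fin.cases ?_ (fun j => ?_) i <;> simp [MeasurableEquiv.piFinSuccAbove]

lemma lintegral_pi_zero (μ : Fin 0 → Measure ℝ) [∀ i, SigmaFinite (μ i)]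
    (f : (Fin 0 → ℝ) → ℝ≥0∞) :
    ∫⁻ y, f y ∂(Measure.pi μ) = f ![] := by
  rw [Measure.pi_of_empty μ ![]]
  simp

lemma lintegral_pi_four (μ : Fin 4 → Measure ℝ) [∀ i, SigmaFinite (μ i)]
    {f : (Fin 4 → ℝ) → ℝ≥0∞} (hf : Measurable f) :
    ∫⁻ y, f y ∂(Measure.pi μ)
      = ∫⁻ a, ∫⁻ b, ∫⁻ c, ∫⁻ d, f ![a, b, c, d] ∂(μ 3) ∂(μ 2) ∂(μ 1) ∂(μ 0) := by
  have m1 : ∀ {n : ℕ} (a : ℝ), Measurable (fun z : Fin n → ℝ => (Fin.cons a z : Fin (n + 1) → ℝ)) := by
    intro n a
    refine measurable_pi_lambda _ fun i => ?_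
    refine Fin.cases ?_ (fun j => ?_) i
    · simp
    · simpa using measurable_pi_apply j
  rw [lintegral_pi_succ _ hf]
  refine lintegral_congr fun a => ?_
  rw [lintegral_pi_succ (f := fun z => f (Fin.cons a z)) _ (hf.comp (m1 a))]
  refine lintegral_congr fun b => ?_
  rw [lintegral_pi_succ (f := fun z => f (Fin.cons a (Fin.cons b z))) _
    ((hf.comp (m1 a)).comp (m1 b))]
  refine lintegral_congr fun c => ?_
  rw [lintegral_pi_succ (f := fun z => f (Fin.cons a (Fin.cons b (Fin.cons c z)))) _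
    (((hf.comp (m1 a)).comp (m1 b)).comp (m1 c))]
  refine lintegral_congr fun d => ?_
  rw [lintegral_pi_zero]
  rfl

variable {E : Type*} [NormedAddCommGroup E] [InnerProductSpace ℝ E] [FiniteDimensional ℝ E]
  [MeasurableSpace E] [BorelSpace E]

/-- Inner products with pairwise orthogonal vectors are independent under the standard
Gaussian. -/
lemma map_inner_pi {ι : Type*} [Fintype ι] (v : ι → E) (hv : ∀ i j, i ≠ j → ⟪v i, v j⟫ = 0) :
    (stdGaussian E).map (fun x i => ⟪v i, x⟫)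
      = Measure.pi fun i => (gaussianReal 0 1).map (fun t => ‖v i‖ * t) := by
  classical
  have hm : Measurable (fun (x : E) (i : ι) => ⟪v i, x⟫) := by fun_prop
  have : IsProbabilityMeasure ((stdGaussian E).map (fun (x : E) (i : ι) => ⟪v i, x⟫)) :=
    Measure.isProbabilityMeasure_map hm.aemeasurable
  have : ∀ i, IsProbabilityMeasure ((gaussianReal 0 1).map (fun t => ‖v i‖ * t)) := fun i =>
    Measure.isProbabilityMeasure_map (by fun_prop)
  rw [← charFun_eq_pi_iff]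
  intro t
  have h1 : ∀ i, charFun ((gaussianReal 0 1).map (fun t => ‖v i‖ * t)) (t i)
      = Complex.exp (-(‖v i‖ * t i : ℝ) ^ 2 / 2) := by
    intro i
    rw [charFun_map_mul, charFun_gaussianReal]
    simp [neg_div]
  simp_rw [h1]
  rw [Measure.map_map (by fun_prop) hm]
  have h2 : charFun ((stdGaussian E).map ((WithLp.toLp 2) ∘ fun (x : E) (i : ι) => ⟪v i, x⟫)) t
      = charFun (stdGaussian E) (∑ i, t i • v i) := by
    rw [charFun_apply, charFun_apply, integral_map (by (clear hv t h1; fun_prop)) (by (clear hv h1; fun_prop))]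
    congr 1
    ext x
    congr 2
    simp only [Function.comp, PiLp.inner_apply, inner_sum, inner_smul_right]
    push_cast
    refine Finset.sum_congr rfl fun i _ => ?_
    simp [real_inner_comm, mul_comm]
  rw [h2, charFun_stdGaussian, ← Complex.exp_sum]
  congr 1
  have h3 : ‖∑ i, t i • v i‖ ^ 2 = ∑ i, (‖v i‖ * t i) ^ 2 := by
    rw [← real_inner_self_eq_norm_sq, sum_inner]
    refine Finset.sum_congr rfl fun i _ => ?_
    rw [inner_sum, Finset.sum_eq_single i]
    · rw [inner_smul_left, inner_smul_right, real_inner_self_eq_norm_sq]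
      simp
      ring
    · intro j _ hj
      rw [inner_smul_left, inner_smul_right, hv i j hj.symm]
      simp
    · simp only [Finset.mem_univ, not_true_eq_false, inner_self_eq_norm_sq_to_K, Real.ringHom_apply, ne_eq, OfNat.ofNat_ne_zero, not_false_eq_true, pow_eq_zero_iff, norm_eq_zero, smul_eq_zero, IsEmpty.forall_iff]
  rw [← Complex.ofReal_pow, h3]
  push_cast
  rw [neg_div, Finset.sum_div, ← Finset.sum_neg_distrib]
  refine Finset.sum_congr rfl fun i _ => ?_
  ring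

/-- The closed form of `√(2π) E (a x₁ + η u - l |x|)₊` in dimension three. -/
noncomputable def G3 (a η l : ℝ) : ℝ :=
  if a = 0 then (√(l ^ 2 + η ^ 2) - l) ^ 2 / √(l ^ 2 + η ^ 2)
  else 1 / (4 * a) *
    ((√((a - l) ^ 2 + η ^ 2) + (a - l)) ^ 2 - (√((a + l) ^ 2 + η ^ 2) - (a + l)) ^ 2)

lemma lintegral_G3' {a η l : ℝ} (ha : 0 ≤ a) (hη : 0 ≤ η) (h : 0 < a ∨ 0 < η) :
    ∫⁻ x, ∫⁻ y, ∫⁻ z, ∫⁻ u, ENNReal.ofReal (max (a * x + η * u - l * √(x ^ 2 + (y ^ 2 + z ^ 2))) 0)
        ∂(gaussianReal 0 1) ∂(gaussianReal 0 1) ∂(gaussianReal 0 1) ∂(gaussianReal 0 1)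
      = ENNReal.ofReal ((√(2 * Real.pi))⁻¹ * G3 a η l) := by
  unfold G3
  rcases ha.eq_or_lt with ha0 | ha0
  · subst ha0
    rw [if_pos rfl]
    exact lintegral_G3_zero (h.resolve_left (lt_irrefl _))
  · rw [if_neg ha0.ne']
    exact lintegral_G3 ha0 hη

/-- Expectation of the excess over a three dimensional threshold, lower integral form. -/
theorem lintegral_max_sub_norm3 {e₀ e₁ e₂ w : E} (he : Orthonormal ℝ ![e₀, e₁, e₂])
    (h0 : ⟪e₀, w⟫ = 0) (h1 : ⟪e₁, w⟫ = 0) (h2 : ⟪e₂, w⟫ = 0) {a l : ℝ} (ha : 0 ≤ a)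
    (h : 0 < a ∨ 0 < ‖w‖) :
    ∫⁻ x, ENNReal.ofReal (max (⟪a • e₀ + w, x⟫ - l * √(⟪e₀, x⟫ ^ 2 + (⟪e₁, x⟫ ^ 2 + ⟪e₂, x⟫ ^ 2))) 0)
        ∂(stdGaussian E)
      = ENNReal.ofReal ((√(2 * Real.pi))⁻¹ * G3 a ‖w‖ l) := by
  have n0 : ‖e₀‖ = 1 := he.1 0
  have n1 : ‖e₁‖ = 1 := he.1 1
  have n2 : ‖e₂‖ = 1 := he.1 2
  have o01 : ⟪e₀, e₁⟫ = 0 := he.2 (i := 0) (j := 1) (by simp)
  have o02 : ⟪e₀, e₂⟫ = 0 := he.2 (i := 0) (j := 2) (by simp)
  have o12 : ⟪e₁, e₂⟫ = 0 := he.2 (i := 1) (j := 2) (by simp)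
  have o10 : ⟪e₁, e₀⟫ = 0 := by rw [real_inner_comm]; exact o01
  have o20 : ⟪e₂, e₀⟫ = 0 := by rw [real_inner_comm]; exact o02
  have o21 : ⟪e₂, e₁⟫ = 0 := by rw [real_inner_comm]; exact o12
  have p0 : ⟪w, e₀⟫ = 0 := by rw [real_inner_comm]; exact h0
  have p1 : ⟪w, e₁⟫ = 0 := by rw [real_inner_comm]; exact h1
  have p2 : ⟪w, e₂⟫ = 0 := by rw [real_inner_comm]; exact h2
  let v : Fin 4 → E := ![e₀, e₁, e₂, w]
  have hv : ∀ i j, i ≠ j → ⟪v i, v j⟫ = 0 := by
    intro i j hij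
    fin_cases i <;> fin_cases j <;> first | exact absurd rfl hij | assumption
  have hmap := map_inner_pi v hv
  let f : (Fin 4 → ℝ) → ℝ≥0∞ := fun y =>
    ENNReal.ofReal (max (a * y 0 + y 3 - l * √(y 0 ^ 2 + (y 1 ^ 2 + y 2 ^ 2))) 0)
  have hf : Measurable f := by
    simp only [f]
    fun_prop
  have e1 : ∫⁻ x, ENNReal.ofReal
      (max (⟪a • e₀ + w, x⟫ - l * √(⟪e₀, x⟫ ^ 2 + (⟪e₁, x⟫ ^ 2 + ⟪e₂, x⟫ ^ 2))) 0)
        ∂(stdGaussian E) = ∫⁻ y, f y ∂((stdGaussian E).map (fun x i => ⟪v i, x⟫)) := by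
    rw [lintegral_map hf (by fun_prop)]
    refine lintegral_congr fun x => ?_
    simp only [f, v]
    congr 3
    rw [inner_add_left, inner_smul_left]
    simp
  rw [e1, hmap, lintegral_pi_four _ hf]
  simp only [f, v, Matrix.cons_val_zero, Matrix.cons_val_one, Matrix.cons_val]
  have hid : (gaussianReal 0 1).map (fun t => ‖e₀‖ * t) = gaussianReal 0 1 := by
    rw [n0]; simp
  have hid1 : (gaussianReal 0 1).map (fun t => ‖e₁‖ * t) = gaussianReal 0 1 := by
    rw [n1]; simp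
  have hid2 : (gaussianReal 0 1).map (fun t => ‖e₂‖ * t) = gaussianReal 0 1 := by
    rw [n2]; simp
  rw [hid, hid1, hid2]
  rw [← lintegral_G3' ha (norm_nonneg w) h]
  refine lintegral_congr fun x => lintegral_congr fun y => lintegral_congr fun z => ?_
  rw [lintegral_map (by fun_prop) (by fun_prop)]

lemma G3_nonneg {a η l : ℝ} (ha : 0 ≤ a) : 0 ≤ G3 a η l := by
  unfold G3
  split_ifs with h
  · positivity
  · have ha' : 0 < a := lt_of_le_of_ne ha (Ne.symm h)
    refine mul_nonneg (by positivity) ?_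
    rw [sub_nonneg]
    have h1 : 0 ≤ √((a + l) ^ 2 + η ^ 2) - (a + l) := by
      have : |a + l| ≤ √((a + l) ^ 2 + η ^ 2) := by
        rw [← Real.sqrt_sq_eq_abs]
        exact Real.sqrt_le_sqrt (by nlinarith only [])
      linarith [le_abs_self (a + l)]
    refine pow_le_pow_left₀ h1 ?_ 2
    -- √(b₂² + η²) - √(b₁² + η²) ≤ |b₂| + |b₁| type estimate
    have h2 : √((a + l) ^ 2 + η ^ 2) ≤ √((a - l) ^ 2 + η ^ 2) + 2 * a := by
      rw [Real.sqrt_le_left (by positivity)]
      have h3 : √((a - l) ^ 2 + η ^ 2) ^ 2 = (a - l) ^ 2 + η ^ 2 := Real.sq_sqrt (by positivity)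
      have h4 : |a - l| ≤ √((a - l) ^ 2 + η ^ 2) := by
        rw [← Real.sqrt_sq_eq_abs]
        exact Real.sqrt_le_sqrt (by nlinarith only [])
      have h5 := neg_abs_le (a - l)
      nlinarith only [h3, ha, h4, h5]
    linarith

lemma sqrt_add_sq_le {b m : ℝ} (hb : 0 < b) : √(b ^ 2 + m ^ 2) ≤ b + m ^ 2 / (2 * b) := by
  rw [Real.sqrt_le_left (by positivity)]
  have : (b + m ^ 2 / (2 * b)) ^ 2 = b ^ 2 + m ^ 2 + (m ^ 2 / (2 * b)) ^ 2 := by
    field_simp
    ring
  rw [this]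
  linarith only [sq_nonneg (m ^ 2 / (2 * b))]

/-- The cost of a tilt `m` is at most `m² / (2a)`. -/
lemma G3_le {a m l : ℝ} (ha : 0 < a) (hl : 0 ≤ l) :
    G3 a m l ≤ max (a - l) 0 ^ 2 / a + m ^ 2 / (2 * a) := by
  unfold G3
  rw [if_neg ha.ne']
  set b := a - l with hb
  set d := a + l with hd
  have hd0 : 0 < d := by positivity
  have hB : √(b ^ 2 + m ^ 2) ^ 2 = b ^ 2 + m ^ 2 := Real.sq_sqrt (by (clear * -; positivity))
  have hD : √(d ^ 2 + m ^ 2) ^ 2 = d ^ 2 + m ^ 2 := Real.sq_sqrt (by positivity)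
  have h1 : d * √(d ^ 2 + m ^ 2) ≤ d ^ 2 + m ^ 2 / 2 := by
    have := mul_le_mul_of_nonneg_left (sqrt_add_sq_le (m := m) hd0) hd0.le
    refine this.trans (le_of_eq ?_)
    field_simp
  have h2 : b * √(b ^ 2 + m ^ 2) ≤ b * |b| + m ^ 2 / 2 := by
    rcases lt_trichotomy b 0 with h | h | h
    · have h3 : |b| ≤ √(b ^ 2 + m ^ 2) := by
        rw [← Real.sqrt_sq_eq_abs]
        exact Real.sqrt_le_sqrt (by nlinarith only [])
      nlinarith only [h, h3]
    · rw [h]; simp only [ne_eq, OfNat.ofNat_ne_zero, not_false_eq_true, zero_pow, zero_add, zero_mul, abs_zero, mul_zero]; positivity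
    · have := mul_le_mul_of_nonneg_left (sqrt_add_sq_le (m := m) h) h.le
      rw [abs_of_pos h]
      refine this.trans (le_of_eq ?_)
      field_simp
  have h3 : max b 0 ^ 2 = (b * |b| + b ^ 2) / 2 := by
    rcases le_total 0 b with h | h
    · rw [abs_of_nonneg h, max_eq_left h]; ring
    · rw [abs_of_nonpos h, max_eq_right h]; ring
  have h4 : 1 / (4 * a) * ((√(b ^ 2 + m ^ 2) + b) ^ 2 - (√(d ^ 2 + m ^ 2) - d) ^ 2)
      = (b * √(b ^ 2 + m ^ 2) + d * √(d ^ 2 + m ^ 2) + b ^ 2 - d ^ 2) / (2 * a) := by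
    have : (√(b ^ 2 + m ^ 2) + b) ^ 2 - (√(d ^ 2 + m ^ 2) - d) ^ 2
        = 2 * (b * √(b ^ 2 + m ^ 2) + d * √(d ^ 2 + m ^ 2) + b ^ 2 - d ^ 2) := by
      linear_combination hB - hD
    rw [this]
    field_simp
    ring
  have h5 : max b 0 ^ 2 / a + m ^ 2 / (2 * a) = (2 * max b 0 ^ 2 + m ^ 2) / (2 * a) := by
    (clear * - ha; field_simp)
  rw [h4, h5]
  apply div_le_div_of_nonneg_right _ (by positivity)
  rw [h3]
  linarith only [h1, h2]

/-- Three dimensional threshold, Bochner integral form, orthonormal vectors. -/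
theorem integral_max_sub_norm3 {e₀ e₁ e₂ w : E} (he : Orthonormal ℝ ![e₀, e₁, e₂])
    (h0 : ⟪e₀, w⟫ = 0) (h1 : ⟪e₁, w⟫ = 0) (h2 : ⟪e₂, w⟫ = 0) {a l : ℝ} (ha : 0 ≤ a)
    (hl : 0 ≤ l) :
    ∫ x, max (⟪a • e₀ + w, x⟫ - l * √(⟪e₀, x⟫ ^ 2 + (⟪e₁, x⟫ ^ 2 + ⟪e₂, x⟫ ^ 2))) 0
        ∂(stdGaussian E) = (√(2 * Real.pi))⁻¹ * G3 a ‖w‖ l := by
  by_cases h : 0 < a ∨ 0 < ‖w‖
  · have hm : Measurable (fun x : E => max (⟪a • e₀ + w, x⟫
        - l * √(⟪e₀, x⟫ ^ 2 + (⟪e₁, x⟫ ^ 2 + ⟪e₂, x⟫ ^ 2))) 0) := by (clear he h0 h1 h2 ha hl h; fun_prop)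
    rw [integral_eq_lintegral_of_nonneg_ae
      (Filter.Eventually.of_forall fun x => by exact le_max_right _ _)
      hm.aestronglyMeasurable, lintegral_max_sub_norm3 he h0 h1 h2 ha h,
      ENNReal.toReal_ofReal (mul_nonneg (by positivity) (G3_nonneg ha))]
  · rw [not_or, not_lt, not_lt] at h
    have ha0 : a = 0 := le_antisymm h.1 ha
    have hw0 : ‖w‖ = 0 := le_antisymm h.2 (norm_nonneg _)
    have hw : w = 0 := norm_eq_zero.1 hw0
    subst ha0
    rw [hw0, G3, if_pos rfl]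
    have h3 : √(l ^ 2 + 0 ^ 2) - l = 0 := by
      rw [zero_pow two_ne_zero, add_zero, Real.sqrt_sq hl, sub_self]
    rw [h3]
    have h4 : ∀ x : E, max (⟪(0 : ℝ) • e₀ + w, x⟫
        - l * √(⟪e₀, x⟫ ^ 2 + (⟪e₁, x⟫ ^ 2 + ⟪e₂, x⟫ ^ 2))) 0 = 0 := by
      intro x
      rw [hw, zero_smul, add_zero, inner_zero_left, zero_sub]
      apply max_eq_right
      rw [neg_nonpos]
      (clear * - hl; positivity)
    simp_rw [h4]
    simp only [integral_zero, Nat.ofNat_nonneg, Real.sqrt_mul, mul_inv_rev, ne_eq, OfNat.ofNat_ne_zero, not_false_eq_true, zero_pow, add_zero, zero_div, mul_zero]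

omit [MeasurableSpace E] [BorelSpace E] in
/-- Squared norm of a projection on a three dimensional subspace. -/
lemma norm_starProjection_sq {V : Submodule ℝ E} (b : OrthonormalBasis (Fin 3) ℝ V) (x : E) :
    ‖V.starProjection x‖ ^ 2
      = ⟪(b 0 : E), x⟫ ^ 2 + (⟪(b 1 : E), x⟫ ^ 2 + ⟪(b 2 : E), x⟫ ^ 2) := by
  have h := b.sum_sq_inner_right (V.orthogonalProjectionOnto x)
  rw [Fin.sum_univ_three] at h
  have h1 : ∀ i, ⟪b i, V.orthogonalProjectionOnto x⟫ = ⟪(b i : E), x⟫ := by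
    intro i
    rw [Submodule.inner_orthogonalProjectionOnto_eq_of_mem_left]
  rw [h1, h1, h1] at h
  rw [Submodule.starProjection_apply, ← Submodule.coe_norm, ← h]
  ring

omit [MeasurableSpace E] [BorelSpace E] in
lemma exists_basis {V : Submodule ℝ E} (hV : Module.finrank ℝ V = 3) (v : E) :
    ∃ b : OrthonormalBasis (Fin 3) ℝ V, V.starProjection v = ‖V.starProjection v‖ • (b 0 : E) := by
  by_cases h : V.starProjection v = 0
  · refine ⟨(stdOrthonormalBasis ℝ V).reindex (finCongr hV), ?_⟩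
    rw [h, norm_zero, zero_smul]
  · have hn : ‖V.starProjection v‖ ≠ 0 := norm_ne_zero_iff.2 h
    let e : V := ⟨‖V.starProjection v‖⁻¹ • V.starProjection v,
      V.smul_mem _ (Submodule.starProjection_apply_mem V v)⟩
    have he : ‖e‖ = 1 := by
      rw [Submodule.coe_norm]
      simp only [e]
      rw [norm_smul, norm_inv, norm_norm, inv_mul_cancel₀ hn]
    have ho : Orthonormal ℝ (({0} : Set (Fin 3)).domRestrict (fun _ : Fin 3 => e)) := by
      constructor
      · intro i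
        exact he
      · intro i j hij
        exact absurd (Subtype.ext (i.2.trans j.2.symm)) hij
    obtain ⟨b, hb⟩ := ho.exists_orthonormalBasis_extension_of_card_eq (by simp [hV])
    refine ⟨b, ?_⟩
    rw [hb 0 rfl]
    simp only [e]
    rw [smul_smul, mul_inv_cancel₀ hn, one_smul]

omit [FiniteDimensional ℝ E] [MeasurableSpace E] [BorelSpace E] in
lemma orthonormal_coe {V : Submodule ℝ E} (b : OrthonormalBasis (Fin 3) ℝ V) :
    Orthonormal ℝ ![(b 0 : E), (b 1 : E), (b 2 : E)] := by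
  have h1 : Orthonormal ℝ (fun i => (b i : E)) :=
    b.orthonormal.comp_linearIsometry V.subtypeₗᵢ
  convert! h1 using 1
  funext i
  fin_cases i <;> rfl

/-- **Three dimensional threshold**: expectation of `(⟪v, x⟫ - l ‖P_V x‖)₊` for a three
dimensional subspace `V`. -/
theorem integral_max_sub_proj {V : Submodule ℝ E} (hV : Module.finrank ℝ V = 3) (v : E) {l : ℝ}
    (hl : 0 ≤ l) :
    ∫ x, max (⟪v, x⟫ - l * ‖V.starProjection x‖) 0 ∂(stdGaussian E)
      = (√(2 * Real.pi))⁻¹ * G3 ‖V.starProjection v‖ ‖v - V.starProjection v‖ l := by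
  obtain ⟨b, hb⟩ := exists_basis hV v
  have hw : ∀ i, ⟪(b i : E), v - V.starProjection v⟫ = 0 := by
    intro i
    rw [real_inner_comm]
    exact Submodule.starProjection_inner_eq_zero v _ (b i).2
  have h := integral_max_sub_norm3 (orthonormal_coe b) (hw 0) (hw 1) (hw 2) (norm_nonneg (V.starProjection v)) hl
  rw [← h]
  congr 1
  funext x
  rw [← hb, add_sub_cancel, ← norm_starProjection_sq b x, Real.sqrt_sq (norm_nonneg _)]

/-- `E ‖P_V x‖ = 4 / √(2π)` for a three dimensional subspace `V`. -/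
theorem integral_norm_proj {V : Submodule ℝ E} (hV : Module.finrank ℝ V = 3) :
    ∫ x, ‖V.starProjection x‖ ∂(stdGaussian E) = (√(2 * Real.pi))⁻¹ * 4 := by
  let b : OrthonormalBasis (Fin 3) ℝ V := (stdOrthonormalBasis ℝ V).reindex (finCongr hV)
  have h := lintegral_max_sub_norm3 (w := (0 : E)) (orthonormal_coe b) (inner_zero_right _)
    (inner_zero_right _) (inner_zero_right _) (a := 1) (l := -1) zero_le_one (Or.inl one_pos)
  have hG : G3 1 ‖(0 : E)‖ (-1) = 4 := by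
    unfold G3
    rw [if_neg one_ne_zero, norm_zero]
    have h1 : √((1 - -1) ^ 2 + 0 ^ 2) = 2 := by
      rw [Real.sqrt_eq_iff_mul_self_eq (by norm_num) (by norm_num)]
      norm_num
    have h2 : √((1 + -1) ^ 2 + 0 ^ 2) = 0 := by norm_num
    rw [h1, h2]
    norm_num
  have hx : ∀ x : E, max (⟪(1 : ℝ) • (b 0 : E) + 0, x⟫
      - -1 * √(⟪(b 0 : E), x⟫ ^ 2 + (⟪(b 1 : E), x⟫ ^ 2 + ⟪(b 2 : E), x⟫ ^ 2))) 0
      = ⟪(b 0 : E), x⟫ + ‖V.starProjection x‖ := by
    intro x
    rw [← norm_starProjection_sq b x, Real.sqrt_sq (norm_nonneg _), one_smul, add_zero]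
    have h1 : ⟪(b 0 : E), x⟫ ^ 2 ≤ ‖V.starProjection x‖ ^ 2 := by
      rw [norm_starProjection_sq b x]
      nlinarith only []
    have h2 := abs_le.1 (abs_le_of_sq_le_sq h1 (norm_nonneg _))
    rw [max_eq_left (by linarith [h2.1])]
    ring
  have hint : Integrable (fun x : E => ⟪(b 0 : E), x⟫) (stdGaussian E) :=
    (innerSL ℝ (b 0 : E)).integrable_comp (IsGaussian.integrable_id)
  have hint2 : Integrable (fun x : E => ‖V.starProjection x‖) (stdGaussian E) :=
    (V.starProjection.integrable_comp (IsGaussian.integrable_id)).norm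
  have h3 : ∫ x : E, (⟪(b 0 : E), x⟫ + ‖V.starProjection x‖) ∂(stdGaussian E)
      = (√(2 * Real.pi))⁻¹ * 4 := by
    have h5 : 0 ≤ᵐ[stdGaussian E] fun x : E => ⟪(b 0 : E), x⟫ + ‖V.starProjection x‖ :=
      Filter.Eventually.of_forall fun x => by
        show 0 ≤ ⟪(b 0 : E), x⟫ + ‖V.starProjection x‖
        rw [← hx x]
        exact le_max_right _ _
    have h6 : AEStronglyMeasurable (fun x : E => ⟪(b 0 : E), x⟫ + ‖V.starProjection x‖)
        (stdGaussian E) := (hint.add hint2).aestronglyMeasurable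
    rw [integral_eq_lintegral_of_nonneg_ae h5 h6]
    simp_rw [← hx]
    rw [h, hG, ENNReal.toReal_ofReal (by positivity)]
  have h4 : ∫ x : E, ⟪(b 0 : E), x⟫ ∂(stdGaussian E) = 0 := by
    have := integral_strongDual_stdGaussian (innerSL ℝ (b 0 : E))
    simpa only [Fin.isValue, coe_innerSL_apply] using this
  rw [integral_add hint hint2, h4, zero_add] at h3
  exact h3

end Vale.Agent.P226.Gauss3
end
end

section

section

/-!
# P226: the three dimensional certificate for a minimal counterexample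

`V` is the direction space of the affine span of the four largest moments.
-/

open MeasureTheory ProbabilityTheory Set
open scoped ENNReal NNReal RealInnerProductSpace

namespace Vale.Agent.P226.Gauss3

/-- A symmetric form of `G3`: with `S = √(ρ² - 2al) + √(ρ² + 2al)`, `ρ² = a² + m² + l²`,
one has `G3 = (S - 2l)² / (2S)`. -/
lemma G3_eq {a m l : ℝ} (ha : 0 ≤ a) (hl : 0 ≤ l) (h : 0 < a ^ 2 + m ^ 2) :
    G3 a m l = (√(a ^ 2 + m ^ 2 + l ^ 2 - 2 * a * l) + √(a ^ 2 + m ^ 2 + l ^ 2 + 2 * a * l)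
        - 2 * l) ^ 2 /
      (2 * (√(a ^ 2 + m ^ 2 + l ^ 2 - 2 * a * l) + √(a ^ 2 + m ^ 2 + l ^ 2 + 2 * a * l))) := by
  have e1 : (a - l) ^ 2 + m ^ 2 = a ^ 2 + m ^ 2 + l ^ 2 - 2 * a * l := by ring
  have e2 : (a + l) ^ 2 + m ^ 2 = a ^ 2 + m ^ 2 + l ^ 2 + 2 * a * l := by ring
  unfold G3
  split_ifs with h0
  · subst h0
    have e3 : (0 : ℝ) ^ 2 + m ^ 2 + l ^ 2 - 2 * 0 * l = l ^ 2 + m ^ 2 := by ring
    have e4 : (0 : ℝ) ^ 2 + m ^ 2 + l ^ 2 + 2 * 0 * l = l ^ 2 + m ^ 2 := by ring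
    rw [e3, e4]
    have hpos : 0 < √(l ^ 2 + m ^ 2) := Real.sqrt_pos.2 (by nlinarith only [h])
    field_simp
    ring
  · have ha' : 0 < a := lt_of_le_of_ne ha (Ne.symm h0)
    rw [e1, e2]
    have p1 : 0 ≤ a ^ 2 + m ^ 2 + l ^ 2 - 2 * a * l := by rw [← e1]; (clear * -; positivity)
    have p2 : 0 < a ^ 2 + m ^ 2 + l ^ 2 + 2 * a * l := by (clear * - ha h0 hl; positivity)
    have q1 : √(a ^ 2 + m ^ 2 + l ^ 2 - 2 * a * l) ^ 2 = a ^ 2 + m ^ 2 + l ^ 2 - 2 * a * l :=
      Real.sq_sqrt p1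
    have q2 : √(a ^ 2 + m ^ 2 + l ^ 2 + 2 * a * l) ^ 2 = a ^ 2 + m ^ 2 + l ^ 2 + 2 * a * l :=
      Real.sq_sqrt p2.le
    have q3 : 0 < √(a ^ 2 + m ^ 2 + l ^ 2 + 2 * a * l) := Real.sqrt_pos.2 p2
    have q4 : 0 ≤ √(a ^ 2 + m ^ 2 + l ^ 2 - 2 * a * l) := Real.sqrt_nonneg _
    set B := √(a ^ 2 + m ^ 2 + l ^ 2 - 2 * a * l)
    set D := √(a ^ 2 + m ^ 2 + l ^ 2 + 2 * a * l)
    have hS : 0 < B + D := by (clear * - ha h0 hl; positivity)
    rw [eq_div_iff (by (clear * - ha h0 hl; positivity))]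
    have h4 : 1 / (4 * a) * ((B + (a - l)) ^ 2 - (D - (a + l)) ^ 2) * (2 * (B + D)) * (2 * a)
        = (B + D - 2 * l) ^ 2 * (2 * a) := by
      have : 1 / (4 * a) * ((B + (a - l)) ^ 2 - (D - (a + l)) ^ 2) * (2 * (B + D)) * (2 * a)
        = ((B + (a - l)) ^ 2 - (D - (a + l)) ^ 2) * (B + D) := by
        field_simp
        ring
      rw [this]
      linear_combination (2 * l - (B + D)) * (q2 - q1)
    have := mul_right_cancel₀ (by positivity : (2 * a) ≠ 0) h4
    exact this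

lemma two_mul_le_S {a m l : ℝ} :
    2 * l ≤ √(a ^ 2 + m ^ 2 + l ^ 2 - 2 * a * l) + √(a ^ 2 + m ^ 2 + l ^ 2 + 2 * a * l) := by
  have e1 : l - a ≤ √(a ^ 2 + m ^ 2 + l ^ 2 - 2 * a * l) :=
    Real.le_sqrt_of_sq_le (by nlinarith [sq_nonneg m])
  have e2 : a + l ≤ √(a ^ 2 + m ^ 2 + l ^ 2 + 2 * a * l) :=
    Real.le_sqrt_of_sq_le (by nlinarith only [])
  linarith

lemma f_mono {S T l : ℝ} (hS : 0 < S) (hl : 0 ≤ l) (h1 : 2 * l ≤ S) (h2 : S ≤ T) :
    (S - 2 * l) ^ 2 / (2 * S) ≤ (T - 2 * l) ^ 2 / (2 * T) := by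
  have hT : 0 < T := hS.trans_le h2
  rw [div_le_div_iff₀ (by positivity) (by positivity)]
  have h3 : 0 ≤ (T - S) * (S * T - 4 * l ^ 2) := by
    refine mul_nonneg (by linarith) ?_
    nlinarith only [h1, h2, hl]
  linarith

/-- For a given total norm the direction orthogonal to `V` is the most expensive one. -/
lemma G3_le_vertical {a m l : ℝ} (ha : 0 ≤ a) (hl : 0 ≤ l) :
    G3 a m l ≤ (√(a ^ 2 + m ^ 2 + l ^ 2) - l) ^ 2 / √(a ^ 2 + m ^ 2 + l ^ 2) := by
  by_cases h : 0 < a ^ 2 + m ^ 2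
  · rw [G3_eq ha hl h]
    set S := √(a ^ 2 + m ^ 2 + l ^ 2 - 2 * a * l) + √(a ^ 2 + m ^ 2 + l ^ 2 + 2 * a * l) with hS
    have hρ2 : 0 < a ^ 2 + m ^ 2 + l ^ 2 := by positivity
    have hρ : 0 < √(a ^ 2 + m ^ 2 + l ^ 2) := Real.sqrt_pos.2 hρ2
    have p1 : 0 ≤ a ^ 2 + m ^ 2 + l ^ 2 - 2 * a * l := by nlinarith only [sq_nonneg (a - l)]
    have p2 : 0 < a ^ 2 + m ^ 2 + l ^ 2 + 2 * a * l := by (clear * - h ha hl; positivity)
    have q1 := Real.sq_sqrt p1
    have q2 := Real.sq_sqrt p2.le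
    have q3 := Real.sq_sqrt hρ2.le
    have hSpos : 0 < S := by
      have := Real.sqrt_pos.2 p2
      have := Real.sqrt_nonneg (a ^ 2 + m ^ 2 + l ^ 2 - 2 * a * l)
      linarith
    have hS2 : S ≤ 2 * √(a ^ 2 + m ^ 2 + l ^ 2) := by
      refine le_of_sq_le_sq ?_ (by (clear * - h; positivity))
      have : S ^ 2 ≤ 2 * (√(a ^ 2 + m ^ 2 + l ^ 2 - 2 * a * l) ^ 2 +
          √(a ^ 2 + m ^ 2 + l ^ 2 + 2 * a * l) ^ 2) := by
        rw [hS]
        nlinarith only [sq_nonneg (√(a ^ 2 + m ^ 2 + l ^ 2 - 2 * a * l) -           √(a ^ 2 + m ^ 2 + l ^ 2 + 2 * a * l))]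
      rw [mul_pow, q3]
      rw [q1, q2] at this
      linarith
    refine (f_mono hSpos hl two_mul_le_S hS2).trans (le_of_eq ?_)
    (clear * - h; field_simp)
  · have ha0 : a = 0 := by nlinarith only [h]
    have hm0 : m = 0 := by nlinarith only [h]
    subst ha0 hm0
    simp only [G3, ↓reduceIte, ne_eq, OfNat.ofNat_ne_zero, not_false_eq_true, zero_pow, add_zero, zero_add, Std.le_refl]

end Vale.Agent.P226.Gauss3

namespace Vale.Agent.P226

open K3 Gauss3

variable {E : Type*} [NormedAddCommGroup E] [InnerProductSpace ℝ E] [FiniteDimensional ℝ E]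
  [MeasurableSpace E] [BorelSpace E]

omit [FiniteDimensional ℝ E] [MeasurableSpace E] [BorelSpace E] in
/-- Pairwise obtuse vectors are affinely independent. -/
lemma affineIndep_of_obtuse {ι : Type*} [Fintype ι] {v : ι → E}
    (hv : ∀ i j, i ≠ j → ⟪v i, v j⟫ < 0) {c : ι → ℝ} (hc : ∑ i, c i = 0)
    (h : ∑ i, c i • v i = 0) : ∀ i, c i = 0 := by
  classical
  by_contra hne
  push Not at hne
  obtain ⟨i₀, hi₀⟩ := hne
  -- there are indices with positive and negative coefficients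
  have hpos : ∃ i, 0 < c i := by
    by_contra hn
    push Not at hn
    have : ∑ i, c i < 0 := by
      refine Finset.sum_neg' (fun i _ => hn i) ⟨i₀, Finset.mem_univ _, lt_of_le_of_ne (hn i₀) hi₀⟩
    linarith
  have hneg : ∃ i, c i < 0 := by
    by_contra hn
    push Not at hn
    have : 0 < ∑ i, c i := by
      refine Finset.sum_pos' (fun i _ => hn i) ⟨i₀, Finset.mem_univ _, lt_of_le_of_ne (hn i₀)
        (Ne.symm hi₀)⟩
    linarith
  obtain ⟨i₁, hi₁⟩ := hpos
  obtain ⟨i₂, hi₂⟩ := hneg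
  set P := ∑ i, (max (c i) 0) • v i with hP
  have hPN : P = ∑ i, (max (-c i) 0) • v i := by
    rw [hP, ← sub_eq_zero, ← Finset.sum_sub_distrib, ← h]
    refine Finset.sum_congr rfl fun i _ => ?_
    rw [← sub_smul]
    congr 1
    rcases le_total 0 (c i) with h0 | h0
    · rw [max_eq_left h0, max_eq_right (by linarith)]; ring
    · rw [max_eq_right h0, max_eq_left (by linarith)]; ring
  have h1 : ‖P‖ ^ 2 = ∑ i, ∑ j, (max (c i) 0) * (max (-c j) 0) * ⟪v i, v j⟫ := by
    rw [← real_inner_self_eq_norm_sq]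
    nth_rewrite 2 [hPN]
    rw [hP, sum_inner]
    refine Finset.sum_congr rfl fun i _ => ?_
    rw [inner_sum]
    refine Finset.sum_congr rfl fun j _ => ?_
    rw [inner_smul_left, inner_smul_right]
    simp only [Real.ringHom_apply]
    ring
  have h2 : ∀ i j, (max (c i) 0) * (max (-c j) 0) * ⟪v i, v j⟫ ≤ 0 := by
    intro i j
    by_cases hij : i = j
    · subst hij
      rcases le_total 0 (c i) with h0 | h0
      · rw [max_eq_right (b := (0 : ℝ)) (by linarith : -c i ≤ 0)]; simp only [mul_zero, inner_self_eq_norm_sq_to_K, Real.ringHom_apply, zero_mul, Std.le_refl]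
      · rw [max_eq_right h0]; simp only [zero_mul, inner_self_eq_norm_sq_to_K, Real.ringHom_apply, Std.le_refl]
    · exact mul_nonpos_of_nonneg_of_nonpos
        (mul_nonneg (le_max_right _ _) (le_max_right _ _)) (hv i j hij).le
  have h3 : ∑ i, ∑ j, (max (c i) 0) * (max (-c j) 0) * ⟪v i, v j⟫ < 0 := by
    have h12 : i₁ ≠ i₂ := fun h0 => by rw [h0] at hi₁; linarith
    refine Finset.sum_neg' (fun i _ => Finset.sum_nonpos fun j _ => h2 i j)
      ⟨i₁, Finset.mem_univ _, ?_⟩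
    refine Finset.sum_neg' (fun j _ => h2 i₁ j) ⟨i₂, Finset.mem_univ _, ?_⟩
    rw [max_eq_left hi₁.le, max_eq_left (by linarith)]
    exact mul_neg_of_pos_of_neg (mul_pos hi₁ (by linarith)) (hv i₁ i₂ h12)
  rw [← h1] at h3
  exact absurd h3 (not_lt.2 (sq_nonneg _))

omit [FiniteDimensional ℝ E] [MeasurableSpace E] [BorelSpace E] in
lemma linearIndependent_sub {n : ℕ} {v : Fin (n + 1) → E} (hv : ∀ i j, i ≠ j → ⟪v i, v j⟫ < 0) :
    LinearIndependent ℝ (fun i : Fin n => v i.succ - v 0) := by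
  rw [Fintype.linearIndependent_iff]
  intro g hg i
  have h := affineIndep_of_obtuse hv (c := Fin.cons (-∑ i, g i) g) (by
    rw [Fin.sum_univ_succ]
    simp only [Fin.cons_zero, Fin.cons_succ, neg_add_cancel]) (by
    rw [Fin.sum_univ_succ]
    simp only [Fin.cons_zero, Fin.cons_succ]
    simp_rw [smul_sub] at hg
    rw [Finset.sum_sub_distrib, ← Finset.sum_smul] at hg
    rw [neg_smul, neg_add_eq_sub]
    exact hg) i.succ
  simpa only [Fin.cons_succ] using h

/-- The direction space of the affine span of `v 0, …, v n`. -/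
def dirSpan {n : ℕ} (v : Fin (n + 1) → E) : Submodule ℝ E :=
  Submodule.span ℝ (Set.range fun i : Fin n => v i.succ - v 0)

omit [FiniteDimensional ℝ E] [MeasurableSpace E] [BorelSpace E] in
lemma finrank_dirSpan {n : ℕ} {v : Fin (n + 1) → E} (hv : ∀ i j, i ≠ j → ⟪v i, v j⟫ < 0) :
    Module.finrank ℝ (dirSpan v) = n := by
  rw [dirSpan, finrank_span_eq_card (linearIndependent_sub hv), Fintype.card_fin]

omit [MeasurableSpace E] [BorelSpace E] in
/-- All the `v i` have the same component orthogonal to the direction space. -/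
lemma sub_proj_eq {n : ℕ} (v : Fin (n + 1) → E) (i : Fin (n + 1)) :
    v i - (dirSpan v).starProjection (v i) = v 0 - (dirSpan v).starProjection (v 0) := by
  refine Fin.cases rfl (fun j => ?_) i
  have h : v j.succ - v 0 ∈ dirSpan v := Submodule.subset_span ⟨j, rfl⟩
  have h1 : (dirSpan v).starProjection (v j.succ - v 0) = v j.succ - v 0 :=
    Submodule.starProjection_eq_self_iff.2 h
  rw [map_sub] at h1
  rw [sub_eq_sub_iff_add_eq_add]
  have h2 : (dirSpan v).starProjection (v j.succ)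
      = v j.succ - v 0 + (dirSpan v).starProjection (v 0) := by
    rw [← h1]; abel
  rw [h2]
  abel

namespace Bad

/-- The cells after the first four. -/
def tail (B : Bad E) (i : Fin B.m) : Fin (B.m + 4) := i.succ.succ.succ.succ

lemma sum_split {M : Type*} [AddCommMonoid M] (B : Bad E) (f : Fin (B.m + 4) → M) :
    ∑ i, f i = f 0 + (f 1 + (f 2 + (f 3 + ∑ i, f (B.tail i)))) := by
  rw [Fin.sum_univ_succ, Fin.sum_univ_succ, Fin.sum_univ_succ, Fin.sum_univ_succ]
  rfl

/-- The four largest moments. -/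
noncomputable def top (B : Bad E) : Fin 4 → E := ![B.z 0, B.z 1, B.z 2, B.z 3]

lemma top_inner_neg (B : Bad E) : ∀ i j, i ≠ j → ⟪B.top i, B.top j⟫ < 0 := by
  have hval : ∀ i : Fin 4, B.top i = B.z (i.castLE (by omega)) := by
    intro i
    fin_cases i <;> rfl
  intro i j hij
  rw [hval, hval]
  exact B.inner_z_neg fun h => hij ((Fin.castLE_injective _) h)

/-- The three dimensional space carrying the differences of the four largest moments. -/
noncomputable def V (B : Bad E) : Submodule ℝ E := dirSpan B.top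

lemma finrank_V (B : Bad E) : Module.finrank ℝ B.V = 3 := finrank_dirSpan B.top_inner_neg

/-- The component orthogonal to `V` of the four largest moments. -/
noncomputable def p (B : Bad E) : E := B.z 0 - B.V.starProjection (B.z 0)

lemma p_eq (B : Bad E) (i : Fin 4) : B.top i - B.V.starProjection (B.top i) = B.p :=
  sub_proj_eq B.top i

/-- The sum of the moments after the first four. -/
noncomputable def w (B : Bad E) : E := ∑ i, B.z (B.tail i)

lemma tail_injective (B : Bad E) : Function.Injective B.tail := by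
  intro i j h
  simpa [tail] using h

lemma norm_w_sq_le (B : Bad E) : ‖B.w‖ ^ 2 ≤ ∑ i, ‖B.z (B.tail i)‖ ^ 2 := by
  rw [w, ← real_inner_self_eq_norm_sq, sum_inner]
  refine Finset.sum_le_sum fun i _ => ?_
  rw [inner_sum, ← Finset.add_sum_erase _ _ (Finset.mem_univ i), real_inner_self_eq_norm_sq]
  have : ∑ j ∈ Finset.univ.erase i, ⟪B.z (B.tail i), B.z (B.tail j)⟫ ≤ 0 :=
    Finset.sum_nonpos fun j hj => (B.inner_z_neg fun h =>
      (Finset.ne_of_mem_erase hj) (B.tail_injective h).symm).le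
  linarith

lemma top_sum_add_w (B : Bad E) : B.z 0 + (B.z 1 + (B.z 2 + (B.z 3 + B.w))) = 0 := by
  rw [← B.sum_z, B.sum_split B.z]
  rfl

lemma four_p (B : Bad E) : (4 : ℝ) • B.p = -(B.w - B.V.starProjection B.w) := by
  have h := B.top_sum_add_w
  have h' : B.V.starProjection (B.z 0) + (B.V.starProjection (B.z 1) + (B.V.starProjection (B.z 2)
      + (B.V.starProjection (B.z 3) + B.V.starProjection B.w))) = 0 := by
    rw [← map_add, ← map_add, ← map_add, ← map_add, h, map_zero]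
  have e0 : B.z 0 - B.V.starProjection (B.z 0) = B.p := B.p_eq 0
  have e1 : B.z 1 - B.V.starProjection (B.z 1) = B.p := B.p_eq 1
  have e2 : B.z 2 - B.V.starProjection (B.z 2) = B.p := B.p_eq 2
  have e3 : B.z 3 - B.V.starProjection (B.z 3) = B.p := B.p_eq 3
  have e : (4 : ℝ) • B.p = B.p + B.p + B.p + B.p := by
    module
  rw [e]
  nth_rewrite 1 [← e0]
  nth_rewrite 1 [← e1]
  nth_rewrite 1 [← e2]
  nth_rewrite 1 [← e3]
  have h2 : B.w = -(B.z 0 + B.z 1 + B.z 2 + B.z 3) := by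
    rw [eq_neg_iff_add_eq_zero, ← h]; abel
  have h2' : B.V.starProjection B.w = -(B.V.starProjection (B.z 0) + B.V.starProjection (B.z 1)
      + B.V.starProjection (B.z 2) + B.V.starProjection (B.z 3)) := by
    rw [eq_neg_iff_add_eq_zero, ← h']; abel
  rw [h2', h2]
  abel

lemma norm_p_sq_le (B : Bad E) : 16 * ‖B.p‖ ^ 2 ≤ ∑ i, ‖B.z (B.tail i)‖ ^ 2 := by
  have h1 : ‖(4 : ℝ) • B.p‖ ^ 2 ≤ ‖B.w‖ ^ 2 := by
    rw [B.four_p, norm_neg]
    have h2 := Submodule.norm_sq_eq_add_norm_sq_starProjection B.w B.V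
    have h3 : B.w - B.V.starProjection B.w = B.Vᗮ.starProjection B.w := by
      rw [Submodule.starProjection_orthogonal_val]
    rw [h3]
    nlinarith [sq_nonneg ‖B.V.starProjection B.w‖]
  rw [norm_smul, mul_pow] at h1
  have : ‖(4 : ℝ)‖ ^ 2 = 16 := by norm_num
  rw [this] at h1
  exact h1.trans B.norm_w_sq_le

lemma norm_top_proj (B : Bad E) (i : Fin 4) :
    ‖B.V.starProjection (B.top i)‖ = √(‖B.top i‖ ^ 2 - ‖B.p‖ ^ 2) := by
  have h2 := Submodule.norm_sq_eq_add_norm_sq_starProjection (B.top i) B.V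
  have h3 : B.p = B.Vᗮ.starProjection (B.top i) := by
    rw [Submodule.starProjection_orthogonal_val, ← B.p_eq i]
  rw [h3, h2, add_sub_cancel_right, Real.sqrt_sq (norm_nonneg _)]

lemma norm_p_le (B : Bad E) (i : Fin 4) : ‖B.p‖ ≤ ‖B.top i‖ := by
  have h2 := Submodule.norm_sq_eq_add_norm_sq_starProjection (B.top i) B.V
  have h3 : B.p = B.Vᗮ.starProjection (B.top i) := by
    rw [Submodule.starProjection_orthogonal_val, ← B.p_eq i]
  rw [h3]
  refine le_of_sq_le_sq ?_ (norm_nonneg _)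
  nlinarith [sq_nonneg ‖B.V.starProjection (B.top i)‖]

lemma sqrt_scale {s x : ℝ} (hs : 0 ≤ s) : √(s ^ 2 * x) = s * √x := by
  rw [Real.sqrt_mul (sq_nonneg s), Real.sqrt_sq hs]

/-- Rescaled norms of the moments. -/
noncomputable def ζ (B : Bad E) (i : Fin (B.m + 4)) : ℝ := √(2 * Real.pi) * ‖B.z i‖

/-- Rescaled norm of the common tilt. -/
noncomputable def η (B : Bad E) : ℝ := √(2 * Real.pi) * ‖B.p‖

lemma ζ_nonneg (B : Bad E) (i) : 0 ≤ B.ζ i := by unfold ζ; positivity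

lemma η_nonneg (B : Bad E) : 0 ≤ B.η := by unfold η; positivity

lemma ζ_anti (B : Bad E) {i j : Fin (B.m + 4)} (h : i ≤ j) : B.ζ j ≤ B.ζ i :=
  mul_le_mul_of_nonneg_left (B.norm_z_anti h) (Real.sqrt_nonneg _)

lemma sq_two_pi : √(2 * Real.pi) ^ 2 = 2 * Real.pi := Real.sq_sqrt (by positivity)

lemma ζ_sq (B : Bad E) (i) : B.ζ i ^ 2 = 2 * Real.pi * ‖B.z i‖ ^ 2 := by
  rw [ζ, mul_pow, sq_two_pi]

lemma lt_sum_ζ_sq (B : Bad E) : 9 / 4 < ∑ i, B.ζ i ^ 2 := by
  simp_rw [ζ_sq]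
  rw [← Finset.mul_sum]
  have h := B.lt_sum_sq
  have hpi := Real.pi_pos
  rw [div_lt_iff₀ (by positivity)] at h
  linarith

lemma η_sq_le (B : Bad E) : 16 * B.η ^ 2 ≤ ∑ i, B.ζ (B.tail i) ^ 2 := by
  simp_rw [ζ_sq]
  rw [← Finset.mul_sum, η, mul_pow, sq_two_pi]
  have h := B.norm_p_sq_le
  have hpi := Real.pi_pos
  nlinarith

lemma η_le (B : Bad E) : B.η ≤ B.ζ 3 :=
  mul_le_mul_of_nonneg_left (B.norm_p_le 3) (Real.sqrt_nonneg _)

end Bad

end Vale.Agent.P226
end
end

section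

section

/-!
# P226: lower bounds for the weighted mass of a cell

For a subspace `V` the number `nnV V A` is the Gaussian integral over `A` of the norm of the
projection on `V`, rescaled by `√(2π)`.  Test vectors give lower bounds for `nnV V A` in terms of
the (rescaled) first moment `Zc A`.
-/

open MeasureTheory ProbabilityTheory Set
open scoped ENNReal NNReal RealInnerProductSpace

namespace Vale.Agent.P226

open K3 Gauss3

variable {E : Type*} [NormedAddCommGroup E] [InnerProductSpace ℝ E] [FiniteDimensional ℝ E]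
  [MeasurableSpace E] [BorelSpace E]

/-- Rescaled first moment. -/
noncomputable def Zc (A : Set E) : E := √(2 * Real.pi) • fm A

/-- Rescaled integral of the norm of the projection on `V`. -/
noncomputable def nnV (V : Submodule ℝ E) (A : Set E) : ℝ :=
  √(2 * Real.pi) * ∫ x in A, ‖V.starProjection x‖ ∂(stdGaussian E)

omit [BorelSpace E] in
lemma nnV_nonneg (V : Submodule ℝ E) (A : Set E) : 0 ≤ nnV V A :=
  mul_nonneg (Real.sqrt_nonneg _) (integral_nonneg fun _ => norm_nonneg _)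

lemma integrable_norm_starProjection (V : Submodule ℝ E) :
    Integrable (fun x : E => ‖V.starProjection x‖) (stdGaussian E) :=
  (V.starProjection.integrable_comp (IsGaussian.integrable_id)).norm

lemma IsPart.sum_nnV {ι : Type*} [Fintype ι] {A : ι → Set E} (h : IsPart A)
    (V : Submodule ℝ E) :
    ∑ i, nnV V (A i) = √(2 * Real.pi) * ∫ x, ‖V.starProjection x‖ ∂(stdGaussian E) := by
  unfold nnV
  rw [← Finset.mul_sum, ← setIntegral_univ, ← h.cover,
    integral_iUnion_fintype h.meas h.disj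
      fun i => (integrable_norm_starProjection V).integrableOn]

lemma sqrt_two_pi_pos : 0 < √(2 * Real.pi) := Real.sqrt_pos.2 (by positivity)

lemma IsPart.sum_nnV_three {ι : Type*} [Fintype ι] {A : ι → Set E} (h : IsPart A)
    {V : Submodule ℝ E} (hV : Module.finrank ℝ V = 3) : ∑ i, nnV V (A i) = 4 := by
  rw [h.sum_nnV, integral_norm_proj hV, ← mul_assoc, mul_inv_cancel₀ sqrt_two_pi_pos.ne', one_mul]

/-- The certificate inequality for one cell. -/
theorem cert (V : Submodule ℝ E) {A : Set E} (v : E) :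
    ⟪v, Zc A⟫ ≤ nnV V A
      + √(2 * Real.pi) * ∫ x, max (⟪v, x⟫ - ‖V.starProjection x‖) 0 ∂(stdGaussian E) := by
  have h0 : ⟪v, Zc A⟫ = √(2 * Real.pi) * ∫ x in A, ⟪v, x⟫ ∂(stdGaussian E) := by
    rw [Zc, inner_smul_right, inner_fm]
  have hi1 := (integrable_inner_stdGaussian v)
  have hi2 := (integrable_norm_starProjection V)
  have hi3 : Integrable (fun x : E => max (⟪v, x⟫ - ‖V.starProjection x‖) 0) (stdGaussian E) :=
    (hi1.sub hi2).pos_part
  have h1 : ∫ x in A, ⟪v, x⟫ ∂(stdGaussian E) - ∫ x in A, ‖V.starProjection x‖ ∂(stdGaussian E)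
      ≤ ∫ x, max (⟪v, x⟫ - ‖V.starProjection x‖) 0 ∂(stdGaussian E) := by
    rw [← integral_sub hi1.integrableOn hi2.integrableOn]
    refine (setIntegral_mono (hi1.sub hi2).integrableOn hi3.integrableOn
      fun x => le_max_left _ _).trans ?_
    exact setIntegral_le_integral hi3 (Filter.Eventually.of_forall fun x => le_max_right _ _)
  rw [h0, nnV, ← mul_add]
  exact mul_le_mul_of_nonneg_left (by linarith) (Real.sqrt_nonneg _)

/-- The certificate inequality for one cell and a three dimensional space. -/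
theorem cert3 {V : Submodule ℝ E} (hV : Module.finrank ℝ V = 3) {A : Set E} (v : E) :
    ⟪v, Zc A⟫ ≤ nnV V A + G3 ‖V.starProjection v‖ ‖v - V.starProjection v‖ 1 := by
  have h := cert V (A := A) v
  have h1 := integral_max_sub_proj hV v zero_le_one
  simp only [one_mul] at h1
  rw [h1, ← mul_assoc, mul_inv_cancel₀ sqrt_two_pi_pos.ne', one_mul] at h
  exact h

/-- First family of test vectors. -/
theorem cell3a {V : Submodule ℝ E} (hV : Module.finrank ℝ V = 3) {A : Set E} {x : ℝ}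
    (hx0 : 0 < x) (hx1 : x ≤ 1) :
    ‖V.starProjection (Zc A)‖ + ‖Zc A - V.starProjection (Zc A)‖ ^ 2 / 2
      ≤ x * nnV V A + (1 - x) ^ 2 := by
  obtain ⟨b, hb⟩ := exists_basis hV (Zc A)
  set Z := Zc A with hZ
  set a := ‖V.starProjection Z‖ with ha
  set h := Z - V.starProjection Z with hh
  have hb1 : ‖(b 0 : E)‖ = 1 := (orthonormal_coe b).1 0
  have hbV : V.starProjection (b 0 : E) = b 0 :=
    Submodule.starProjection_eq_self_iff.2 (b 0).2
  have hhV : V.starProjection h = 0 := by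
    rw [hh, map_sub, Submodule.starProjection_eq_self_iff.2
      (Submodule.starProjection_apply_mem V Z), sub_self]
  have hcert := cert3 hV (A := A) (x⁻¹ • ((b 0 : E) + h))
  have e1 : V.starProjection (x⁻¹ • ((b 0 : E) + h)) = x⁻¹ • (b 0 : E) := by
    rw [map_smul, map_add, hbV, hhV, add_zero]
  have e2 : x⁻¹ • ((b 0 : E) + h) - x⁻¹ • (b 0 : E) = x⁻¹ • h := by
    rw [← smul_sub, add_sub_cancel_left]
  have hbZ : ⟪(b 0 : E), Z⟫ = a := by
    have h1 : ⟪(b 0 : E), Z⟫ = ⟪(b 0 : E), V.starProjection Z⟫ + ⟪(b 0 : E), h⟫ := by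
      rw [← inner_add_right, hh, add_sub_cancel]
    have h2 : ⟪(b 0 : E), h⟫ = 0 := by
      rw [real_inner_comm]
      exact Submodule.starProjection_inner_eq_zero Z _ (b 0).2
    rw [h1, h2, add_zero, hb, inner_smul_right, real_inner_self_eq_norm_sq, hb1]
    ring
  have hhZ : ⟪h, Z⟫ = ‖h‖ ^ 2 := by
    have h1 : ⟪h, Z⟫ = ⟪h, V.starProjection Z⟫ + ⟪h, h⟫ := by
      rw [← inner_add_right]
      nth_rewrite 3 [hh]
      rw [add_sub_cancel]
    have h2 : ⟪h, V.starProjection Z⟫ = 0 :=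
      Submodule.starProjection_inner_eq_zero Z _ (Submodule.starProjection_apply_mem V Z)
    rw [h1, h2, zero_add, real_inner_self_eq_norm_sq]
  rw [e1, e2, inner_smul_left, inner_add_left, hbZ, hhZ, norm_smul, norm_smul, hb1, mul_one]
    at hcert
  have hx' : ‖x⁻¹‖ = x⁻¹ := by rw [Real.norm_eq_abs, abs_of_pos (inv_pos.2 hx0)]
  rw [hx'] at hcert
  have hG := G3_le (a := x⁻¹) (m := x⁻¹ * ‖h‖) (inv_pos.2 hx0) zero_le_one
  have hmax : max (x⁻¹ - 1) 0 = x⁻¹ - 1 := max_eq_left (by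
    have := (one_le_inv₀ hx0).2 hx1
    linarith only [this])
  rw [hmax] at hG
  have h3 : (x⁻¹ - 1) ^ 2 / x⁻¹ + (x⁻¹ * ‖h‖) ^ 2 / (2 * x⁻¹)
      = ((1 - x) ^ 2 + ‖h‖ ^ 2 / 2) / x := by
    (clear * - hx0; field_simp)
  rw [h3] at hG
  have h4 : x⁻¹ * (a + ‖h‖ ^ 2) ≤ nnV V A + ((1 - x) ^ 2 + ‖h‖ ^ 2 / 2) / x := by
    have h5 : (starRingEnd ℝ) x⁻¹ = x⁻¹ := by simp
    rw [h5] at hcert
    (clear hV hx0 hx1 b hZ hb ha hh hb1 hbV hhV e1 e2 hbZ hhZ hx' hmax h3 h5; linarith)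
  have h6 := mul_le_mul_of_nonneg_left h4 hx0.le
  have h7 : x * (x⁻¹ * (a + ‖h‖ ^ 2)) = a + ‖h‖ ^ 2 := by
    (clear * - hx0; field_simp)
  have h8 : x * (nnV V A + ((1 - x) ^ 2 + ‖h‖ ^ 2 / 2) / x)
      = x * nnV V A + (1 - x) ^ 2 + ‖h‖ ^ 2 / 2 := by
    field_simp
    ring
  rw [h7, h8] at h6
  (clear hV hx0 hx1 b hZ hb ha hh hb1 hbV hhV hcert e1 e2 hbZ hhZ hx' hG hmax h3 h4 h7 h8; linarith)

/-- Second family of test vectors. -/
theorem cell3b {V : Submodule ℝ E} (hV : Module.finrank ℝ V = 3) {A : Set E} {c : ℝ}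
    (hc0 : 0 < c) (hc1 : c ≤ 1) :
    ‖Zc A‖ * √(1 - c ^ 2) ≤ c * nnV V A + (1 - c) ^ 2 := by
  set Z := Zc A with hZ
  rcases eq_or_ne Z 0 with h0 | h0
  · rw [h0, norm_zero, zero_mul]
    have := nnV_nonneg V A
    (clear hV hc1 Z hZ h0; positivity)
  have hZ0 : 0 < ‖Z‖ := norm_pos_iff.2 h0
  have hs2 : √(1 - c ^ 2) ^ 2 = 1 - c ^ 2 := Real.sq_sqrt (by nlinarith only [hc1, hc0])
  set s := √(1 - c ^ 2) with hs
  have hs0 : 0 ≤ s := Real.sqrt_nonneg _
  set v : E := (s / (c * ‖Z‖)) • Z with hv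
  have hvn : ‖v‖ = s / c := by
    rw [hv, norm_smul, Real.norm_eq_abs, abs_of_nonneg (by (clear * - hc0 h0; positivity))]
    field_simp
  have hcert := cert3 hV (A := A) v
  have hinner : ⟪v, Z⟫ = s * ‖Z‖ / c := by
    rw [hv, inner_smul_left, real_inner_self_eq_norm_sq]
    simp only [conj_trivial]
    field_simp
  rw [← hZ, hinner] at hcert
  have hG := G3_le_vertical (a := ‖V.starProjection v‖) (m := ‖v - V.starProjection v‖) (l := 1)
    (norm_nonneg _) zero_le_one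
  have h2 := Submodule.norm_sq_eq_add_norm_sq_starProjection v V
  have h3 : v - V.starProjection v = Vᗮ.starProjection v := by
    rw [Submodule.starProjection_orthogonal_val]
  rw [← h3] at h2
  have h4 : √(‖V.starProjection v‖ ^ 2 + ‖v - V.starProjection v‖ ^ 2 + 1 ^ 2) = 1 / c := by
    rw [← h2, hvn, Real.sqrt_eq_iff_mul_self_eq (by (clear * -; positivity)) (by positivity)]
    field_simp
    linarith only [hs2]
  rw [h4] at hG
  have h5 : (1 / c - 1) ^ 2 / (1 / c) = (1 - c) ^ 2 / c := by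
    (clear * - hc0; field_simp)
  rw [h5] at hG
  have h6 : s * ‖Z‖ / c ≤ nnV V A + (1 - c) ^ 2 / c := hcert.trans (by (clear hV hc0 hc1 hZ h0 hZ0 hs2 hs hs0 hv hvn hcert hinner h2 h3 h4 h5; linarith))
  have h7 := mul_le_mul_of_nonneg_left h6 hc0.le
  have h8 : c * (s * ‖Z‖ / c) = ‖Z‖ * s := by (clear * - hc0 h0; field_simp)
  have h9 : c * (nnV V A + (1 - c) ^ 2 / c) = c * nnV V A + (1 - c) ^ 2 := by (clear hV hc1 Z hZ h0 hZ0 s hs2 hs hs0 v hv hvn hcert hinner hG h2 h3 h4 h5 h6 h7 h8; field_simp)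
  rwa [h8, h9] at h7

/-- The half space bound for sums of moments. -/
theorem IsPart.norm_sum_Zc_le {ι : Type*} [Fintype ι] {A : ι → Set E} (h : IsPart A)
    (s : Finset ι) : ‖∑ i ∈ s, Zc (A i)‖ ≤ 1 := by
  classical
  set Z := ∑ i ∈ s, Zc (A i) with hZ
  have habs : Integrable (fun x : E => max ⟪Z, x⟫ 0) (stdGaussian E) :=
    (integrable_inner_stdGaussian Z).pos_part
  have h1 := sum_inner_fm_le A h.meas h.disj h.cover (fun i => if i ∈ s then Z else 0)
    (fun x => max ⟪Z, x⟫ 0) habs (by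
      intro i x
      split_ifs
      · exact le_max_left _ _
      · rw [inner_zero_left]; exact le_max_right _ _)
  have h2 : ∑ i, ⟪(if i ∈ s then Z else 0), fm (A i)⟫ = ⟪Z, ∑ i ∈ s, fm (A i)⟫ := by
    rw [inner_sum, ← Finset.sum_filter_add_sum_filter_not Finset.univ (fun i => i ∈ s)]
    rw [Finset.sum_congr (g := fun i => ⟪Z, fm (A i)⟫) rfl fun i hi => by
      rw [if_pos (Finset.mem_filter.1 hi).2]]
    rw [Finset.sum_congr (s₁ := Finset.univ.filter fun i => i ∉ s) (g := fun i => (0 : ℝ)) rfl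
      fun i hi => by rw [if_neg (Finset.mem_filter.1 hi).2, inner_zero_left]]
    rw [Finset.sum_const_zero, add_zero]
    congr 1
    ext i
    simp only [Finset.subset_univ, Finset.filter_mem_eq_of_subset]
  have h3 : ∫ x, max ⟪Z, x⟫ 0 ∂(stdGaussian E) = (√(2 * Real.pi))⁻¹ * ‖Z‖ := by
    have h4 : ∀ x : E, max ⟪Z, x⟫ 0 = (|⟪Z, x⟫| + ⟪Z, x⟫) / 2 := by
      intro x
      rcases le_total 0 ⟪Z, x⟫ with h0 | h0
      · rw [abs_of_nonneg h0, max_eq_left h0]; ring
      · rw [abs_of_nonpos h0, max_eq_right h0]; ring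
    simp_rw [h4]
    rw [integral_div, integral_add (integrable_inner_stdGaussian Z).abs
      (integrable_inner_stdGaussian Z), integral_abs_inner_stdGaussian,
      integral_inner_stdGaussian]
    have := sqrt_two_pi_pos
    field_simp
    ring
  rw [h2, h3] at h1
  have h5 : ⟪Z, Z⟫ = √(2 * Real.pi) * ⟪Z, ∑ i ∈ s, fm (A i)⟫ := by
    nth_rewrite 2 [hZ]
    simp only [Zc]
    rw [← Finset.smul_sum, inner_smul_right]
  rw [real_inner_self_eq_norm_sq] at h5
  have h6 : ‖Z‖ ^ 2 ≤ ‖Z‖ := by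
    rw [h5]
    calc _ ≤ √(2 * Real.pi) * ((√(2 * Real.pi))⁻¹ * ‖Z‖) :=
        mul_le_mul_of_nonneg_left h1 (Real.sqrt_nonneg _)
      _ = ‖Z‖ := by
        rw [← mul_assoc, mul_inv_cancel₀ sqrt_two_pi_pos.ne', one_mul]
  by_contra hc
  push Not at hc
  nlinarith only [h6, hc]

namespace Bad

lemma norm_Zc (B : Bad E) (i : Fin (B.m + 4)) : ‖Zc (B.A i)‖ = B.ζ i := by
  rw [Zc, norm_smul, Real.norm_eq_abs, abs_of_nonneg (Real.sqrt_nonneg _)]
  rfl

/-- The mass of the cells with respect to the space `V`. -/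
noncomputable def nn (B : Bad E) (i : Fin (B.m + 4)) : ℝ := nnV B.V (B.A i)

lemma sum_nn (B : Bad E) : ∑ i, B.nn i = 4 := B.part.sum_nnV_three B.finrank_V

/-- The index in `Fin (m + 4)` of one of the four largest cells. -/
def topIdx (B : Bad E) (i : Fin 4) : Fin (B.m + 4) := i.castLE (by omega)

lemma top_eq (B : Bad E) (i : Fin 4) : B.top i = B.z (B.topIdx i) := by
  fin_cases i <;> rfl

lemma norm_proj_Zc_top (B : Bad E) (i : Fin 4) :
    ‖B.V.starProjection (Zc (B.A (B.topIdx i)))‖ = √(B.ζ (B.topIdx i) ^ 2 - B.η ^ 2) := by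
  have h := B.norm_top_proj i
  have h1 : Zc (B.A (B.topIdx i)) = √(2 * Real.pi) • B.top i := by
    rw [B.top_eq]; rfl
  rw [h1, map_smul, norm_smul, h, Real.norm_eq_abs, abs_of_nonneg (Real.sqrt_nonneg _),
    ← sqrt_scale (Real.sqrt_nonneg _)]
  congr 1
  rw [ζ, η, B.top_eq]
  ring

lemma norm_sub_proj_Zc_top (B : Bad E) (i : Fin 4) :
    ‖Zc (B.A (B.topIdx i)) - B.V.starProjection (Zc (B.A (B.topIdx i)))‖ = B.η := by
  have h1 : Zc (B.A (B.topIdx i)) = √(2 * Real.pi) • B.top i := by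
    rw [B.top_eq]; rfl
  rw [h1, map_smul, ← smul_sub, B.p_eq, norm_smul, Real.norm_eq_abs,
    abs_of_nonneg (Real.sqrt_nonneg _)]
  rfl

/-- `(3a)` for the four largest cells. -/
theorem nn_top (B : Bad E) (i : Fin 4) {x : ℝ} (hx0 : 0 < x) (hx1 : x ≤ 1) :
    √(B.ζ (B.topIdx i) ^ 2 - B.η ^ 2) + B.η ^ 2 / 2
      ≤ x * B.nn (B.topIdx i) + (1 - x) ^ 2 := by
  have h := cell3a B.finrank_V (A := B.A (B.topIdx i)) hx0 hx1
  rwa [B.norm_proj_Zc_top, B.norm_sub_proj_Zc_top] at h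

/-- `(3b)` for all cells. -/
theorem nn_all (B : Bad E) (i : Fin (B.m + 4)) {c : ℝ} (hc0 : 0 < c) (hc1 : c ≤ 1) :
    B.ζ i * √(1 - c ^ 2) ≤ c * B.nn i + (1 - c) ^ 2 := by
  have h := cell3b B.finrank_V (A := B.A i) hc0 hc1
  rwa [B.norm_Zc] at h

/-- The tilt is at most `1/4`. -/
theorem sixteen_η_sq_le_one (B : Bad E) : 16 * B.η ^ 2 ≤ 1 := by
  have h1 := B.part.norm_sum_Zc_le (Finset.univ.image B.tail)
  rw [Finset.sum_image fun i _ j _ hij => B.tail_injective hij] at h1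
  have h2 : ∑ i, Zc (B.A (B.tail i)) = √(2 * Real.pi) • B.w := by
    rw [w, Finset.smul_sum]
    rfl
  rw [h2, norm_smul, Real.norm_eq_abs, abs_of_nonneg (Real.sqrt_nonneg _)] at h1
  have h3 : ‖(4 : ℝ) • B.p‖ ^ 2 ≤ ‖B.w‖ ^ 2 := by
    rw [B.four_p, norm_neg]
    have h2 := Submodule.norm_sq_eq_add_norm_sq_starProjection B.w B.V
    have h3 : B.w - B.V.starProjection B.w = B.Vᗮ.starProjection B.w := by
      rw [Submodule.starProjection_orthogonal_val]
    rw [h3]
    nlinarith [sq_nonneg ‖B.V.starProjection B.w‖]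
  rw [norm_smul, mul_pow] at h3
  have h4 : ‖(4 : ℝ)‖ ^ 2 = 16 := by norm_num
  rw [h4] at h3
  have h5 : 16 * B.η ^ 2 = √(2 * Real.pi) ^ 2 * (16 * ‖B.p‖ ^ 2) := by
    rw [η]; ring
  rw [h5]
  calc _ ≤ √(2 * Real.pi) ^ 2 * ‖B.w‖ ^ 2 := mul_le_mul_of_nonneg_left h3 (sq_nonneg _)
    _ = (√(2 * Real.pi) * ‖B.w‖) ^ 2 := by ring
    _ ≤ 1 := by
      have := norm_nonneg B.w
      have h0 : 0 ≤ √(2 * Real.pi) * ‖B.w‖ := by positivity
      (clear h2 h3 h4 h5 this; nlinarith)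

/-- Three of the moments. -/
noncomputable def top3 (B : Bad E) : Fin 3 → E := ![B.z 0, B.z 1, B.z 2]

lemma top3_eq (B : Bad E) (i : Fin 3) : B.top3 i = B.z (i.castLE (by omega)) := by
  fin_cases i <;> rfl

lemma top3_inner_neg (B : Bad E) : ∀ i j, i ≠ j → ⟪B.top3 i, B.top3 j⟫ < 0 := by
  intro i j hij
  rw [top3_eq, top3_eq]
  exact B.inner_z_neg fun h => hij ((Fin.castLE_injective _) h)

lemma three_ne_castLE (B : Bad E) (i : Fin 3) :
    (3 : Fin (B.m + 4)) ≠ i.castLE (by omega) := by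
  intro h
  have h1 := congrArg Fin.val h
  have h2 : ((3 : Fin (B.m + 4)) : ℕ) = 3 := by
    have : (3 : Fin (B.m + 4)) = (⟨3, by omega⟩ : Fin (B.m + 4)) := by
      apply Fin.ext
      simp [Nat.mod_eq_of_lt]
    rw [this]
  rw [h2] at h1
  have h3 := i.2
  simp at h1
  omega

lemma top3_inner_z3 (B : Bad E) (i : Fin 3) : ⟪B.top3 i, B.z 3⟫ < 0 := by
  rw [top3_eq]
  exact B.inner_z_neg (B.three_ne_castLE i).symm

/-- The three largest moments are linearly independent. -/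
lemma linearIndependent_top3 (B : Bad E) : LinearIndependent ℝ B.top3 := by
  rw [Fintype.linearIndependent_iff]
  -- a nonnegative combination which vanishes is trivial
  have hkey : ∀ c : Fin 3 → ℝ, (∀ i, 0 ≤ c i) → ∑ i, c i • B.top3 i = 0 → ∀ i, c i = 0 := by
    intro c hc h
    by_contra hne
    push Not at hne
    obtain ⟨i₀, hi₀⟩ := hne
    have h1 : ⟪∑ i, c i • B.top3 i, B.z 3⟫ = ∑ i, c i * ⟪B.top3 i, B.z 3⟫ := by
      rw [sum_inner]
      refine Finset.sum_congr rfl fun i _ => ?_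
      rw [inner_smul_left]
      rfl
    have h2 : ∑ i, c i * ⟪B.top3 i, B.z 3⟫ < 0 :=
      Finset.sum_neg' (fun i _ => mul_nonpos_of_nonneg_of_nonpos (hc i) (B.top3_inner_z3 i).le)
        ⟨i₀, Finset.mem_univ _, mul_neg_of_pos_of_neg (lt_of_le_of_ne (hc i₀) (Ne.symm hi₀))
          (B.top3_inner_z3 i₀)⟩
    rw [← h1, h, inner_zero_left] at h2
    exact lt_irrefl _ h2
  intro g hg
  set P := ∑ i, (max (g i) 0) • B.top3 i with hP
  have hPN : P = ∑ i, (max (-g i) 0) • B.top3 i := by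
    rw [hP, ← sub_eq_zero, ← Finset.sum_sub_distrib, ← hg]
    refine Finset.sum_congr rfl fun i _ => ?_
    rw [← sub_smul]
    congr 1
    rcases le_total 0 (g i) with h0 | h0
    · rw [max_eq_left h0, max_eq_right (by linarith)]; ring
    · rw [max_eq_right h0, max_eq_left (by linarith)]; ring
  have h1 : ‖P‖ ^ 2 = ∑ i, ∑ j, (max (g i) 0) * (max (-g j) 0) * ⟪B.top3 i, B.top3 j⟫ := by
    rw [← real_inner_self_eq_norm_sq]
    nth_rewrite 2 [hPN]
    rw [hP, sum_inner]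
    refine Finset.sum_congr rfl fun i _ => ?_
    rw [inner_sum]
    refine Finset.sum_congr rfl fun j _ => ?_
    rw [inner_smul_left, inner_smul_right]
    simp only [Real.ringHom_apply]
    ring
  have h2 : ∀ i j, (max (g i) 0) * (max (-g j) 0) * ⟪B.top3 i, B.top3 j⟫ ≤ 0 := by
    intro i j
    by_cases hij : i = j
    · subst hij
      rcases le_total 0 (g i) with h0 | h0
      · rw [max_eq_right (b := (0 : ℝ)) (by linarith : -g i ≤ 0)]; simp only [mul_zero, inner_self_eq_norm_sq_to_K, Real.ringHom_apply, zero_mul, Std.le_refl]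
      · rw [max_eq_right h0]; simp only [zero_mul, inner_self_eq_norm_sq_to_K, Real.ringHom_apply, Std.le_refl]
    · exact mul_nonpos_of_nonneg_of_nonpos
        (mul_nonneg (le_max_right _ _) (le_max_right _ _)) (B.top3_inner_neg i j hij).le
  have h3 : ‖P‖ ^ 2 ≤ 0 := by
    rw [h1]
    exact Finset.sum_nonpos fun i _ => Finset.sum_nonpos fun j _ => h2 i j
  have h4 : P = 0 := norm_eq_zero.1 (by nlinarith only [h3])
  have h5 := hkey _ (fun i => le_max_right _ _) h4
  have h6 := hkey _ (fun i => le_max_right _ _) (hPN.symm.trans h4)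
  intro i
  have h7 := le_max_left (g i) 0
  have h8 := le_max_left (-g i) 0
  rw [h5] at h7
  rw [h6] at h8
  linarith

/-- The linear span of the three largest moments. -/
noncomputable def W (B : Bad E) : Submodule ℝ E := Submodule.span ℝ (Set.range B.top3)

lemma finrank_W (B : Bad E) : Module.finrank ℝ B.W = 3 := by
  rw [W, finrank_span_eq_card B.linearIndependent_top3, Fintype.card_fin]

lemma starProjection_W (B : Bad E) (i : Fin 3) :
    B.W.starProjection (Zc (B.A (i.castLE (by omega)))) = Zc (B.A (i.castLE (by omega))) := by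
  apply Submodule.starProjection_eq_self_iff.2
  have h1 : Zc (B.A (i.castLE (by omega))) = √(2 * Real.pi) • B.top3 i := by
    rw [B.top3_eq]; rfl
  rw [h1]
  exact Submodule.smul_mem _ _ (Submodule.subset_span ⟨i, rfl⟩)

/-- The mass of the cells with respect to the space `W`. -/
noncomputable def nw (B : Bad E) (i : Fin (B.m + 4)) : ℝ := nnV B.W (B.A i)

lemma sum_nw (B : Bad E) : ∑ i, B.nw i = 4 := B.part.sum_nnV_three B.finrank_W

/-- `(3b)` for all cells. -/
theorem nw_all (B : Bad E) (i : Fin (B.m + 4)) {c : ℝ} (hc0 : 0 < c) (hc1 : c ≤ 1) :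
    B.ζ i * √(1 - c ^ 2) ≤ c * B.nw i + (1 - c) ^ 2 := by
  have h := cell3b B.finrank_W (A := B.A i) hc0 hc1
  rwa [B.norm_Zc] at h

end Bad

end Vale.Agent.P226
end
end

section

section

/-!
# P226: cell inequalities for a two dimensional space

The Gaussian integral bounds enter as hypotheses `G2Bound V` and `G2vBound V`.
-/

open MeasureTheory ProbabilityTheory Set
open scoped ENNReal NNReal RealInnerProductSpace

namespace Vale.Agent.P226

open K3 Gauss3

variable {E : Type*} [NormedAddCommGroup E] [InnerProductSpace ℝ E] [FiniteDimensional ℝ E]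
  [MeasurableSpace E] [BorelSpace E]

/-- Bound for the cost of a vector with a small component orthogonal to `V`. -/
def G2Bound (V : Submodule ℝ E) : Prop :=
  ∀ v : E, 1 < ‖V.starProjection v‖ →
    √(2 * Real.pi) * ∫ x, max (⟪v, x⟫ - ‖V.starProjection x‖) 0 ∂(stdGaussian E)
      ≤ √(‖V.starProjection v‖ ^ 2 - 1) - Real.arccos (1 / ‖V.starProjection v‖)
        + ‖v - V.starProjection v‖ ^ 2 / (2 * √(‖V.starProjection v‖ ^ 2 - 1))

/-- Bound for the cost of an arbitrary vector. -/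
def G2vBound (V : Submodule ℝ E) : Prop :=
  ∀ v : E, √(2 * Real.pi) * ∫ x, max (⟪v, x⟫ - ‖V.starProjection x‖) 0 ∂(stdGaussian E)
      ≤ ‖v‖ - Real.arctan ‖v‖

omit [MeasurableSpace E] [BorelSpace E] in
lemma exists_unit {V : Submodule ℝ E} (hV : 0 < Module.finrank ℝ V) (v : E) :
    ∃ e ∈ V, ‖e‖ = 1 ∧ V.starProjection v = ‖V.starProjection v‖ • e := by
  by_cases h : V.starProjection v = 0
  · have : Nontrivial V := Module.nontrivial_of_finrank_pos hV
    obtain ⟨e, he⟩ := exists_norm_eq V (zero_le_one (α := ℝ))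
    refine ⟨e, e.2, ?_, ?_⟩
    · rw [← Submodule.coe_norm]; exact he
    · rw [h, norm_zero, zero_smul]
  · have hn : ‖V.starProjection v‖ ≠ 0 := norm_ne_zero_iff.2 h
    refine ⟨‖V.starProjection v‖⁻¹ • V.starProjection v,
      V.smul_mem _ (Submodule.starProjection_apply_mem V v), ?_, ?_⟩
    · rw [norm_smul, norm_inv, norm_norm, inv_mul_cancel₀ hn]
    · rw [smul_smul, mul_inv_cancel₀ hn, one_smul]

/-- First family of test vectors, interior angles. -/
theorem cell2a_aux {V : Submodule ℝ E} (hV : 0 < Module.finrank ℝ V) (hG : G2Bound V)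
    {A : Set E} {θ : ℝ} (h0 : 0 < θ) (h1 : θ < Real.pi / 2) :
    ‖V.starProjection (Zc A)‖
      ≤ (nnV V A - θ) * Real.cos θ
        + (1 - ‖Zc A - V.starProjection (Zc A)‖ ^ 2 / 2) * Real.sin θ := by
  obtain ⟨e, heV, he1, he⟩ := exists_unit hV (Zc A)
  set Z := Zc A with hZ
  set a := ‖V.starProjection Z‖ with ha
  set h := Z - V.starProjection Z with hh
  have hsin : 0 < Real.sin θ := Real.sin_pos_of_pos_of_lt_pi h0 (by linarith only [h0, h1])
  have hcos : 0 < Real.cos θ := Real.cos_pos_of_mem_Ioo ⟨by linarith only [h0, h1], h1⟩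
  have hcos1 : Real.cos θ < 1 := by
    have := Real.cos_lt_cos_of_nonneg_of_le_pi_div_two le_rfl h1.le h0
    rwa [Real.cos_zero] at this
  have hbV : V.starProjection e = e := Submodule.starProjection_eq_self_iff.2 heV
  have hhV : V.starProjection h = 0 := by
    rw [hh, map_sub, Submodule.starProjection_eq_self_iff.2
      (Submodule.starProjection_apply_mem V Z), sub_self]
  set c := Real.cos θ with hc
  set s := Real.sin θ with hs
  have hcert := cert V (A := A) (c⁻¹ • (e + s • h))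
  have e1 : V.starProjection (c⁻¹ • (e + s • h)) = c⁻¹ • e := by
    rw [map_smul, map_add, hbV, map_smul, hhV, smul_zero, add_zero]
  have e2 : c⁻¹ • (e + s • h) - c⁻¹ • e = (c⁻¹ * s) • h := by
    rw [← smul_sub, add_sub_cancel_left, smul_smul]
  have hbZ : ⟪e, Z⟫ = a := by
    have h1 : ⟪e, Z⟫ = ⟪e, V.starProjection Z⟫ + ⟪e, h⟫ := by
      rw [← inner_add_right, hh, add_sub_cancel]
    have h2 : ⟪e, h⟫ = 0 := by
      rw [real_inner_comm]
      exact Submodule.starProjection_inner_eq_zero Z _ heV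
    rw [h1, h2, add_zero, he, inner_smul_right, real_inner_self_eq_norm_sq, he1]
    ring
  have hhZ : ⟪h, Z⟫ = ‖h‖ ^ 2 := by
    have h1 : ⟪h, Z⟫ = ⟪h, V.starProjection Z⟫ + ⟪h, h⟫ := by
      rw [← inner_add_right]
      nth_rewrite 3 [hh]
      rw [add_sub_cancel]
    have h2 : ⟪h, V.starProjection Z⟫ = 0 :=
      Submodule.starProjection_inner_eq_zero Z _ (Submodule.starProjection_apply_mem V Z)
    rw [h1, h2, zero_add, real_inner_self_eq_norm_sq]
  have hcn : ‖c⁻¹‖ = c⁻¹ := by rw [Real.norm_eq_abs, abs_of_pos (inv_pos.2 hcos)]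
  have hn1 : ‖c⁻¹ • e‖ = 1 / c := by rw [norm_smul, he1, hcn, mul_one, one_div]
  have hn2 : ‖(c⁻¹ * s) • h‖ = s / c * ‖h‖ := by
    rw [norm_smul, Real.norm_eq_abs, abs_of_nonneg (by (clear * - hcos hsin; positivity))]
    ring
  have hgt : 1 < ‖V.starProjection (c⁻¹ • (e + s • h))‖ := by
    rw [e1, hn1, one_lt_div hcos]
    exact hcos1
  have hG1 := hG _ hgt
  rw [e1, e2, hn1, hn2] at hG1
  have hsq : √((1 / c) ^ 2 - 1) = s / c := by
    rw [Real.sqrt_eq_iff_mul_self_eq]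
    · have := Real.sin_sq_add_cos_sq θ
      field_simp
      nlinarith only [this]
    · have : 1 ≤ 1 / c := by rw [one_le_div hcos]; exact hcos1.le
      nlinarith only [this]
    · (clear * - hsin hcos; positivity)
  have harc : Real.arccos (1 / (1 / c)) = θ := by
    rw [one_div_one_div, hc, Real.arccos_cos h0.le (by linarith only [h0, h1])]
  rw [hsq, harc] at hG1
  have hinner : ⟪c⁻¹ • (e + s • h), Z⟫ = (a + s * ‖h‖ ^ 2) / c := by
    rw [inner_smul_left, inner_add_left, inner_smul_left, hbZ, hhZ]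
    simp only [conj_trivial]
    (clear * - hcos; field_simp)
  rw [hinner] at hcert
  have h3 : (a + s * ‖h‖ ^ 2) / c
      ≤ nnV V A + (s / c - θ + (s / c * ‖h‖) ^ 2 / (2 * (s / c))) := by
    (clear hV hG h0 h1 heV he1 hZ he ha hh hbV hhV hcos hcos1 hc hsin hs e1 e2 hbZ hhZ hcn hn1 hn2 hgt hsq harc hinner; linarith)
  have h4 : (s / c * ‖h‖) ^ 2 / (2 * (s / c)) = s * ‖h‖ ^ 2 / (2 * c) := by
    (clear * - hcos hsin; field_simp)
  rw [h4] at h3
  have h5 := mul_le_mul_of_nonneg_right h3 hcos.le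
  have h6 : (a + s * ‖h‖ ^ 2) / c * c = a + s * ‖h‖ ^ 2 := by (clear * - hcos; field_simp)
  have h7 : (nnV V A + (s / c - θ + s * ‖h‖ ^ 2 / (2 * c))) * c
      = (nnV V A - θ) * c + s + s * ‖h‖ ^ 2 / 2 := by
    field_simp
    ring
  rw [h6, h7] at h5
  (clear hV hG h0 h1 e heV he1 hZ he ha hh hbV hhV hcos hcos1 hc hsin hs hcert e1 e2 hbZ hhZ hcn hn1 hn2 hgt hG1 hsq harc hinner h3 h4 h6 h7; linarith)

/-- First family of test vectors. -/
theorem cell2a {V : Submodule ℝ E} (hV : 0 < Module.finrank ℝ V) (hG : G2Bound V)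
    {A : Set E} {θ : ℝ} (h0 : 0 ≤ θ) (h1 : θ ≤ Real.pi / 2) :
    ‖V.starProjection (Zc A)‖
      ≤ (nnV V A - θ) * Real.cos θ
        + (1 - ‖Zc A - V.starProjection (Zc A)‖ ^ 2 / 2) * Real.sin θ := by
  have hpi := Real.pi_pos
  have hsub : Icc (0 : ℝ) (Real.pi / 2) ⊆ closure (Ioo 0 (Real.pi / 2)) := by
    rw [closure_Ioo (by positivity)]
  have hcont : Continuous fun θ : ℝ => (nnV V A - θ) * Real.cos θ
        + (1 - ‖Zc A - V.starProjection (Zc A)‖ ^ 2 / 2) * Real.sin θ := by fun_prop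
  have hclosed : IsClosed {θ : ℝ | ‖V.starProjection (Zc A)‖ ≤ (nnV V A - θ) * Real.cos θ
        + (1 - ‖Zc A - V.starProjection (Zc A)‖ ^ 2 / 2) * Real.sin θ} :=
    isClosed_le continuous_const hcont
  have hsub2 : Ioo (0 : ℝ) (Real.pi / 2) ⊆ {θ : ℝ | ‖V.starProjection (Zc A)‖
      ≤ (nnV V A - θ) * Real.cos θ
        + (1 - ‖Zc A - V.starProjection (Zc A)‖ ^ 2 / 2) * Real.sin θ} :=
    fun t ht => cell2a_aux hV hG ht.1 ht.2
  exact (closure_minimal hsub2 hclosed) (hsub ⟨h0, h1⟩)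

/-- Second family of test vectors. -/
theorem cell2b {V : Submodule ℝ E} (hG : G2vBound V) {A : Set E} {s : ℝ} (hs : 0 ≤ s) :
    s * ‖Zc A‖ ≤ nnV V A + s - Real.arctan s := by
  set Z := Zc A with hZ
  rcases eq_or_ne Z 0 with h0 | h0
  · rw [h0, norm_zero, mul_zero]
    have h1 := nnV_nonneg V A
    have h2 : Real.arctan s ≤ s := by
      have h3 := hG 0
      rcases hs.eq_or_lt with h4 | h4
      · rw [← h4, Real.arctan_zero]
      · have h5 := Real.lt_tan (x := Real.arctan s) (by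
          rw [← Real.arctan_zero]; exact Real.arctan_strictMono h4) (Real.arctan_lt_pi_div_two s)
        rw [Real.tan_arctan] at h5
        exact h5.le
    linarith
  have hZ0 : 0 < ‖Z‖ := norm_pos_iff.2 h0
  set v : E := (s / ‖Z‖) • Z with hv
  have hvn : ‖v‖ = s := by
    rw [hv, norm_smul, Real.norm_eq_abs, abs_of_nonneg (by positivity)]
    field_simp
  have hcert := cert V (A := A) v
  have hinner : ⟪v, Z⟫ = s * ‖Z‖ := by
    rw [hv, inner_smul_left, real_inner_self_eq_norm_sq]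
    simp only [conj_trivial]
    field_simp
  rw [← hZ, hinner] at hcert
  have h1 := hG v
  rw [hvn] at h1
  linarith

namespace Bad

/-- The plane parallel to the affine hull of the three largest moments. -/
noncomputable def V2 (B : Bad E) : Submodule ℝ E := dirSpan B.top3

lemma finrank_V2 (B : Bad E) : Module.finrank ℝ B.V2 = 2 := finrank_dirSpan B.top3_inner_neg

/-- The component orthogonal to `V2` of the three largest moments. -/
noncomputable def p2 (B : Bad E) : E := B.z 0 - B.V2.starProjection (B.z 0)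

lemma p2_eq (B : Bad E) (i : Fin 3) : B.top3 i - B.V2.starProjection (B.top3 i) = B.p2 :=
  sub_proj_eq B.top3 i

/-- The sum of the moments after the first three. -/
noncomputable def w2 (B : Bad E) : E := B.z 3 + B.w

lemma norm_w2_sq_le (B : Bad E) :
    ‖B.w2‖ ^ 2 ≤ ‖B.z 3‖ ^ 2 + ∑ i, ‖B.z (B.tail i)‖ ^ 2 := by
  rw [w2, norm_add_sq_real]
  have h1 := B.norm_w_sq_le
  have h2 : ⟪B.z 3, B.w⟫ ≤ 0 := by
    rw [w, inner_sum]
    refine Finset.sum_nonpos fun i _ => (B.inner_z_neg ?_).le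
    intro h
    have h3 := congrArg Fin.val h
    have h4 : ((3 : Fin (B.m + 4)) : ℕ) = 3 := by
      have : (3 : Fin (B.m + 4)) = (⟨3, by omega⟩ : Fin (B.m + 4)) := by
        apply Fin.ext
        simp [Nat.mod_eq_of_lt]
      rw [this]
    rw [h4] at h3
    simp [tail] at h3
  linarith

lemma three_p2 (B : Bad E) : (3 : ℝ) • B.p2 = -(B.w2 - B.V2.starProjection B.w2) := by
  have h := B.top_sum_add_w
  have h' : B.V2.starProjection (B.z 0) + (B.V2.starProjection (B.z 1)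
      + (B.V2.starProjection (B.z 2) + (B.V2.starProjection B.w2))) = 0 := by
    rw [← map_add, ← map_add, ← map_add, w2, h, map_zero]
  have e0 : B.z 0 - B.V2.starProjection (B.z 0) = B.p2 := B.p2_eq 0
  have e1 : B.z 1 - B.V2.starProjection (B.z 1) = B.p2 := B.p2_eq 1
  have e2 : B.z 2 - B.V2.starProjection (B.z 2) = B.p2 := B.p2_eq 2
  have e : (3 : ℝ) • B.p2 = B.p2 + B.p2 + B.p2 := by
    module
  rw [e]
  nth_rewrite 1 [← e0]
  nth_rewrite 1 [← e1]
  nth_rewrite 1 [← e2]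
  have h2 : B.w2 = -(B.z 0 + B.z 1 + B.z 2) := by
    rw [eq_neg_iff_add_eq_zero, ← h, w2]; abel
  have h2' : B.V2.starProjection B.w2 = -(B.V2.starProjection (B.z 0)
      + B.V2.starProjection (B.z 1) + B.V2.starProjection (B.z 2)) := by
    rw [eq_neg_iff_add_eq_zero, ← h']; abel
  rw [h2', h2]
  abel

lemma norm_p2_sq_le (B : Bad E) :
    9 * ‖B.p2‖ ^ 2 ≤ ‖B.z 3‖ ^ 2 + ∑ i, ‖B.z (B.tail i)‖ ^ 2 := by
  have h1 : ‖(3 : ℝ) • B.p2‖ ^ 2 ≤ ‖B.w2‖ ^ 2 := by
    rw [B.three_p2, norm_neg]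
    have h2 := Submodule.norm_sq_eq_add_norm_sq_starProjection B.w2 B.V2
    have h3 : B.w2 - B.V2.starProjection B.w2 = B.V2ᗮ.starProjection B.w2 := by
      rw [Submodule.starProjection_orthogonal_val]
    rw [h3]
    nlinarith [sq_nonneg ‖B.V2.starProjection B.w2‖]
  rw [norm_smul, mul_pow] at h1
  have : ‖(3 : ℝ)‖ ^ 2 = 9 := by norm_num
  rw [this] at h1
  exact h1.trans B.norm_w2_sq_le

/-- Rescaled norm of the common tilt out of the plane `V2`. -/
noncomputable def η2 (B : Bad E) : ℝ := √(2 * Real.pi) * ‖B.p2‖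

lemma η2_sq_le (B : Bad E) : 9 * B.η2 ^ 2 ≤ B.ζ 3 ^ 2 + ∑ i, B.ζ (B.tail i) ^ 2 := by
  simp_rw [ζ_sq]
  rw [← Finset.mul_sum, η2, mul_pow, sq_two_pi]
  have h := B.norm_p2_sq_le
  have hpi := Real.pi_pos
  nlinarith

lemma Zc_top3 (B : Bad E) (i : Fin 3) :
    Zc (B.A (i.castLE (by omega))) = √(2 * Real.pi) • B.top3 i := by
  rw [B.top3_eq]; rfl

lemma norm_sub_proj_Zc_top3 (B : Bad E) (i : Fin 3) :
    ‖Zc (B.A (i.castLE (by omega))) - B.V2.starProjection (Zc (B.A (i.castLE (by omega))))‖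
      = B.η2 := by
  rw [B.Zc_top3, map_smul, ← smul_sub, B.p2_eq, norm_smul, Real.norm_eq_abs,
    abs_of_nonneg (Real.sqrt_nonneg _)]
  rfl

lemma norm_proj_Zc_top3 (B : Bad E) (i : Fin 3) :
    ‖B.V2.starProjection (Zc (B.A (i.castLE (by omega))))‖
      = √(B.ζ (i.castLE (by omega)) ^ 2 - B.η2 ^ 2) := by
  have h2 := Submodule.norm_sq_eq_add_norm_sq_starProjection
    (Zc (B.A (i.castLE (by omega)))) B.V2
  rw [Submodule.starProjection_orthogonal_val, B.norm_sub_proj_Zc_top3, B.norm_Zc] at h2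
  rw [h2, add_sub_cancel_right, Real.sqrt_sq (norm_nonneg _)]

lemma η2_le (B : Bad E) (i : Fin 3) : B.η2 ^ 2 ≤ B.ζ (i.castLE (by omega)) ^ 2 := by
  have h2 := Submodule.norm_sq_eq_add_norm_sq_starProjection
    (Zc (B.A (i.castLE (by omega)))) B.V2
  rw [Submodule.starProjection_orthogonal_val, B.norm_sub_proj_Zc_top3, B.norm_Zc] at h2
  rw [h2]
  have := sq_nonneg ‖B.V2.starProjection (Zc (B.A (i.castLE (by omega))))‖
  linarith

/-- The mass of the cells with respect to the plane `V2`. -/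
noncomputable def n2 (B : Bad E) (i : Fin (B.m + 4)) : ℝ := nnV B.V2 (B.A i)

lemma n2_nonneg (B : Bad E) (i : Fin (B.m + 4)) : 0 ≤ B.n2 i := nnV_nonneg _ _

/-- `(2a)` for the three largest cells. -/
theorem n2_top (B : Bad E) (hG : G2Bound B.V2) (i : Fin 3) {θ : ℝ} (h0 : 0 ≤ θ)
    (h1 : θ ≤ Real.pi / 2) :
    √(B.ζ (i.castLE (by omega)) ^ 2 - B.η2 ^ 2)
      ≤ (B.n2 (i.castLE (by omega)) - θ) * Real.cos θ + (1 - B.η2 ^ 2 / 2) * Real.sin θ := by
  have h := cell2a (by rw [B.finrank_V2]; norm_num) hG (A := B.A (i.castLE (by omega))) h0 h1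
  rwa [B.norm_proj_Zc_top3, B.norm_sub_proj_Zc_top3] at h

/-- `(2b)` for all cells. -/
theorem n2_all (B : Bad E) (hG : G2vBound B.V2) (i : Fin (B.m + 4)) {s : ℝ} (hs : 0 ≤ s) :
    s * B.ζ i ≤ B.n2 i + s - Real.arctan s := by
  have h := cell2b hG (A := B.A i) hs
  rwa [B.norm_Zc] at h

lemma sum_n2 (B : Bad E) (h : ∫ x, ‖B.V2.starProjection x‖ ∂(stdGaussian E)
    = (√(2 * Real.pi))⁻¹ * Real.pi) : ∑ i, B.n2 i = Real.pi := by
  unfold n2
  rw [B.part.sum_nnV, h, ← mul_assoc, mul_inv_cancel₀ sqrt_two_pi_pos.ne', one_mul]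

end Bad

end Vale.Agent.P226
end
end

section

section

/-!
# P226: the cost of a cell of given size in an arbitrary direction (three dimensional threshold)

If `ζ √(1-c²) ≤ c n + (1-c)²` for all `c ∈ (0,1]` then `n ≥ (1-c)²(2+c)` where
`ζ² = (1-c²)³`, and hence `ρ ζ² ≤ n` with explicit constants `ρ` depending on the size of `ζ`.
-/

namespace Vale.Agent.P226

/-- The family of inequalities satisfied by the cost `n` of a cell of size `ζ`. -/
def Vert3 (ζ n : ℝ) : Prop := ∀ c : ℝ, 0 < c → c ≤ 1 → ζ * √(1 - c ^ 2) ≤ c * n + (1 - c) ^ 2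

lemma exists_c {ζ : ℝ} (h0 : 0 ≤ ζ) (h1 : ζ < 1) :
    ∃ c : ℝ, 0 < c ∧ c ≤ 1 ∧ ζ ^ 2 = (1 - c ^ 2) ^ 3 := by
  have hcont : ContinuousOn (fun c : ℝ => (1 - c ^ 2) ^ 3) (Set.Icc 0 1) := by (clear * -; fun_prop)
  have h2 := intermediate_value_Icc' (zero_le_one' ℝ) hcont
  have hmem : ζ ^ 2 ∈ Set.Icc ((fun c : ℝ => (1 - c ^ 2) ^ 3) 1)
      ((fun c : ℝ => (1 - c ^ 2) ^ 3) 0) := by
    constructor
    · norm_num; positivity
    · norm_num
      rw [abs_of_nonneg h0]
      exact h1.le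
  obtain ⟨c, hc, hce⟩ := h2 hmem
  refine ⟨c, ?_, hc.2, hce.symm⟩
  rcases hc.1.lt_or_eq with h | h
  · exact h
  · exfalso
    rw [← h] at hce
    norm_num at hce
    nlinarith

lemma Vert3.lower {ζ n c : ℝ} (h : Vert3 ζ n) (h0 : 0 ≤ ζ) (hc : 0 < c) (hc1 : c ≤ 1)
    (he : ζ ^ 2 = (1 - c ^ 2) ^ 3) : (1 - c) ^ 2 * (2 + c) ≤ n := by
  have hu : 0 ≤ 1 - c ^ 2 := by nlinarith only [hc1, hc]
  have h1 := h c hc hc1
  have h2 : ζ * √(1 - c ^ 2) = (1 - c ^ 2) ^ 2 := by
    have h3 : ζ = (1 - c ^ 2) * √(1 - c ^ 2) := by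
      have h4 : 0 ≤ (1 - c ^ 2) * √(1 - c ^ 2) := by positivity
      have h5 : ((1 - c ^ 2) * √(1 - c ^ 2)) ^ 2 = ζ ^ 2 := by
        rw [mul_pow, Real.sq_sqrt hu, he]; ring
      exact (pow_left_inj₀ h0 h4 two_ne_zero).1 h5.symm
    rw [h3, mul_assoc, ← sq, Real.sq_sqrt hu]
    ring
  rw [h2] at h1
  have h6 : c * ((1 - c) ^ 2 * (2 + c)) ≤ c * n := by linarith
  exact le_of_mul_le_mul_left h6 hc

/-- Generic form of the table: if `z0² ≤ (1-c0²)³` and `ρ(1-c)(1+c)³ ≤ 2+c` on `[c0,1]` then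
`ρ ζ² ≤ n` for every cell with `ζ ≤ z0`. -/
lemma Vert3.rho {ζ n z0 c0 ρ : ℝ} (h : Vert3 ζ n) (h0 : 0 ≤ ζ) (hz : ζ ≤ z0) (hz1 : z0 < 1)
    (hc0 : 0 ≤ c0) (hc1 : c0 < 1) (hzc : z0 ^ 2 ≤ (1 - c0 ^ 2) ^ 3)
    (hpoly : ∀ c : ℝ, c0 ≤ c → c ≤ 1 → ρ * ((1 - c) * (1 + c) ^ 3) ≤ 2 + c) :
    ρ * ζ ^ 2 ≤ n := by
  obtain ⟨c, hcpos, hc1', hce⟩ := exists_c h0 (hz.trans_lt hz1)
  have hlow := h.lower h0 hcpos hc1' hce
  have hcc : c0 ≤ c := by
    by_contra hlt
    push Not at hlt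
    have h1 : (1 - c0 ^ 2) < 1 - c ^ 2 := by nlinarith only [hlt, hcpos]
    have h2 : 0 ≤ 1 - c0 ^ 2 := by nlinarith only [hc1, hc0]
    have h3 : (1 - c0 ^ 2) ^ 3 < (1 - c ^ 2) ^ 3 := pow_lt_pow_left₀ h1 h2 (by norm_num)
    have h4 : ζ ^ 2 ≤ z0 ^ 2 := pow_le_pow_left₀ h0 hz 2
    linarith
  have hp := hpoly c hcc hc1'
  have h5 : ρ * ζ ^ 2 = (1 - c) ^ 2 * (ρ * ((1 - c) * (1 + c) ^ 3)) := by
    rw [hce]; ring
  rw [h5]
  exact (mul_le_mul_of_nonneg_left hp (by (clear * -; positivity))).trans hlow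

/-- For `c0 ≥ 1/2` only the left end point has to be checked. -/
lemma poly_of_half {c0 ρ : ℝ} (hc0 : 1 / 2 ≤ c0) (hρ : 0 ≤ ρ)
    (h : ρ * ((1 - c0) * (1 + c0) ^ 3) ≤ 2 + c0) (c : ℝ) (hc : c0 ≤ c) (hc1 : c ≤ 1) :
    ρ * ((1 - c) * (1 + c) ^ 3) ≤ 2 + c := by
  have h1 : (1 - c) * (1 + c) ^ 3 ≤ (1 - c0) * (1 + c0) ^ 3 := by
    have key : (1 - c0) * (1 + c0) ^ 3 - (1 - c) * (1 + c) ^ 3
        = (c - c0) * (2 * (c ^ 2 + c * c0 + c0 ^ 2) + (c + c0) * (c ^ 2 + c0 ^ 2) - 2) := by ring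
    have hc2 : 1 / 2 ≤ c := hc0.trans hc
    have a1 : 1 / 4 ≤ c ^ 2 := by nlinarith only [hc0, hc]
    have a2 : 1 / 4 ≤ c0 ^ 2 := by nlinarith only [hc0]
    have a3 : 1 / 4 ≤ c * c0 := by nlinarith only [hc, hc0]
    have a4 : 1 / 2 ≤ (c + c0) * (c ^ 2 + c0 ^ 2) := by
      nlinarith only [hc0, hc]
    have h3 := mul_nonneg (sub_nonneg.2 hc)
      (by linarith only [a1, a2, a3, a4] : 0 ≤ 2 * (c ^ 2 + c * c0 + c0 ^ 2) + (c + c0) * (c ^ 2 + c0 ^ 2) - 2)
    rw [← key] at h3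
    linarith only [h3]
  calc ρ * ((1 - c) * (1 + c) ^ 3) ≤ ρ * ((1 - c0) * (1 + c0) ^ 3) :=
        mul_le_mul_of_nonneg_left h1 hρ
    _ ≤ 2 + c0 := h
    _ ≤ 2 + c := by linarith

lemma Vert3.rho_half {ζ n : ℝ} (z0 c0 ρ : ℝ) (h : Vert3 ζ n) (h0 : 0 ≤ ζ) (hz : ζ ≤ z0)
    (hz1 : z0 < 1) (hc0 : 1 / 2 ≤ c0) (hc1 : c0 < 1) (hzc : z0 ^ 2 ≤ (1 - c0 ^ 2) ^ 3)
    (hρ : 0 ≤ ρ) (hp : ρ * ((1 - c0) * (1 + c0) ^ 3) ≤ 2 + c0) : ρ * ζ ^ 2 ≤ n :=
  h.rho h0 hz hz1 (by linarith) hc1 hzc (poly_of_half hc0 hρ hp)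

section table

variable {ζ n : ℝ}

lemma Vert3.rho20 (h : Vert3 ζ n) (h0 : 0 ≤ ζ) (hz : ζ ≤ 0.2) : 2.5 * ζ ^ 2 ≤ n :=
  h.rho_half 0.2 0.811 2.5 h0 hz (by norm_num) (by norm_num) (by norm_num) (by norm_num)
    (by norm_num) (by norm_num)

lemma Vert3.rho28 (h : Vert3 ζ n) (h0 : 0 ≤ ζ) (hz : ζ ≤ 0.28) : 2.08 * ζ ^ 2 ≤ n :=
  h.rho_half 0.28 0.7563 2.08 h0 hz (by norm_num) (by norm_num) (by norm_num) (by norm_num)
    (by norm_num) (by norm_num)

lemma Vert3.rho40 (h : Vert3 ζ n) (h0 : 0 ≤ ζ) (hz : ζ ≤ 0.4) : 1.75 * ζ ^ 2 ≤ n :=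
  h.rho_half 0.4 0.676 1.75 h0 hz (by norm_num) (by norm_num) (by norm_num) (by norm_num)
    (by norm_num) (by norm_num)

end table

end Vale.Agent.P226
end
end

section

section

/-!
# P226: real inequalities for the cases C1, C2 and D

The three dimensional threshold space contains the three largest moments.
-/

namespace Vale.Agent.P226

/-- The family of inequalities satisfied by the cost `n` of a cell whose moment has a component of
norm `a` in the threshold space and a component of norm `√H` orthogonal to it. -/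
def InV3 (a H n : ℝ) : Prop := ∀ x : ℝ, 0 < x → x ≤ 1 → a + H / 2 ≤ x * n + (1 - x) ^ 2

lemma InV3.le_one {a H n : ℝ} (h : InV3 a H n) : a + H / 2 ≤ 1 := by
  by_contra hlt
  push Not at hlt
  set δ := a + H / 2 - 1 with hδ
  have hδ0 : 0 < δ := by linarith
  have hn : 0 < 2 * (|n| + 1) := by positivity
  have hx0 : 0 < min 1 (δ / (2 * (|n| + 1))) := lt_min one_pos (by positivity)
  have h1 := h _ hx0 (min_le_left _ _)
  set x := min 1 (δ / (2 * (|n| + 1)))
  have hx1 : x ≤ 1 := min_le_left _ _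
  have hx2 : x ≤ δ / (2 * (|n| + 1)) := min_le_right _ _
  have h2 : x * n ≤ x * |n| := mul_le_mul_of_nonneg_left (le_abs_self n) hx0.le
  have h3 : x * (2 * (|n| + 1)) ≤ δ := (le_div_iff₀ hn).1 hx2
  have h4 : (1 - x) ^ 2 ≤ 1 := by nlinarith only [hx0, hx1]
  linarith

lemma InV3.exists_x {a H n : ℝ} (h : InV3 a H n) (h0 : 0 ≤ a + H / 2) :
    ∃ x : ℝ, 0 ≤ x ∧ x ≤ 1 ∧ a + H / 2 = 1 - x ^ 2 ∧ 2 * (1 - x) ≤ n := by
  have h1 := h.le_one
  refine ⟨√(1 - (a + H / 2)), Real.sqrt_nonneg _, Real.sqrt_le_one.2 (by linarith), ?_, ?_⟩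
  · rw [Real.sq_sqrt (by linarith only [h1])]; ring
  · rcases (Real.sqrt_nonneg (1 - (a + H / 2))).lt_or_eq with hx | hx
    · have h2 := h _ hx (Real.sqrt_le_one.2 (by linarith only [h0]))
      have h3 : √(1 - (a + H / 2)) ^ 2 = 1 - (a + H / 2) := Real.sq_sqrt (by linarith only [h1])
      set x := √(1 - (a + H / 2))
      have h4 : x * (2 * (1 - x)) ≤ x * n := by linarith
      exact le_of_mul_le_mul_left h4 hx
    · rw [← hx]
      have h3 : a + H / 2 = 1 := by
        have := Real.sqrt_eq_zero'.1 hx.symm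
        linarith only [this, h1]
      refine le_of_forall_pos_le_add fun ε hε => ?_
      have h2 := h (min 1 ε) (lt_min one_pos hε) (min_le_left _ _)
      have h5 : 0 < min 1 ε := lt_min one_pos hε
      have h6 : min 1 ε ≤ ε := min_le_right _ _
      have h4 : min 1 ε * (2 - min 1 ε) ≤ min 1 ε * n := by nlinarith only [h3, h2]
      have h7 := le_of_mul_le_mul_left h4 h5
      linarith only [h6, h7]

lemma InV3.exists_x' {a n : ℝ} (h : InV3 a 0 n) (h0 : 0 ≤ a) :
    ∃ x : ℝ, 0 ≤ x ∧ x ≤ 1 ∧ a = 1 - x ^ 2 ∧ 2 * (1 - x) ≤ n := by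
  obtain ⟨x, h1, h2, h3, h4⟩ := h.exists_x (by linarith)
  exact ⟨x, h1, h2, by linarith only [h3], h4⟩

/-- Tangent identity for `(1-x²)²`. -/
lemma tangent_identity (x y : ℝ) : (1 - x ^ 2) ^ 2 = (1 - y ^ 2) ^ 2 - 4 * y * (1 - y ^ 2) * (x - y)
    - (x - y) ^ 2 * (2 - 3 * y ^ 2 - 2 * y * x - x ^ 2) := by ring

/-- cell inequality for C1 -/
lemma cellC1 {a n : ℝ} (h : InV3 a 0 n) (h0 : 0 ≤ a) : 2.08 * a ^ 2 - 0.33 ≤ n := by
  obtain ⟨x, hx0, hx1, rfl, hn⟩ := h.exists_x' h0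
  refine le_trans ?_ hn
  have h1 : 0 ≤ (x - 0.2575) ^ 2 * (2 - 3 * 0.2575 ^ 2 - 2 * 0.2575 * x - x ^ 2) :=
    mul_nonneg (sq_nonneg _) (by linarith)
  rw [tangent_identity x 0.2575]
  linarith

/-- cell inequality for C2 -/
lemma cellC2 {a n : ℝ} (h : InV3 a 0 n) (h0 : 0 ≤ a) : 1.75 * a ^ 2 - 0.0501 ≤ n := by
  obtain ⟨x, hx0, hx1, rfl, hn⟩ := h.exists_x' h0
  refine le_trans ?_ hn
  have h1 : 0 ≤ (x - 0.3178) ^ 2 * (2 - 3 * 0.3178 ^ 2 - 2 * 0.3178 * x - x ^ 2) :=
    mul_nonneg (sq_nonneg _) (by linarith)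
  rw [tangent_identity x 0.3178]
  linarith

/-- cell inequality for C2, third cell -/
lemma cellC2' {a n : ℝ} (h : InV3 a 0 n) (h0 : 0.28 ≤ a) (h1 : a ≤ 0.4) :
    1.75 * a ^ 2 + 0.165 ≤ n := by
  obtain ⟨x, hx0, hx1, hx2, hn⟩ := h.exists_x' (by linarith only [h0])
  subst hx2
  refine le_trans ?_ hn
  have hxlo : 0.77 ≤ x := by nlinarith only [h1, hx0]
  have hxhi : x ≤ 0.8486 := by nlinarith only [h0]
  nlinarith only [hxhi, mul_nonneg (mul_nonneg (sub_nonneg.2 hxlo) (sub_nonneg.2 hxhi)) (mul_nonneg hx0 hx0)]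

/-- cell inequality for D -/
lemma cellD {a n : ℝ} (h : InV3 a 0 n) (h0 : 0 ≤ a) : 27 / 16 * a ^ 2 ≤ n := by
  obtain ⟨x, hx0, hx1, rfl, hn⟩ := h.exists_x' h0
  refine le_trans ?_ hn
  have key : 2 * (1 - x) - 27 / 16 * (1 - x ^ 2) ^ 2
      = 27 / 16 * ((1 - x) * (x - 1 / 3) ^ 2 * (x + 5 / 3)) := by ring
  have : 0 ≤ (1 - x) * (x - 1 / 3) ^ 2 * (x + 5 / 3) := by
    have : 0 ≤ 1 - x := by linarith only [hx1]
    (clear * - hx1 hx0; positivity)
  linarith only [this]

/-- The numerical data produced by a three dimensional threshold space containing the three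
largest moments. -/
structure Span3 {m : ℕ} (ζ n : Fin (m + 4) → ℝ) : Prop where
  nonneg : ∀ i, 0 ≤ ζ i
  anti : Antitone ζ
  vert : ∀ i, Vert3 (ζ i) (n i)
  in0 : InV3 (ζ 0) 0 (n 0)
  in1 : InV3 (ζ 1) 0 (n 1)
  in2 : InV3 (ζ 2) 0 (n 2)
  sum : ∑ i, n i = 4
  big : 9 / 4 < ∑ i, ζ i ^ 2

lemma sum_split3 {m : ℕ} (f : Fin (m + 4) → ℝ) :
    ∑ i, f i = f 0 + f 1 + f 2 + ∑ i : Fin (m + 1), f i.succ.succ.succ := by
  rw [Fin.sum_univ_succ, Fin.sum_univ_succ, Fin.sum_univ_succ, ← add_assoc, ← add_assoc]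
  rfl

variable {m : ℕ} {ζ n : Fin (m + 4) → ℝ}

/-- the sum of squares of all but the three largest -/
lemma Span3.caseC (h : Span3 ζ n) : 0.4 < ζ 2 := by
  by_contra hlt
  push Not at hlt
  have hs := h.sum
  have hb := h.big
  rw [sum_split3] at hs hb
  have htail : ∀ i : Fin (m + 1), ζ i.succ.succ.succ ≤ ζ 2 := fun i =>
    h.anti (by
      rw [Fin.le_def]
      simp only [Fin.val_succ]
      have : (2 : Fin (m + 4)).val = 2 := rfl
      omega)
  rcases le_total (ζ 2) 0.28 with h28 | h28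
  · have c0 := cellC1 h.in0 (h.nonneg 0)
    have c1 := cellC1 h.in1 (h.nonneg 1)
    have c2 := (h.vert 2).rho28 (h.nonneg 2) h28
    have c3 : 2.08 * ∑ i : Fin (m + 1), ζ i.succ.succ.succ ^ 2
        ≤ ∑ i : Fin (m + 1), n i.succ.succ.succ := by
      rw [Finset.mul_sum]
      exact Finset.sum_le_sum fun i _ =>
        (h.vert _).rho28 (h.nonneg _) ((htail i).trans h28)
    linarith
  · have c0 := cellC2 h.in0 (h.nonneg 0)
    have c1 := cellC2 h.in1 (h.nonneg 1)
    have c2 := cellC2' h.in2 h28 hlt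
    have c3 : 1.75 * ∑ i : Fin (m + 1), ζ i.succ.succ.succ ^ 2
        ≤ ∑ i : Fin (m + 1), n i.succ.succ.succ := by
      rw [Finset.mul_sum]
      exact Finset.sum_le_sum fun i _ =>
        (h.vert _).rho40 (h.nonneg _) ((htail i).trans hlt)
    linarith

lemma Span3.caseD (h : Span3 ζ n) (h3 : ζ 3 ≤ 0.2) :
    ∑ i : Fin (m + 1), ζ i.succ.succ.succ ^ 2 < 0.27 := by
  by_contra hge
  push Not at hge
  have hs := h.sum
  have hb := h.big
  rw [sum_split3] at hs hb
  have htail : ∀ i : Fin (m + 1), ζ i.succ.succ.succ ≤ ζ 3 := fun i =>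
    h.anti (by
      rw [Fin.le_def]
      simp only [Fin.val_succ]
      have : (3 : Fin (m + 4)).val = 3 := rfl
      omega)
  have c0 := cellD h.in0 (h.nonneg 0)
  have c1 := cellD h.in1 (h.nonneg 1)
  have c2 := cellD h.in2 (h.nonneg 2)
  have c3 : 2.5 * ∑ i : Fin (m + 1), ζ i.succ.succ.succ ^ 2
      ≤ ∑ i : Fin (m + 1), n i.succ.succ.succ := by
    rw [Finset.mul_sum]
    exact Finset.sum_le_sum fun i _ =>
      (h.vert _).rho20 (h.nonneg _) ((htail i).trans h3)
  linarith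

end Vale.Agent.P226
end
end

section

section

/-!
# P226: numerical data extracted from a minimal counterexample

The three structures record what the threshold functions `|P_V x|` give:
* `Span3` (in `CaseC.lean`): `V` three dimensional, containing the three largest moments;
* `Aff4`: `V` three dimensional, parallel to the affine hull of the four largest moments;
* `Aff3`: `V` two dimensional, parallel to the affine hull of the three largest moments.
-/

namespace Vale.Agent.P226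

lemma sum_split4 {m : ℕ} (f : Fin (m + 4) → ℝ) :
    ∑ i, f i = f 0 + f 1 + f 2 + f 3 + ∑ i : Fin m, f i.succ.succ.succ.succ := by
  rw [Fin.sum_univ_succ, Fin.sum_univ_succ, Fin.sum_univ_succ, Fin.sum_univ_succ, ← add_assoc,
    ← add_assoc, ← add_assoc]
  rfl

/-- Data from the three dimensional space parallel to the affine hull of the four largest
moments. `H` is the squared norm of their common orthogonal component. -/
structure Aff4 {m : ℕ} (ζ n : Fin (m + 4) → ℝ) (H : ℝ) : Prop where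
  nonneg : ∀ i, 0 ≤ ζ i
  anti : Antitone ζ
  vert : ∀ i, Vert3 (ζ i) (n i)
  in0 : InV3 (√(ζ 0 ^ 2 - H)) H (n 0)
  in1 : InV3 (√(ζ 1 ^ 2 - H)) H (n 1)
  in2 : InV3 (√(ζ 2 ^ 2 - H)) H (n 2)
  in3 : InV3 (√(ζ 3 ^ 2 - H)) H (n 3)
  H_nonneg : 0 ≤ H
  H_le3 : H ≤ ζ 3 ^ 2
  H_le : H ≤ 1 / 16
  H_tail : 16 * H ≤ ∑ i : Fin m, ζ i.succ.succ.succ.succ ^ 2
  sum : ∑ i, n i = 4
  big : 9 / 4 < ∑ i, ζ i ^ 2

/-- The family of inequalities for a cell of size `ζ` and a two dimensional threshold space. -/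
def Vert2 (ζ n : ℝ) : Prop := ∀ s : ℝ, 0 ≤ s → s * ζ ≤ n + (s - Real.arctan s)

/-- The family of inequalities for a cell with in-plane component `a` and squared orthogonal
component `H`, two dimensional threshold space. -/
def InV2 (a H n : ℝ) : Prop := ∀ θ : ℝ, 0 ≤ θ → θ ≤ Real.pi / 2 →
  a ≤ (n - θ) * Real.cos θ + (1 - H / 2) * Real.sin θ

/-- Data from the plane parallel to the affine hull of the three largest moments. -/
structure Aff3 {m : ℕ} (ζ n : Fin (m + 4) → ℝ) (H : ℝ) : Prop where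
  nonneg : ∀ i, 0 ≤ ζ i
  anti : Antitone ζ
  n_nonneg : ∀ i, 0 ≤ n i
  vert : ∀ i, Vert2 (ζ i) (n i)
  in0 : InV2 (√(ζ 0 ^ 2 - H)) H (n 0)
  in1 : InV2 (√(ζ 1 ^ 2 - H)) H (n 1)
  in2 : InV2 (√(ζ 2 ^ 2 - H)) H (n 2)
  H_nonneg : 0 ≤ H
  H_le2 : H ≤ ζ 2 ^ 2
  H_tail : 9 * H ≤ ∑ i : Fin (m + 1), ζ i.succ.succ.succ ^ 2
  sum : ∑ i, n i = Real.pi
  big : 9 / 4 < ∑ i, ζ i ^ 2

end Vale.Agent.P226
end
end

section

section

/-!
# P226: the numerical data of a minimal counterexample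
-/

open MeasureTheory ProbabilityTheory Set
open scoped ENNReal NNReal RealInnerProductSpace

namespace Vale.Agent.P226.Bad

open K3 Gauss3

variable {E : Type*} [NormedAddCommGroup E] [InnerProductSpace ℝ E] [FiniteDimensional ℝ E]
  [MeasurableSpace E] [BorelSpace E]

lemma ζ_antitone (B : Bad E) : Antitone B.ζ := fun _ _ h => B.ζ_anti h

/-- Data from the span of the three largest moments. -/
theorem span3 (B : Bad E) : Span3 B.ζ B.nw where
  nonneg := B.ζ_nonneg
  anti := B.ζ_antitone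
  vert := fun i _ hc0 hc1 => B.nw_all i hc0 hc1
  in0 := by
    intro x h0 h1
    have h := cell3a B.finrank_W (A := B.A 0) h0 h1
    have h2 : B.W.starProjection (Zc (B.A 0)) = Zc (B.A 0) := B.starProjection_W 0
    rw [h2, sub_self, norm_zero, B.norm_Zc] at h
    have h3 : B.nw 0 = nnV B.W (B.A 0) := rfl
    rw [h3]
    linarith
  in1 := by
    intro x h0 h1
    have h := cell3a B.finrank_W (A := B.A 1) h0 h1
    have h2 : B.W.starProjection (Zc (B.A 1)) = Zc (B.A 1) := B.starProjection_W 1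
    rw [h2, sub_self, norm_zero, B.norm_Zc] at h
    have h3 : B.nw 1 = nnV B.W (B.A 1) := rfl
    rw [h3]
    (clear h0 h1 h2 h3; linarith)
  in2 := by
    intro x h0 h1
    have h := cell3a B.finrank_W (A := B.A 2) h0 h1
    have h2 : B.W.starProjection (Zc (B.A 2)) = Zc (B.A 2) := B.starProjection_W 2
    rw [h2, sub_self, norm_zero, B.norm_Zc] at h
    have h3 : B.nw 2 = nnV B.W (B.A 2) := rfl
    rw [h3]
    linarith
  sum := B.sum_nw
  big := B.lt_sum_ζ_sq

/-- Data from the three dimensional space parallel to the affine hull of the four largest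
moments. -/
theorem aff4 (B : Bad E) : Aff4 B.ζ B.nn (B.η ^ 2) where
  nonneg := B.ζ_nonneg
  anti := B.ζ_antitone
  vert := fun i _ hc0 hc1 => B.nn_all i hc0 hc1
  in0 := fun _ h0 h1 => B.nn_top 0 h0 h1
  in1 := fun _ h0 h1 => B.nn_top 1 h0 h1
  in2 := fun _ h0 h1 => B.nn_top 2 h0 h1
  in3 := fun _ h0 h1 => B.nn_top 3 h0 h1
  H_nonneg := sq_nonneg _
  H_le3 := pow_le_pow_left₀ B.η_nonneg B.η_le 2
  H_le := by
    have := B.sixteen_η_sq_le_one
    linarith
  H_tail := B.η_sq_le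
  sum := B.sum_nn
  big := B.lt_sum_ζ_sq

/-- Data from the plane parallel to the affine hull of the three largest moments. -/
theorem aff3 (B : Bad E) (hG : G2Bound B.V2) (hGv : G2vBound B.V2)
    (hE : ∫ x, ‖B.V2.starProjection x‖ ∂(stdGaussian E) = (√(2 * Real.pi))⁻¹ * Real.pi) :
    Aff3 B.ζ B.n2 (B.η2 ^ 2) where
  nonneg := B.ζ_nonneg
  anti := B.ζ_antitone
  n_nonneg := B.n2_nonneg
  vert := fun i s hs => by
    have := B.n2_all hGv i hs
    linarith
  in0 := fun _ h0 h1 => B.n2_top hG 0 h0 h1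
  in1 := fun _ h0 h1 => B.n2_top hG 1 h0 h1
  in2 := fun _ h0 h1 => B.n2_top hG 2 h0 h1
  H_nonneg := sq_nonneg _
  H_le2 := B.η2_le 2
  H_tail := by
    rw [Fin.sum_univ_succ]
    exact B.η2_sq_le
  sum := B.sum_n2 hE
  big := B.lt_sum_ζ_sq

end Vale.Agent.P226.Bad
end
end

section

section

/-!
# P226: a circle average

For `a > 1` and `t > 0`, `(1/2π) ∫₀^{2π} t / ((a cos θ - 1)² + t²) dθ ≤ 1/√(a² - 1)`.
-/

open MeasureTheory Set
open scoped Real

namespace Vale.Agent.P226.CircleAvg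

/-- The Joukowski substitution: `w = (a/2) (q + 1/q)` with `‖q‖ < 1`. -/
lemma exists_q {a : ℝ} (ha : 0 < a) {w : ℂ} (hw : w.im ≠ 0) :
    ∃ q : ℂ, ‖q‖ < 1 ∧ q ≠ 0 ∧ (a : ℂ) * (q ^ 2 + 1) = 2 * w * q := by
  obtain ⟨s, hs⟩ : ∃ s : ℂ, s ^ 2 = w ^ 2 - a ^ 2 :=
    IsAlgClosed.exists_pow_nat_eq _ (by norm_num)
  have haC : (a : ℂ) ≠ 0 := by exact_mod_cast ha.ne'
  set q1 : ℂ := (w - s) / a with hq1
  set q2 : ℂ := (w + s) / a with hq2
  have hprod : q1 * q2 = 1 := by
    rw [hq1, hq2]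
    field_simp
    linear_combination -hs
  have hsum : q1 + q2 = 2 * w / a := by
    rw [hq1, hq2]
    field_simp
    ring
  have hn : ‖q1‖ * ‖q2‖ = 1 := by rw [← norm_mul, hprod, norm_one]
  have h1 : q1 ≠ 0 := left_ne_zero_of_mul (hprod ▸ one_ne_zero)
  have h2 : q2 ≠ 0 := right_ne_zero_of_mul (hprod ▸ one_ne_zero)
  have e1 : (a : ℂ) * (q1 ^ 2 + 1) = 2 * w * q1 := by
    have : q1 ^ 2 + 1 = q1 * (q1 + q2) := by linear_combination -hprod
    rw [this, hsum]
    field_simp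
  have e2 : (a : ℂ) * (q2 ^ 2 + 1) = 2 * w * q2 := by
    have : q2 ^ 2 + 1 = q2 * (q1 + q2) := by linear_combination -hprod
    rw [this, hsum]
    field_simp
  rcases lt_trichotomy ‖q1‖ 1 with h | h | h
  · exact ⟨q1, h, h1, e1⟩
  · exfalso
    apply hw
    have hc : q2 = (starRingEnd ℂ) q1 := by
      have h3 : q1 * (starRingEnd ℂ) q1 = 1 := by
        rw [Complex.mul_conj, Complex.normSq_eq_norm_sq, h]
        simp
      have h4 : q1 * q2 = q1 * (starRingEnd ℂ) q1 := by rw [hprod, h3]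
      exact mul_left_cancel₀ h1 h4
    have h5 : w = (a * q1.re : ℝ) := by
      have h6 : 2 * w = a * (q1 + q2) := by
        rw [hsum]
        field_simp
      rw [hc, Complex.add_conj] at h6
      have h7 : (2 : ℂ) * w = 2 * ((a * q1.re : ℝ) : ℂ) := by
        rw [h6]
        push_cast
        ring
      exact mul_left_cancel₀ two_ne_zero h7
    rw [h5]
    exact Complex.ofReal_im _
  · refine ⟨q2, ?_, h2, e2⟩
    by_contra hc
    rw [not_lt] at hc
    have : 1 < ‖q1‖ * ‖q2‖ := by nlinarith only [h, hc]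
    linarith

/-- The average of `1 / (w - a cos θ)`. -/
lemma average_inv {a : ℝ} (ha : 0 < a) {w q : ℂ} (hq : ‖q‖ < 1) (hq0 : q ≠ 0)
    (hqw : (a : ℂ) * (q ^ 2 + 1) = 2 * w * q) :
    (2 * π)⁻¹ • ∫ θ in (0 : ℝ)..2 * π, (w - a * Real.cos θ)⁻¹
      = (2 * q / a) * (1 - q ^ 2)⁻¹ := by
  have haC : (a : ℂ) ≠ 0 := by exact_mod_cast ha.ne'
  let f : ℂ → ℂ := fun z => (1 - q * z)⁻¹
  have hne : ∀ z : ℂ, ‖z‖ ≤ 1 → 1 - q * z ≠ 0 := by
    intro z hz h
    have h1 : q * z = 1 := (sub_eq_zero.1 h).symm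
    have h2 : ‖q‖ * ‖z‖ = 1 := by rw [← norm_mul, h1, norm_one]
    have h3 : ‖q‖ * ‖z‖ ≤ ‖q‖ := mul_le_of_le_one_right (norm_nonneg _) hz
    linarith
  have hd : DiffContOnCl ℂ f (Metric.ball 0 |1|) := by
    refine ⟨fun z hz => ?_, fun z hz => ?_⟩
    · have hz' : ‖z‖ ≤ 1 := by
        have := Metric.mem_ball.1 hz
        rw [dist_zero_right, abs_one] at this
        exact this.le
      have hdz : DifferentiableAt ℂ (fun z : ℂ => 1 - q * z) z := by fun_prop
      exact (hdz.inv (hne z hz')).differentiableWithinAt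
    · have hz' : ‖z‖ ≤ 1 := by
        rw [abs_one, closure_ball _ one_ne_zero] at hz
        simpa only [Metric.mem_closedBall, dist_zero_right] using hz
      have hdz : DifferentiableAt ℂ (fun z : ℂ => 1 - q * z) z := by fun_prop
      exact (hdz.inv (hne z hz')).continuousAt.continuousWithinAt
  have hmem : q ∈ Metric.ball (0 : ℂ) |1| := by simpa only [abs_one, Metric.mem_ball, dist_zero_right] using hq
  have key := hd.circleAverage_smul_div hmem
  rw [Real.circleAverage_def] at key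
  have hint : ∀ θ : ℝ, (w - a * Real.cos θ)⁻¹
      = (2 * q / a) * (((circleMap 0 1 θ - 0) / (circleMap 0 1 θ - q)) • f (circleMap 0 1 θ)) := by
    intro θ
    set z := circleMap 0 1 θ with hz
    have hzn : ‖z‖ = 1 := by simp [hz]
    have hz0 : z ≠ 0 := by
      intro h
      rw [h, norm_zero] at hzn
      exact zero_ne_one hzn
    have hzq : z - q ≠ 0 := by
      intro h
      rw [sub_eq_zero.1 h] at hzn
      exact hq.ne hzn
    have hcos : (Real.cos θ : ℂ) = (z + z⁻¹) / 2 := by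
      rw [hz, circleMap_zero, Complex.ofReal_one, one_mul, ← Complex.exp_neg, Complex.ofReal_cos,
        Complex.cos]
      ring_nf
    simp only [f, sub_zero, smul_eq_mul]
    have h1 := hne z hzn.le
    have h2 : w - a * Real.cos θ = (a / (2 * q)) * ((z - q) * (1 - q * z) / z) := by
      rw [hcos]
      have hw' : w = a * (q ^ 2 + 1) / (2 * q) := by
        rw [hqw]
        field_simp
      rw [hw']
      field_simp
      ring
    rw [h2]
    field_simp
  have hkey : ∫ θ in (0 : ℝ)..2 * π, (w - a * Real.cos θ)⁻¹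
      = (2 * q / a) * ∫ θ in (0 : ℝ)..2 * π,
        (((circleMap 0 1 θ - 0) / (circleMap 0 1 θ - q)) • f (circleMap 0 1 θ)) := by
    rw [← intervalIntegral.integral_const_mul]
    exact intervalIntegral.integral_congr fun θ _ => hint θ
  rw [hkey, ← mul_smul_comm, key]
  simp only [f]
  ring

/-- **Circle average bound.** -/
theorem average_le {a t : ℝ} (ha : 1 < a) (ht : 0 < t) :
    (2 * π)⁻¹ * ∫ θ in (0 : ℝ)..2 * π, t / ((a * Real.cos θ - 1) ^ 2 + t ^ 2)
      ≤ 1 / √(a ^ 2 - 1) := by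
  have ha0 : 0 < a := by linarith
  have haC : (a : ℂ) ≠ 0 := by exact_mod_cast ha0.ne'
  set w : ℂ := 1 + t * Complex.I with hw
  have hwim : w.im = t := by simp [hw]
  have hwre : w.re = 1 := by simp [hw]
  obtain ⟨q, hq, hq0, hqw⟩ := exists_q ha0 (w := w) (by rw [hwim]; exact ht.ne')
  have key := average_inv ha0 hq hq0 hqw
  have hq2 : 1 - q ^ 2 ≠ 0 := by
    intro h
    have h1 : q ^ 2 = 1 := (sub_eq_zero.1 h).symm
    have h2 : ‖q‖ ^ 2 = 1 := by rw [← norm_pow, h1, norm_one]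
    have h3 : ‖q‖ ^ 2 < 1 := by
      have := norm_nonneg q
      nlinarith only [hq, this]
    linarith
  -- the square of the modulus of the value
  have hsq : ((2 * q / a) * (1 - q ^ 2)⁻¹) ^ 2 * (w ^ 2 - a ^ 2) = 1 := by
    have hw' : w = a * (q ^ 2 + 1) / (2 * q) := by
      rw [hqw]
      field_simp
    rw [hw']
    field_simp
    ring
  have hnorm : ‖(2 * q / a) * (1 - q ^ 2)⁻¹‖ ^ 2 * ‖w ^ 2 - (a : ℂ) ^ 2‖ = 1 := by
    rw [← norm_pow, ← norm_mul, hsq, norm_one]
  have hlow : a ^ 2 - 1 ≤ ‖w ^ 2 - (a : ℂ) ^ 2‖ := by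
    have h1 : (w ^ 2 - (a : ℂ) ^ 2).re = 1 - t ^ 2 - a ^ 2 := by
      rw [hw]
      simp [sq]
    have h2 := Complex.abs_re_le_norm (w ^ 2 - (a : ℂ) ^ 2)
    rw [h1] at h2
    have h3 := (neg_abs_le (1 - t ^ 2 - a ^ 2))
    nlinarith only [h2, h3]
  have hpos : 0 < a ^ 2 - 1 := by nlinarith only [ha]
  have hle : ‖(2 * q / a) * (1 - q ^ 2)⁻¹‖ ≤ 1 / √(a ^ 2 - 1) := by
    rw [le_div_iff₀ (Real.sqrt_pos.2 hpos)]
    have h4 : (‖(2 * q / a) * (1 - q ^ 2)⁻¹‖ * √(a ^ 2 - 1)) ^ 2 ≤ 1 ^ 2 := by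
      rw [mul_pow, Real.sq_sqrt hpos.le, one_pow]
      calc ‖(2 * q / a) * (1 - q ^ 2)⁻¹‖ ^ 2 * (a ^ 2 - 1)
          ≤ ‖(2 * q / a) * (1 - q ^ 2)⁻¹‖ ^ 2 * ‖w ^ 2 - (a : ℂ) ^ 2‖ :=
            mul_le_mul_of_nonneg_left hlow (by (clear * -; positivity))
        _ = 1 := hnorm
    exact (sq_le_sq₀ (by (clear * - hpos; positivity)) (by norm_num)).1 h4
  -- imaginary part
  have him : ∀ θ : ℝ, ((w - a * Real.cos θ)⁻¹).im
      = -(t / ((a * Real.cos θ - 1) ^ 2 + t ^ 2)) := by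
    intro θ
    have h1 : (w - (a : ℂ) * (Real.cos θ : ℂ)).re = 1 - a * Real.cos θ := by
      rw [Complex.sub_re, hwre, Complex.re_ofReal_mul, Complex.ofReal_re]
    have h2 : (w - (a : ℂ) * (Real.cos θ : ℂ)).im = t := by
      rw [Complex.sub_im, hwim, Complex.im_ofReal_mul, Complex.ofReal_im]
      ring
    rw [Complex.inv_im, Complex.normSq_apply, h1, h2]
    rw [neg_div]
    congr 2
    ring
  have hne : ∀ θ : ℝ, w - (a : ℂ) * (Real.cos θ : ℂ) ≠ 0 := by
    intro θ h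
    have h2 : (w - (a : ℂ) * (Real.cos θ : ℂ)).im = t := by
      rw [Complex.sub_im, hwim, Complex.im_ofReal_mul, Complex.ofReal_im]
      ring
    rw [h, Complex.zero_im] at h2
    exact ht.ne h2
  have hcont : Continuous fun θ : ℝ => (w - a * Real.cos θ)⁻¹ := by
    refine Continuous.inv₀ (by fun_prop) hne
  have hI : (∫ θ in (0 : ℝ)..2 * π, (w - a * Real.cos θ)⁻¹).im
      = -∫ θ in (0 : ℝ)..2 * π, t / ((a * Real.cos θ - 1) ^ 2 + t ^ 2) := by
    have h3 := Complex.imCLM.intervalIntegral_comp_comm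
      (hcont.intervalIntegrable (μ := volume) 0 (2 * π))
    simp only [Complex.imCLM_apply] at h3
    rw [← h3, ← intervalIntegral.integral_neg]
    exact intervalIntegral.integral_congr fun θ _ => him θ
  have hfin : (2 * π)⁻¹ * ∫ θ in (0 : ℝ)..2 * π, t / ((a * Real.cos θ - 1) ^ 2 + t ^ 2)
      = -((2 * q / a) * (1 - q ^ 2)⁻¹).im := by
    rw [← key, Complex.smul_im, hI, smul_eq_mul]
    ring
  rw [hfin]
  refine le_trans ?_ hle
  have := Complex.abs_im_le_norm ((2 * q / a) * (1 - q ^ 2)⁻¹)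
  exact (neg_le_abs _).trans this

end Vale.Agent.P226.CircleAvg
end
end

section

section

/-!
# P226: Gaussian integrals attached to a two dimensional threshold

Integral of `(a x + η u - l √(x² + y²))₊` for independent standard Gaussians `x, y, u`, in
particular for `l = 1`.
-/

open MeasureTheory ProbabilityTheory Set
open scoped ENNReal NNReal RealInnerProductSpace

namespace Vale.Agent.P226.Bound2

open Gauss3

/-- Polar coordinates for the planar standard Gaussian. -/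
lemma lintegral_polar {F : ℝ × ℝ → ℝ≥0∞} (hF : Measurable F) :
    ∫⁻ x, ∫⁻ y, F (x, y) ∂(gaussianReal 0 1) ∂(gaussianReal 0 1)
      = ∫⁻ r in Ioi (0 : ℝ), ∫⁻ θ in Ioo (-Real.pi) Real.pi,
          ENNReal.ofReal ((2 * Real.pi)⁻¹ * (r * Real.exp (-r ^ 2 / 2))) *
            F (r * Real.cos θ, r * Real.sin θ) := by
  have hpi : (0 : ℝ) < 2 * Real.pi := by positivity
  set c : ℝ := (√(2 * Real.pi))⁻¹ with hc
  have hc0 : 0 ≤ c := by positivity
  have hc2 : c * c = (2 * Real.pi)⁻¹ := by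
    rw [hc, ← mul_inv, Real.mul_self_sqrt hpi.le]
  simp_rw [lintegral_gaussianReal_std, ← hc]
  have h1 : ∀ x : ℝ, ENNReal.ofReal (c * Real.exp (-x ^ 2 / 2)) *
      ∫⁻ y, ENNReal.ofReal (c * Real.exp (-y ^ 2 / 2)) * F (x, y)
      = ∫⁻ y, ENNReal.ofReal (c * c * Real.exp (-(x ^ 2 + y ^ 2) / 2)) * F (x, y) := by
    intro x
    rw [← lintegral_const_mul _ (by fun_prop)]
    refine lintegral_congr fun y => ?_
    rw [← mul_assoc, ← ENNReal.ofReal_mul (by positivity)]
    congr 2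
    have : -(x ^ 2 + y ^ 2) / 2 = -x ^ 2 / 2 + -y ^ 2 / 2 := by ring
    rw [this, Real.exp_add]
    ring
  simp_rw [h1]
  rw [← lintegral_prod (μ := volume) (ν := volume)
    (f := fun p : ℝ × ℝ => ENNReal.ofReal (c * c * Real.exp (-(p.1 ^ 2 + p.2 ^ 2) / 2)) *
      F p) (by (clear * - hF; fun_prop))]
  rw [← Measure.volume_eq_prod]
  rw [← lintegral_comp_polarCoord_symm]
  rw [polarCoord_target, Measure.volume_eq_prod, ← Measure.prod_restrict,
    lintegral_prod]
  · refine setLIntegral_congr_fun measurableSet_Ioi fun r hr => ?_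
    refine lintegral_congr fun θ => ?_
    have hr' : (0 : ℝ) < r := hr
    have e : (polarCoord.symm (r, θ)) = (r * Real.cos θ, r * Real.sin θ) := rfl
    have e1 : (r * Real.cos θ) ^ 2 + (r * Real.sin θ) ^ 2 = r ^ 2 := by
      have := Real.cos_sq_add_sin_sq θ
      nlinarith only [this]
    simp only [e, smul_eq_mul]
    rw [e1, ← mul_assoc, ← ENNReal.ofReal_mul hr'.le, hc2]
    congr 2
    ring
  · have hm : Measurable (fun p : ℝ × ℝ => polarCoord.symm p) := by
      have : (fun p : ℝ × ℝ => polarCoord.symm p)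
          = fun p : ℝ × ℝ => (p.1 * Real.cos p.2, p.1 * Real.sin p.2) := by
        funext p
        rfl
      rw [this]
      fun_prop
    apply Measurable.aemeasurable
    simp only [smul_eq_mul]
    exact Measurable.mul (by fun_prop) (Measurable.mul (by fun_prop) (hF.comp hm))

/-- The function obtained by integrating out the radius and the independent coordinate. -/
noncomputable def g2 (b η : ℝ) : ℝ := η + b * (Real.pi - Real.arccos (b / √(b ^ 2 + η ^ 2)))

/-- The angular integral. -/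
lemma integral_angle2 {b η : ℝ} (hη : 0 ≤ η) (hρ : 0 < b ^ 2 + η ^ 2) :
    ∫⁻ θ in Ioo (-(Real.pi / 2)) (Real.pi / 2),
      ENNReal.ofReal (Real.cos θ * max (b * Real.cos θ + η * Real.sin θ) 0)
      = ENNReal.ofReal (g2 b η / 2) := by
  set ρ : ℝ := √(b ^ 2 + η ^ 2) with hρdef
  have hρ0 : 0 < ρ := Real.sqrt_pos.2 hρ
  have hρ2 : ρ ^ 2 = b ^ 2 + η ^ 2 := Real.sq_sqrt hρ.le
  have hbρ : |b| ≤ ρ := by
    rw [hρdef, ← Real.sqrt_sq_eq_abs]
    exact Real.sqrt_le_sqrt (by nlinarith only [])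
  have hb1 : -1 ≤ b / ρ := by
    rw [le_div_iff₀ hρ0]
    linarith [neg_abs_le b]
  have hb2 : b / ρ ≤ 1 := by
    rw [div_le_one hρ0]
    exact le_trans (le_abs_self b) hbρ
  have hg2 : g2 b η = η + b * (Real.pi - Real.arccos (b / ρ)) := rfl
  set β : ℝ := Real.arccos (b / ρ) with hβ
  have hcosβ : Real.cos β = b / ρ := Real.cos_arccos hb1 hb2
  have hsinβ : Real.sin β = η / ρ := by
    rw [hβ, Real.sin_arccos]
    have : 1 - (b / ρ) ^ 2 = (η / ρ) ^ 2 := by
      field_simp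
      linarith only [hρ2]
    rw [this, Real.sqrt_sq (by (clear * - hη hρ; positivity))]
  have hβ0 : 0 ≤ β := Real.arccos_nonneg _
  have hβπ : β ≤ Real.pi := Real.arccos_le_pi _
  have hpi := Real.pi_pos
  have hform : ∀ θ : ℝ, b * Real.cos θ + η * Real.sin θ = ρ * Real.cos (θ - β) := by
    intro θ
    rw [Real.cos_sub, hcosβ, hsinβ]
    (clear * - hρ0; field_simp)
  set θ₀ : ℝ := β - Real.pi / 2 with hθ₀
  have hθ₀1 : -(Real.pi / 2) ≤ θ₀ := by rw [hθ₀]; linarith only [hβ0]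
  have hθ₀2 : θ₀ ≤ Real.pi / 2 := by rw [hθ₀]; linarith only [hβπ]
  have hpos : ∀ θ ∈ Icc θ₀ (Real.pi / 2), 0 ≤ b * Real.cos θ + η * Real.sin θ := by
    intro θ hθ
    rw [hform]
    refine mul_nonneg hρ0.le (Real.cos_nonneg_of_neg_pi_div_two_le_of_le ?_ ?_)
    · have := hθ.1
      rw [hθ₀] at this
      linarith only [this]
    · linarith only [hβ0, hθ.2]
  have hneg : ∀ θ ∈ Ioo (-(Real.pi / 2)) θ₀, b * Real.cos θ + η * Real.sin θ ≤ 0 := by
    intro θ hθ
    rw [hform, ← Real.cos_neg]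
    refine mul_nonpos_of_nonneg_of_nonpos hρ0.le (Real.cos_nonpos_of_pi_div_two_le_of_le ?_ ?_)
    · have := hθ.2
      rw [hθ₀] at this
      linarith only [this]
    · linarith only [hβπ, hθ.1]
  -- restrict to `[θ₀, π/2]`
  have h1 : ∫⁻ θ in Ioo (-(Real.pi / 2)) (Real.pi / 2),
      ENNReal.ofReal (Real.cos θ * max (b * Real.cos θ + η * Real.sin θ) 0)
      = ∫⁻ θ in Ioc θ₀ (Real.pi / 2),
        ENNReal.ofReal (Real.cos θ * (b * Real.cos θ + η * Real.sin θ)) := by
    rw [setLIntegral_congr Ioo_ae_eq_Ioc]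
    rw [← Ioc_union_Ioc_eq_Ioc hθ₀1 hθ₀2, lintegral_union measurableSet_Ioc]
    swap
    · rw [Set.disjoint_left]
      intro x hx hx'
      exact absurd hx.2 (not_le.2 hx'.1)
    have hz : ∫⁻ θ in Ioc (-(Real.pi / 2)) θ₀,
      ENNReal.ofReal (Real.cos θ * max (b * Real.cos θ + η * Real.sin θ) 0) = 0 := by
      rw [setLIntegral_congr Ioo_ae_eq_Ioc.symm]
      rw [setLIntegral_congr_fun measurableSet_Ioo (g := fun _ => 0)]
      · simp only [lintegral_const, MeasurableSet.univ, Measure.restrict_apply, univ_inter, Real.volume_Ioo, sub_neg_eq_add, zero_mul]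
      · intro θ hθ
        simp only
        rw [max_eq_right (hneg θ hθ)]
        simp
    rw [hz, zero_add]
    refine setLIntegral_congr_fun measurableSet_Ioc fun θ hθ => ?_
    rw [max_eq_left (hpos θ ⟨hθ.1.le, hθ.2⟩)]
  rw [h1, ← ofReal_integral_eq_lintegral_ofReal]
  rotate_left
  · exact (Continuous.integrableOn_Ioc (by fun_prop))
  · refine (ae_restrict_iff' measurableSet_Ioc).2 (Filter.Eventually.of_forall fun θ hθ => ?_)
    exact mul_nonneg (Real.cos_nonneg_of_neg_pi_div_two_le_of_le (by linarith only [hβ0, hθ₀, hθ.1])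
      hθ.2) (hpos θ ⟨hθ.1.le, hθ.2⟩)
  congr 1
  rw [← intervalIntegral.integral_of_le hθ₀2]
  rw [intervalIntegral.integral_eq_sub_of_hasDerivAt
    (f := fun θ => b * ((θ + Real.sin θ * Real.cos θ) / 2) + η * (Real.sin θ ^ 2 / 2))]
  · have hs : Real.sin θ₀ = -(b / ρ) := by
      rw [hθ₀, Real.sin_sub_pi_div_two, hcosβ]
    have hcs : Real.cos θ₀ = η / ρ := by
      rw [hθ₀, Real.cos_sub_pi_div_two, hsinβ]
    simp only [hs, hcs, Real.sin_pi_div_two, Real.cos_pi_div_two]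
    rw [hg2, hθ₀]
    field_simp
    ring
  · intro θ _
    have hd := ((((hasDerivAt_id θ).add ((Real.hasDerivAt_sin θ).mul
      (Real.hasDerivAt_cos θ))).div_const 2).const_mul b).add
      ((((Real.hasDerivAt_sin θ).pow 2).div_const 2).const_mul η)
    convert! hd using 1
    have := Real.sin_sq_add_cos_sq θ
    have h2 : Real.sin θ ^ 2 = 1 - Real.cos θ ^ 2 := by linarith only [this]
    simp only [Nat.cast_ofNat, Nat.add_one_sub_one]
    linear_combination (b / 2) * h2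
  · exact Continuous.intervalIntegrable (by fun_prop) _ _

lemma lintegral_radial2 :
    ∫⁻ R in Ioi (0 : ℝ), ENNReal.ofReal (R ^ 3 * Real.exp (-R ^ 2 / 2)) = ENNReal.ofReal 2 := by
  have h := integral_rpow_mul_exp_neg_mul_rpow (p := 2) (q := 3) (b := 1 / 2) (by norm_num)
    (by norm_num) (by norm_num)
  have hint : ∫ R in Ioi (0 : ℝ), R ^ 3 * Real.exp (-R ^ 2 / 2) = 2 := by
    have h1 : ∫ R in Ioi (0 : ℝ), R ^ 3 * Real.exp (-R ^ 2 / 2)
        = ∫ x in Ioi (0 : ℝ), x ^ (3 : ℝ) * Real.exp (-(1 / 2) * x ^ (2 : ℝ)) := by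
      refine setIntegral_congr_fun measurableSet_Ioi fun x _ => ?_
      have e1 : x ^ (3 : ℝ) = x ^ (3 : ℕ) := by
        rw [← Real.rpow_natCast]; norm_num
      have e2 : x ^ (2 : ℝ) = x ^ (2 : ℕ) := by
        rw [← Real.rpow_natCast]; norm_num
      simp only [e1, e2]
      congr 2
      ring
    rw [h1, h]
    have g : Real.Gamma ((3 + 1) / 2) = 1 := by
      have e : ((3 : ℝ) + 1) / 2 = 2 := by norm_num
      rw [e, Real.Gamma_two]
    rw [g]
    have e3 : ((1 : ℝ) / 2) ^ (-((3 : ℝ) + 1) / 2) = 4 := by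
      have : ((1 : ℝ) / 2) ^ (-((3 : ℝ) + 1) / 2) = 2 ^ (2 : ℝ) := by
        rw [one_div, Real.inv_rpow (by norm_num), ← Real.rpow_neg (by norm_num)]
        norm_num
      rw [this]
      norm_num
    rw [e3]
    norm_num
  have hint' : ENNReal.ofReal 2
      = ENNReal.ofReal (∫ R in Ioi (0 : ℝ), R ^ 3 * Real.exp (-R ^ 2 / 2)) := by rw [hint]
  rw [hint', ofReal_integral_eq_lintegral_ofReal]
  · have := (integrableOn_rpow_mul_exp_neg_mul_sq (b := 1 / 2) (by norm_num) (s := 3)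
      (by norm_num))
    refine this.congr_fun (fun x _ => ?_) measurableSet_Ioi
    have e1 : x ^ (3 : ℝ) = x ^ (3 : ℕ) := by
      rw [← Real.rpow_natCast]; norm_num
    simp only [e1]
    congr 2
    ring
  · refine (ae_restrict_iff' measurableSet_Ioi).2 (Filter.Eventually.of_forall fun R hR => ?_)
    have hR' : (0 : ℝ) < R := hR
    positivity

/-- Integral over the radius of the planar variable and the independent coordinate. -/
lemma lintegral_K2 {b η : ℝ} (hη : 0 ≤ η) (hρ : 0 < b ^ 2 + η ^ 2) :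
    ∫⁻ r in Ioi (0 : ℝ), ENNReal.ofReal (r * Real.exp (-r ^ 2 / 2)) *
      ∫⁻ u, ENNReal.ofReal (max (r * b + η * u) 0) ∂(gaussianReal 0 1)
      = ENNReal.ofReal ((√(2 * Real.pi))⁻¹ * g2 b η) := by
  set c : ℝ := (√(2 * Real.pi))⁻¹ with hc
  have hc0 : 0 ≤ c := by positivity
  set f : ℝ × ℝ → ℝ≥0∞ := {p : ℝ × ℝ | 0 < p.1}.indicator (fun p => ENNReal.ofReal
    (c * (p.1 * max (p.1 * b + η * p.2) 0 * Real.exp (-(p.1 ^ 2 + p.2 ^ 2) / 2)))) with hf
  have hfm : Measurable f := by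
    apply Measurable.indicator (by fun_prop)
    exact measurableSet_lt (by fun_prop) (by fun_prop)
  have h1 : ∫⁻ r in Ioi (0 : ℝ), ENNReal.ofReal (r * Real.exp (-r ^ 2 / 2)) *
      ∫⁻ u, ENNReal.ofReal (max (r * b + η * u) 0) ∂(gaussianReal 0 1) = ∫⁻ p, f p := by
    rw [Measure.volume_eq_prod, lintegral_prod _ hfm.aemeasurable,
      ← lintegral_indicator measurableSet_Ioi]
    refine lintegral_congr fun r => ?_
    by_cases hr : 0 < r
    · rw [indicator_of_mem (show r ∈ Ioi (0 : ℝ) from hr), lintegral_gaussianReal_std,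
        ← lintegral_const_mul _ (by fun_prop)]
      refine lintegral_congr fun u => ?_
      rw [hf, indicator_of_mem (show (r, u) ∈ {p : ℝ × ℝ | 0 < p.1} from hr),
        ← ENNReal.ofReal_mul (by positivity), ← ENNReal.ofReal_mul (by positivity)]
      congr 1
      have : -(r ^ 2 + u ^ 2) / 2 = -r ^ 2 / 2 + -u ^ 2 / 2 := by ring
      simp only
      rw [this, Real.exp_add, ← hc]
      ring
    · rw [indicator_of_notMem (show r ∉ Ioi (0 : ℝ) from hr)]
      have : ∀ u, f (r, u) = 0 := fun u =>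
        indicator_of_notMem (show (r, u) ∉ {p : ℝ × ℝ | 0 < p.1} from hr) _
      simp [this]
  rw [h1, ← lintegral_comp_polarCoord_symm]
  have h2 : ∫⁻ p in polarCoord.target, ENNReal.ofReal p.1 • f (polarCoord.symm p)
      = ∫⁻ p in Ioi (0 : ℝ) ×ˢ Ioo (-Real.pi) Real.pi,
        (ENNReal.ofReal c * ENNReal.ofReal (p.1 ^ 3 * Real.exp (-p.1 ^ 2 / 2))) *
        ((Ioo (-(Real.pi / 2)) (Real.pi / 2)).indicator (fun θ => ENNReal.ofReal
          (Real.cos θ * max (b * Real.cos θ + η * Real.sin θ) 0)) p.2) := by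
    rw [polarCoord_target]
    refine setLIntegral_congr_fun (measurableSet_Ioi.prod measurableSet_Ioo) fun p hp => ?_
    have hR : (0 : ℝ) < p.1 := hp.1
    have hθ : p.2 ∈ Ioo (-Real.pi) Real.pi := hp.2
    rw [smul_eq_mul, polarCoord_symm_apply]
    by_cases hcos : 0 < Real.cos p.2
    · rw [indicator_of_mem ((cos_pos_iff_of_mem hθ).1 hcos), hf,
        indicator_of_mem (show (p.1 * Real.cos p.2, p.1 * Real.sin p.2) ∈
          {p : ℝ × ℝ | 0 < p.1} from mul_pos hR hcos),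
        ← ENNReal.ofReal_mul hR.le, ← ENNReal.ofReal_mul (by positivity),
        ← ENNReal.ofReal_mul (by positivity)]
      congr 1
      have e1 : (p.1 * Real.cos p.2) ^ 2 + (p.1 * Real.sin p.2) ^ 2 = p.1 ^ 2 := by
        have := Real.cos_sq_add_sin_sq p.2
        nlinarith only [this]
      have e2 : max (p.1 * Real.cos p.2 * b + η * (p.1 * Real.sin p.2)) 0
          = p.1 * max (b * Real.cos p.2 + η * Real.sin p.2) 0 := by
        rw [mul_max_of_nonneg _ _ hR.le, mul_zero]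
        congr 1
        ring
      simp only
      rw [e1, e2]
      ring
    · rw [indicator_of_notMem (fun h => hcos ((cos_pos_iff_of_mem hθ).2 h)), hf,
        indicator_of_notMem (show (p.1 * Real.cos p.2, p.1 * Real.sin p.2) ∉
          {p : ℝ × ℝ | 0 < p.1} from fun h => hcos (pos_of_mul_pos_right h hR.le))]
      simp only [mul_zero]
  rw [h2, Measure.volume_eq_prod, ← Measure.prod_restrict,
    lintegral_prod_mul (f := fun R : ℝ =>
      ENNReal.ofReal c * ENNReal.ofReal (R ^ 3 * Real.exp (-R ^ 2 / 2))) (g := fun θ : ℝ =>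
      (Ioo (-(Real.pi / 2)) (Real.pi / 2)).indicator (fun θ => ENNReal.ofReal
          (Real.cos θ * max (b * Real.cos θ + η * Real.sin θ) 0)) θ) (by fun_prop)
      (Measurable.indicator (by fun_prop) measurableSet_Ioo).aemeasurable]
  rw [lintegral_const_mul _ (by fun_prop), lintegral_radial2,
    lintegral_indicator measurableSet_Ioo, Measure.restrict_restrict measurableSet_Ioo]
  have h3 : Ioo (-(Real.pi / 2)) (Real.pi / 2) ∩ Ioo (-Real.pi) Real.pi
      = Ioo (-(Real.pi / 2)) (Real.pi / 2) := by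
    apply inter_eq_left.2
    apply Ioo_subset_Ioo <;> linarith only [Real.pi_pos]
  rw [h3, integral_angle2 hη hρ, ← ENNReal.ofReal_mul hc0,
    ← ENNReal.ofReal_mul (by positivity)]
  congr 1
  ring

/-- `lintegral_K2` without the non-degeneracy assumption. -/
lemma lintegral_K2' {b η : ℝ} (hη : 0 ≤ η) :
    ∫⁻ r in Ioi (0 : ℝ), ENNReal.ofReal (r * Real.exp (-r ^ 2 / 2)) *
      ∫⁻ u, ENNReal.ofReal (max (r * b + η * u) 0) ∂(gaussianReal 0 1)
      = ENNReal.ofReal ((√(2 * Real.pi))⁻¹ * g2 b η) := by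
  by_cases h : 0 < b ^ 2 + η ^ 2
  · exact lintegral_K2 hη h
  · have hb : b = 0 := by
      by_contra hb
      exact h (by positivity)
    have hη0 : η = 0 := by
      by_contra hη0
      exact h (by positivity)
    subst hb hη0
    simp only [mul_zero, zero_mul, add_zero, max_self, ENNReal.ofReal_zero, lintegral_const, measure_univ, mul_one, MeasurableSet.univ, Measure.restrict_apply, univ_inter, Real.volume_Ioi, Nat.ofNat_nonneg, Real.sqrt_mul, mul_inv_rev, g2, ne_eq, OfNat.ofNat_ne_zero, not_false_eq_true, zero_pow, Real.sqrt_zero, div_zero, Real.arccos_zero]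

/-- Integral over the three coordinates, in terms of the angle only. -/
theorem lintegral_T2 {a η l : ℝ} (hη : 0 ≤ η) :
    ∫⁻ x, ∫⁻ y, ∫⁻ u, ENNReal.ofReal (max (a * x + η * u - l * √(x ^ 2 + y ^ 2)) 0)
        ∂(gaussianReal 0 1) ∂(gaussianReal 0 1) ∂(gaussianReal 0 1)
      = ENNReal.ofReal ((2 * Real.pi)⁻¹ * (√(2 * Real.pi))⁻¹) *
        ∫⁻ θ in Ioo (-Real.pi) Real.pi, ENNReal.ofReal (g2 (a * Real.cos θ - l) η) := by
  have hm : Measurable (fun p : ℝ × ℝ => ∫⁻ u, ENNReal.ofReal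
      (max (a * p.1 + η * u - l * √(p.1 ^ 2 + p.2 ^ 2)) 0) ∂(gaussianReal 0 1)) := by
    apply Measurable.lintegral_prod_right' (f := fun q : (ℝ × ℝ) × ℝ =>
      ENNReal.ofReal (max (a * q.1.1 + η * q.2 - l * √(q.1.1 ^ 2 + q.1.2 ^ 2)) 0))
    fun_prop
  rw [lintegral_polar (F := fun p : ℝ × ℝ => ∫⁻ u, ENNReal.ofReal
      (max (a * p.1 + η * u - l * √(p.1 ^ 2 + p.2 ^ 2)) 0) ∂(gaussianReal 0 1)) hm]
  have e1 : ∀ r ∈ Ioi (0 : ℝ), ∫⁻ θ in Ioo (-Real.pi) Real.pi,
      ENNReal.ofReal ((2 * Real.pi)⁻¹ * (r * Real.exp (-r ^ 2 / 2))) *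
        ∫⁻ u, ENNReal.ofReal (max (a * (r * Real.cos θ) + η * u
          - l * √((r * Real.cos θ) ^ 2 + (r * Real.sin θ) ^ 2)) 0) ∂(gaussianReal 0 1)
      = ∫⁻ θ in Ioo (-Real.pi) Real.pi,
      ENNReal.ofReal ((2 * Real.pi)⁻¹) * (ENNReal.ofReal (r * Real.exp (-r ^ 2 / 2)) *
        ∫⁻ u, ENNReal.ofReal (max (r * (a * Real.cos θ - l) + η * u) 0) ∂(gaussianReal 0 1)) := by
    intro r hr
    have hr' : (0 : ℝ) < r := hr
    refine lintegral_congr fun θ => ?_
    have e2 : √((r * Real.cos θ) ^ 2 + (r * Real.sin θ) ^ 2) = r := by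
      have : (r * Real.cos θ) ^ 2 + (r * Real.sin θ) ^ 2 = r ^ 2 := by
        have := Real.cos_sq_add_sin_sq θ
        nlinarith only [this]
      rw [this, Real.sqrt_sq hr'.le]
    rw [e2, ENNReal.ofReal_mul (by positivity), mul_assoc]
    congr 2
    refine lintegral_congr fun u => ?_
    congr 2
    ring
  rw [setLIntegral_congr_fun measurableSet_Ioi e1]
  have hm2 : Measurable (fun p : ℝ × ℝ => ∫⁻ u, ENNReal.ofReal
      (max (p.1 * (a * Real.cos p.2 - l) + η * u) 0) ∂(gaussianReal 0 1)) := by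
    apply Measurable.lintegral_prod_right' (f := fun q : (ℝ × ℝ) × ℝ =>
      ENNReal.ofReal (max (q.1.1 * (a * Real.cos q.1.2 - l) + η * q.2) 0))
    fun_prop
  rw [lintegral_lintegral_swap]
  swap
  · apply Measurable.aemeasurable
    apply Measurable.mul (by fun_prop)
    exact Measurable.mul (by fun_prop) hm2
  have e3 : ∀ θ : ℝ, ∫⁻ r in Ioi (0 : ℝ), ENNReal.ofReal ((2 * Real.pi)⁻¹) *
      (ENNReal.ofReal (r * Real.exp (-r ^ 2 / 2)) *
        ∫⁻ u, ENNReal.ofReal (max (r * (a * Real.cos θ - l) + η * u) 0) ∂(gaussianReal 0 1))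
      = ENNReal.ofReal ((2 * Real.pi)⁻¹ * (√(2 * Real.pi))⁻¹) *
        ENNReal.ofReal (g2 (a * Real.cos θ - l) η) := by
    intro θ
    rw [lintegral_const_mul' _ _ ENNReal.ofReal_ne_top, lintegral_K2' hη,
      ENNReal.ofReal_mul (by positivity : (0 : ℝ) ≤ (√(2 * Real.pi))⁻¹),
      ENNReal.ofReal_mul (by positivity : (0 : ℝ) ≤ (2 * Real.pi)⁻¹), mul_assoc]
  simp_rw [e3]
  rw [lintegral_const_mul' _ _ ENNReal.ofReal_ne_top]

/-! ### Analysis of `g2` -/

lemma integrableOn_sq_div (b η : ℝ) :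
    IntegrableOn (fun t : ℝ => t ^ 2 / (t ^ 2 + b ^ 2)) (Ioc 0 η) := by
  refine Measure.integrableOn_of_bounded (M := 1) (by simp)
    (Measurable.aestronglyMeasurable (by fun_prop)) (Filter.Eventually.of_forall fun t => ?_)
  rw [Real.norm_of_nonneg (by positivity)]
  exact div_le_one_of_le₀ (by nlinarith [sq_nonneg b]) (by positivity)

/-- The excess of `g2` over its value without tilt, as an integral. -/
lemma g2_eq {b η : ℝ} (hη : 0 ≤ η) :
    g2 b η = Real.pi * max b 0 + ∫ t in (0 : ℝ)..η, t ^ 2 / (t ^ 2 + b ^ 2) := by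
  rcases eq_or_ne b 0 with hb | hb
  · subst hb
    have h1 : ∫ t in (0 : ℝ)..η, t ^ 2 / (t ^ 2 + 0 ^ 2) = ∫ t in (0 : ℝ)..η, (1 : ℝ) := by
      rw [intervalIntegral.integral_of_le hη, intervalIntegral.integral_of_le hη]
      refine setIntegral_congr_fun measurableSet_Ioc fun t ht => ?_
      have ht0 : 0 < t := ht.1
      have : t ^ 2 / (t ^ 2 + 0 ^ 2) = 1 := by
        rw [zero_pow two_ne_zero, add_zero, div_self (by positivity)]
      exact this
    rw [h1]
    simp only [g2, ne_eq, OfNat.ofNat_ne_zero, not_false_eq_true, zero_pow, zero_add, zero_div, Real.arccos_zero, zero_mul, add_zero, max_self, mul_zero, intervalIntegral.integral_const, sub_zero, smul_eq_mul, mul_one]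
  · have hI : ∫ t in (0 : ℝ)..η, t ^ 2 / (t ^ 2 + b ^ 2) = η - b * Real.arctan (η / b) := by
      rw [intervalIntegral.integral_eq_sub_of_hasDerivAt
        (f := fun t => t - b * Real.arctan (t / b))]
      · simp
      · intro t _
        have hd := (hasDerivAt_id t).sub ((((hasDerivAt_id t).div_const b).arctan).const_mul b)
        convert! hd using 1
        simp only [id]
        field_simp
        ring
      · refine ContinuousOn.intervalIntegrable fun t _ => ContinuousAt.continuousWithinAt ?_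
        have : t ^ 2 + b ^ 2 ≠ 0 := by positivity
        fun_prop (disch := assumption)
    rw [hI]
    have hρ : 0 < b ^ 2 + η ^ 2 := by positivity
    set ρ : ℝ := √(b ^ 2 + η ^ 2) with hρdef
    have hρ0 : 0 < ρ := Real.sqrt_pos.2 hρ
    have hρ2 : ρ ^ 2 = b ^ 2 + η ^ 2 := Real.sq_sqrt hρ.le
    have hsq : ∀ c : ℝ, 0 < c → c ^ 2 = b ^ 2 → Real.arccos (c / ρ) = Real.arctan (η / c) := by
      intro c hc hcb
      rw [Real.arccos_eq_arctan (by positivity)]
      congr 1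
      have : 1 - (c / ρ) ^ 2 = (η / ρ) ^ 2 := by
        field_simp
        linarith only [hρ2, hcb]
      rw [this, Real.sqrt_sq (by (clear * - hη hb; positivity))]
      (clear * - hρ0 hc; field_simp)
    rcases lt_or_gt_of_ne hb with hneg | hpos
    · have h2 := hsq (-b) (by linarith) (by ring)
      have h3 : g2 b η = η + b * (Real.pi - Real.arccos (b / ρ)) := rfl
      have h4 : Real.arccos (b / ρ) = Real.pi - Real.arccos (-b / ρ) := by
        rw [neg_div, Real.arccos_neg]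
        ring
      rw [h3, h4, h2, max_eq_right hneg.le]
      have h5 : η / -b = -(η / b) := by
        rw [div_neg]
      rw [h5, Real.arctan_neg]
      ring
    · have h2 := hsq b hpos rfl
      have h3 : g2 b η = η + b * (Real.pi - Real.arccos (b / ρ)) := rfl
      rw [h3, h2, max_eq_left hpos.le]
      ring

lemma ofReal_g2 {b η : ℝ} (hη : 0 ≤ η) :
    ENNReal.ofReal (g2 b η) = ENNReal.ofReal (Real.pi * max b 0)
      + ∫⁻ t in Ioc (0 : ℝ) η, ENNReal.ofReal (t ^ 2 / (t ^ 2 + b ^ 2)) := by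
  have h0 : 0 ≤ ∫ t in (0 : ℝ)..η, t ^ 2 / (t ^ 2 + b ^ 2) :=
    intervalIntegral.integral_nonneg hη fun t _ => by positivity
  rw [g2_eq hη, ENNReal.ofReal_add (by positivity) h0]
  congr 1
  rw [intervalIntegral.integral_of_le hη, ofReal_integral_eq_lintegral_ofReal]
  · exact integrableOn_sq_div b η
  · exact Filter.Eventually.of_forall fun t => by positivity

/-- In-plane part of the cost. -/
lemma lintegral_inplane {a : ℝ} (ha : 1 < a) :
    ∫⁻ θ in Ioo (-Real.pi) Real.pi, ENNReal.ofReal (Real.pi * max (a * Real.cos θ - 1) 0)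
      = ENNReal.ofReal (2 * Real.pi * (√(a ^ 2 - 1) - Real.arccos (1 / a))) := by
  have hpi := Real.pi_pos
  have ha0 : 0 < a := by linarith
  set φ : ℝ := Real.arccos (1 / a) with hφ
  have h1a : 1 / a ≤ 1 := by
    rw [div_le_one ha0]
    exact ha.le
  have hcosφ : Real.cos φ = 1 / a := Real.cos_arccos (by
    have : 0 < 1 / a := by positivity
    linarith only [this]) h1a
  have hsinφ : a * Real.sin φ = √(a ^ 2 - 1) := by
    rw [hφ, Real.sin_arccos]
    have : 1 - (1 / a) ^ 2 = (a ^ 2 - 1) / a ^ 2 := by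
      field_simp
    rw [this, Real.sqrt_div' _ (by positivity), Real.sqrt_sq ha0.le]
    field_simp
  have hφ0 : 0 ≤ φ := Real.arccos_nonneg _
  have hφπ : φ ≤ Real.pi := Real.arccos_le_pi _
  have hin : ∀ θ ∈ Icc (-φ) φ, 0 ≤ a * Real.cos θ - 1 := by
    intro θ hθ
    have h2 : Real.cos φ ≤ Real.cos θ := by
      rw [← Real.cos_abs θ]
      exact Real.cos_le_cos_of_nonneg_of_le_pi (abs_nonneg θ) hφπ (abs_le.2 hθ)
    rw [hcosφ, div_le_iff₀ ha0] at h2
    linarith only [h2]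
  have hout : ∀ θ ∈ Ioo (-Real.pi) Real.pi, θ ∉ Icc (-φ) φ → a * Real.cos θ - 1 ≤ 0 := by
    intro θ hθ hn
    have h2 : Real.cos θ ≤ Real.cos φ := by
      rw [← Real.cos_abs θ]
      refine Real.cos_le_cos_of_nonneg_of_le_pi hφ0 (abs_le.2 ⟨hθ.1.le, hθ.2.le⟩) ?_
      by_contra h
      exact hn (abs_le.1 (not_le.1 h).le)
    rw [hcosφ, le_div_iff₀ ha0] at h2
    linarith
  have h1 : ∫⁻ θ in Ioo (-Real.pi) Real.pi, ENNReal.ofReal (Real.pi * max (a * Real.cos θ - 1) 0)
      = ∫⁻ θ in Icc (-φ) φ, ENNReal.ofReal (Real.pi * (a * Real.cos θ - 1)) := by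
    have hsub : ∫⁻ θ in Ioo (-Real.pi) Real.pi,
        ENNReal.ofReal (Real.pi * max (a * Real.cos θ - 1) 0)
        = ∫⁻ θ in Ioc (-Real.pi) Real.pi, (Icc (-φ) φ).indicator
          (fun θ => ENNReal.ofReal (Real.pi * (a * Real.cos θ - 1))) θ := by
      rw [setLIntegral_congr Ioo_ae_eq_Ioc.symm]
      refine setLIntegral_congr_fun measurableSet_Ioo fun θ hθ => ?_
      by_cases hm : θ ∈ Icc (-φ) φ
      · rw [indicator_of_mem hm, max_eq_left (hin θ hm)]
      · rw [indicator_of_notMem hm, max_eq_right (hout θ hθ hm), mul_zero, ENNReal.ofReal_zero]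
    rw [hsub, setLIntegral_congr Ioc_ae_eq_Icc, lintegral_indicator measurableSet_Icc,
      Measure.restrict_restrict measurableSet_Icc]
    congr 2
    exact inter_eq_left.2 (Icc_subset_Icc (by linarith only [hφπ]) hφπ)
  rw [h1, setLIntegral_congr Ioc_ae_eq_Icc.symm, ← ofReal_integral_eq_lintegral_ofReal]
  rotate_left
  · exact (Continuous.integrableOn_Ioc (by fun_prop))
  · refine (ae_restrict_iff' measurableSet_Ioc).2 (Filter.Eventually.of_forall fun θ hθ => ?_)
    exact mul_nonneg hpi.le (hin θ ⟨hθ.1.le, hθ.2⟩)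
  congr 1
  rw [← intervalIntegral.integral_of_le (by linarith only [hφ0])]
  rw [intervalIntegral.integral_eq_sub_of_hasDerivAt
    (f := fun θ => Real.pi * (a * Real.sin θ - θ))]
  · rw [Real.sin_neg]
    linear_combination (2 * Real.pi) * hsinφ
  · intro θ _
    exact (((Real.hasDerivAt_sin θ).const_mul a).sub (hasDerivAt_id θ)).const_mul Real.pi
  · exact Continuous.intervalIntegrable (by fun_prop) _ _

lemma lintegral_circle {a t : ℝ} (ha : 1 < a) (ht : 0 < t) :
    ∫⁻ θ in Ioo (-Real.pi) Real.pi,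
      ENNReal.ofReal (t ^ 2 / (t ^ 2 + (a * Real.cos θ - 1) ^ 2))
      ≤ ENNReal.ofReal (2 * Real.pi / √(a ^ 2 - 1) * t) := by
  have hpi := Real.pi_pos
  have hcont : Continuous fun θ : ℝ => t / ((a * Real.cos θ - 1) ^ 2 + t ^ 2) := by
    refine Continuous.div₀ (by fun_prop) (by fun_prop) fun θ => ?_
    positivity
  have hper : Function.Periodic (fun θ : ℝ => t / ((a * Real.cos θ - 1) ^ 2 + t ^ 2))
      (2 * Real.pi) := by
    intro θ
    simp only [Real.cos_add_two_pi]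
  have h1 : ∫⁻ θ in Ioo (-Real.pi) Real.pi,
      ENNReal.ofReal (t ^ 2 / (t ^ 2 + (a * Real.cos θ - 1) ^ 2))
      = ENNReal.ofReal (t * ∫ θ in (0 : ℝ)..2 * Real.pi,
        t / ((a * Real.cos θ - 1) ^ 2 + t ^ 2)) := by
    have h2 : ∫ θ in (0 : ℝ)..2 * Real.pi, t / ((a * Real.cos θ - 1) ^ 2 + t ^ 2)
        = ∫ θ in (-Real.pi)..Real.pi, t / ((a * Real.cos θ - 1) ^ 2 + t ^ 2) := by
      have h3 := hper.intervalIntegral_add_eq 0 (-Real.pi)
      have e1 : (0 : ℝ) + 2 * Real.pi = 2 * Real.pi := by ring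
      have e2 : -Real.pi + 2 * Real.pi = Real.pi := by ring
      rw [e1, e2] at h3
      exact h3
    rw [h2, ← intervalIntegral.integral_const_mul,
      intervalIntegral.integral_of_le (by linarith), setLIntegral_congr Ioo_ae_eq_Ioc,
      ofReal_integral_eq_lintegral_ofReal]
    · refine lintegral_congr fun θ => ?_
      congr 1
      rw [add_comm (t ^ 2)]
      ring
    · exact (hcont.const_mul t).integrableOn_Ioc
    · exact Filter.Eventually.of_forall fun θ => by positivity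
  rw [h1]
  apply ENNReal.ofReal_le_ofReal
  have h4 := CircleAvg.average_le ha ht
  rw [inv_mul_le_iff₀ (by positivity)] at h4
  calc t * ∫ θ in (0 : ℝ)..2 * Real.pi, t / ((a * Real.cos θ - 1) ^ 2 + t ^ 2)
      ≤ t * (2 * Real.pi * (1 / √(a ^ 2 - 1))) := mul_le_mul_of_nonneg_left h4 ht.le
    _ = _ := by ring

lemma arccos_le_sqrt {a : ℝ} (ha : 1 < a) : Real.arccos (1 / a) ≤ √(a ^ 2 - 1) := by
  have ha0 : 0 < a := by linarith
  set φ : ℝ := Real.arccos (1 / a) with hφ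
  have h1a : 1 / a < 1 := by
    rw [div_lt_one ha0]
    exact ha
  have hp : 0 < 1 / a := by positivity
  have hcosφ : Real.cos φ = 1 / a := Real.cos_arccos (by linarith only [hp]) h1a.le
  have hφ1 : φ < Real.pi / 2 := Real.arccos_lt_pi_div_two.2 hp
  have hφ0 : 0 < φ := Real.arccos_pos.2 h1a
  have htan : √(a ^ 2 - 1) = Real.tan φ := by
    rw [Real.tan_eq_sin_div_cos, hcosφ, hφ, Real.sin_arccos]
    have : 1 - (1 / a) ^ 2 = (a ^ 2 - 1) / a ^ 2 := by
      field_simp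
    rw [this, Real.sqrt_div' _ (by positivity), Real.sqrt_sq ha0.le]
    field_simp
  rw [htan]
  exact (Real.lt_tan hφ0 hφ1).le

/-- The angular bound behind `G2Bound`. -/
theorem lintegral_g2_le {a η : ℝ} (ha : 1 < a) (hη : 0 ≤ η) :
    ∫⁻ θ in Ioo (-Real.pi) Real.pi, ENNReal.ofReal (g2 (a * Real.cos θ - 1) η)
      ≤ ENNReal.ofReal (2 * Real.pi * (√(a ^ 2 - 1) - Real.arccos (1 / a)
        + η ^ 2 / (2 * √(a ^ 2 - 1)))) := by
  have hpi := Real.pi_pos
  simp_rw [ofReal_g2 hη]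
  rw [lintegral_add_left (by fun_prop), lintegral_inplane ha]
  rw [lintegral_lintegral_swap (by fun_prop)]
  have h1 : ∫⁻ t in Ioc (0 : ℝ) η, ∫⁻ θ in Ioo (-Real.pi) Real.pi,
      ENNReal.ofReal (t ^ 2 / (t ^ 2 + (a * Real.cos θ - 1) ^ 2))
      ≤ ENNReal.ofReal (2 * Real.pi * (η ^ 2 / (2 * √(a ^ 2 - 1)))) := by
    calc ∫⁻ t in Ioc (0 : ℝ) η, ∫⁻ θ in Ioo (-Real.pi) Real.pi,
          ENNReal.ofReal (t ^ 2 / (t ^ 2 + (a * Real.cos θ - 1) ^ 2))
        ≤ ∫⁻ t in Ioc (0 : ℝ) η, ENNReal.ofReal (2 * Real.pi / √(a ^ 2 - 1) * t) := by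
          refine setLIntegral_mono (by fun_prop) fun t ht => lintegral_circle ha ht.1
      _ = ENNReal.ofReal (2 * Real.pi * (η ^ 2 / (2 * √(a ^ 2 - 1)))) := by
          rw [← ofReal_integral_eq_lintegral_ofReal]
          · congr 1
            rw [← intervalIntegral.integral_of_le hη, intervalIntegral.integral_const_mul,
              integral_id]
            ring
          · exact Continuous.integrableOn_Ioc (by fun_prop)
          · refine (ae_restrict_iff' measurableSet_Ioc).2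
              (Filter.Eventually.of_forall fun t ht => ?_)
            have : 0 < t := ht.1
            positivity
  refine (add_le_add le_rfl h1).trans ?_
  have h2 : 0 ≤ √(a ^ 2 - 1) - Real.arccos (1 / a) := sub_nonneg.2 (arccos_le_sqrt ha)
  rw [← ENNReal.ofReal_add (by positivity) (by positivity)]
  apply ENNReal.ofReal_le_ofReal
  apply le_of_eq
  ring

/-! ### Subspaces of dimension two -/

lemma lintegral_pi_three (μ : Fin 3 → Measure ℝ) [∀ i, SigmaFinite (μ i)]
    {f : (Fin 3 → ℝ) → ℝ≥0∞} (hf : Measurable f) :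
    ∫⁻ y, f y ∂(Measure.pi μ)
      = ∫⁻ a, ∫⁻ b, ∫⁻ c, f ![a, b, c] ∂(μ 2) ∂(μ 1) ∂(μ 0) := by
  have m1 : ∀ {n : ℕ} (a : ℝ), Measurable (fun z : Fin n → ℝ => (Fin.cons a z : Fin (n + 1) → ℝ)) := by
    intro n a
    refine measurable_pi_lambda _ fun i => ?_
    refine Fin.cases ?_ (fun j => ?_) i
    · simp
    · simpa using measurable_pi_apply j
  rw [lintegral_pi_succ _ hf]
  refine lintegral_congr fun a => ?_
  rw [lintegral_pi_succ (f := fun z => f (Fin.cons a z)) _ (hf.comp (m1 a))]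
  refine lintegral_congr fun b => ?_
  rw [lintegral_pi_succ (f := fun z => f (Fin.cons a (Fin.cons b z))) _
    ((hf.comp (m1 a)).comp (m1 b))]
  refine lintegral_congr fun c => ?_
  rw [lintegral_pi_zero]
  rfl

variable {E : Type*} [NormedAddCommGroup E] [InnerProductSpace ℝ E] [FiniteDimensional ℝ E]
  [MeasurableSpace E] [BorelSpace E]

/-- Expectation of the excess over a two dimensional threshold, lower integral form. -/
theorem lintegral_max_sub_norm2 {e₀ e₁ w : E} (he : Orthonormal ℝ ![e₀, e₁])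
    (h0 : ⟪e₀, w⟫ = 0) (h1 : ⟪e₁, w⟫ = 0) {a l : ℝ} :
    ∫⁻ x, ENNReal.ofReal (max (⟪a • e₀ + w, x⟫ - l * √(⟪e₀, x⟫ ^ 2 + ⟪e₁, x⟫ ^ 2)) 0)
        ∂(stdGaussian E)
      = ENNReal.ofReal ((2 * Real.pi)⁻¹ * (√(2 * Real.pi))⁻¹) *
        ∫⁻ θ in Ioo (-Real.pi) Real.pi, ENNReal.ofReal (g2 (a * Real.cos θ - l) ‖w‖) := by
  have n0 : ‖e₀‖ = 1 := he.1 0
  have n1 : ‖e₁‖ = 1 := he.1 1
  have o01 : ⟪e₀, e₁⟫ = 0 := he.2 (i := 0) (j := 1) (by simp)
  have o10 : ⟪e₁, e₀⟫ = 0 := by rw [real_inner_comm]; exact o01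
  have p0 : ⟪w, e₀⟫ = 0 := by rw [real_inner_comm]; exact h0
  have p1 : ⟪w, e₁⟫ = 0 := by rw [real_inner_comm]; exact h1
  let v : Fin 3 → E := ![e₀, e₁, w]
  have hv : ∀ i j, i ≠ j → ⟪v i, v j⟫ = 0 := by
    intro i j hij
    fin_cases i <;> fin_cases j <;> first | exact absurd rfl hij | assumption
  have hmap := map_inner_pi v hv
  let f : (Fin 3 → ℝ) → ℝ≥0∞ := fun y =>
    ENNReal.ofReal (max (a * y 0 + y 2 - l * √(y 0 ^ 2 + y 1 ^ 2)) 0)
  have hf : Measurable f := by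
    simp only [f]
    fun_prop
  have e1 : ∫⁻ x, ENNReal.ofReal
      (max (⟪a • e₀ + w, x⟫ - l * √(⟪e₀, x⟫ ^ 2 + ⟪e₁, x⟫ ^ 2)) 0)
        ∂(stdGaussian E) = ∫⁻ y, f y ∂((stdGaussian E).map (fun x i => ⟪v i, x⟫)) := by
    rw [lintegral_map hf (by fun_prop)]
    refine lintegral_congr fun x => ?_
    simp only [f, v]
    congr 3
    rw [inner_add_left, inner_smul_left]
    simp
  rw [e1, hmap, lintegral_pi_three _ hf]
  simp only [f, v, Matrix.cons_val_zero, Matrix.cons_val_one, Matrix.cons_val]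
  have hid : (gaussianReal 0 1).map (fun t => ‖e₀‖ * t) = gaussianReal 0 1 := by
    rw [n0]; simp
  have hid1 : (gaussianReal 0 1).map (fun t => ‖e₁‖ * t) = gaussianReal 0 1 := by
    rw [n1]; simp
  rw [hid, hid1]
  rw [← lintegral_T2 (norm_nonneg w)]
  refine lintegral_congr fun x => lintegral_congr fun y => ?_
  rw [lintegral_map (by fun_prop) (by fun_prop)]

omit [MeasurableSpace E] [BorelSpace E] in
/-- Squared norm of a projection on a plane. -/
lemma norm_starProjection_sq2 {V : Submodule ℝ E} (b : OrthonormalBasis (Fin 2) ℝ V) (x : E) :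
    ‖V.starProjection x‖ ^ 2 = ⟪(b 0 : E), x⟫ ^ 2 + ⟪(b 1 : E), x⟫ ^ 2 := by
  have h := b.sum_sq_inner_right (V.orthogonalProjectionOnto x)
  rw [Fin.sum_univ_two] at h
  have h1 : ∀ i, ⟪b i, V.orthogonalProjectionOnto x⟫ = ⟪(b i : E), x⟫ := by
    intro i
    rw [Submodule.inner_orthogonalProjectionOnto_eq_of_mem_left]
  rw [h1, h1] at h
  rw [Submodule.starProjection_apply, ← Submodule.coe_norm, ← h]

omit [MeasurableSpace E] [BorelSpace E] in
lemma exists_basis2 {V : Submodule ℝ E} (hV : Module.finrank ℝ V = 2) (v : E) :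
    ∃ b : OrthonormalBasis (Fin 2) ℝ V, V.starProjection v = ‖V.starProjection v‖ • (b 0 : E) := by
  by_cases h : V.starProjection v = 0
  · refine ⟨(stdOrthonormalBasis ℝ V).reindex (finCongr hV), ?_⟩
    rw [h, norm_zero, zero_smul]
  · have hn : ‖V.starProjection v‖ ≠ 0 := norm_ne_zero_iff.2 h
    let e : V := ⟨‖V.starProjection v‖⁻¹ • V.starProjection v,
      V.smul_mem _ (Submodule.starProjection_apply_mem V v)⟩
    have he : ‖e‖ = 1 := by
      rw [Submodule.coe_norm]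
      simp only [e]
      rw [norm_smul, norm_inv, norm_norm, inv_mul_cancel₀ hn]
    have ho : Orthonormal ℝ (({0} : Set (Fin 2)).domRestrict (fun _ : Fin 2 => e)) := by
      constructor
      · intro i
        exact he
      · intro i j hij
        exact absurd (Subtype.ext (i.2.trans j.2.symm)) hij
    obtain ⟨b, hb⟩ := ho.exists_orthonormalBasis_extension_of_card_eq (by simp [hV])
    refine ⟨b, ?_⟩
    rw [hb 0 rfl]
    simp only [e]
    rw [smul_smul, mul_inv_cancel₀ hn, one_smul]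

omit [FiniteDimensional ℝ E] [MeasurableSpace E] [BorelSpace E] in
lemma orthonormal_coe2 {V : Submodule ℝ E} (b : OrthonormalBasis (Fin 2) ℝ V) :
    Orthonormal ℝ ![(b 0 : E), (b 1 : E)] := by
  have h1 : Orthonormal ℝ (fun i => (b i : E)) :=
    b.orthonormal.comp_linearIsometry V.subtypeₗᵢ
  convert! h1 using 1
  funext i
  fin_cases i <;> rfl

/-- **Two dimensional threshold**: the expectation of `(⟪v, x⟫ - ‖P_V x‖)₊` for a plane `V`. -/
theorem lintegral_max_sub_proj2 {V : Submodule ℝ E} (hV : Module.finrank ℝ V = 2) (v : E) :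
    ∫⁻ x, ENNReal.ofReal (max (⟪v, x⟫ - ‖V.starProjection x‖) 0) ∂(stdGaussian E)
      = ENNReal.ofReal ((2 * Real.pi)⁻¹ * (√(2 * Real.pi))⁻¹) *
        ∫⁻ θ in Ioo (-Real.pi) Real.pi, ENNReal.ofReal
          (g2 (‖V.starProjection v‖ * Real.cos θ - 1) ‖v - V.starProjection v‖) := by
  obtain ⟨b, hb⟩ := exists_basis2 hV v
  have hw : ∀ i, ⟪(b i : E), v - V.starProjection v⟫ = 0 := by
    intro i
    rw [real_inner_comm]
    exact Submodule.starProjection_inner_eq_zero v _ (b i).2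
  have h := lintegral_max_sub_norm2 (orthonormal_coe2 b) (hw 0) (hw 1)
    (a := ‖V.starProjection v‖) (l := 1)
  rw [← h]
  refine lintegral_congr fun x => ?_
  rw [← hb, add_sub_cancel, ← norm_starProjection_sq2 b x, Real.sqrt_sq (norm_nonneg _), one_mul]

/-- Passage from an angular bound to a bound on the Gaussian integral. -/
lemma integral_le_of_angle {V : Submodule ℝ E} (hV : Module.finrank ℝ V = 2) {v : E} {C : ℝ}
    (hC : 0 ≤ C) (h : ∫⁻ θ in Ioo (-Real.pi) Real.pi, ENNReal.ofReal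
      (g2 (‖V.starProjection v‖ * Real.cos θ - 1) ‖v - V.starProjection v‖)
        ≤ ENNReal.ofReal (2 * Real.pi * C)) :
    √(2 * Real.pi) * ∫ x, max (⟪v, x⟫ - ‖V.starProjection x‖) 0 ∂(stdGaussian E) ≤ C := by
  have hs : 0 < √(2 * Real.pi) := Real.sqrt_pos.2 (by positivity)
  have hm : Measurable (fun x : E => max (⟪v, x⟫ - ‖V.starProjection x‖) 0) := by (clear hV C hC h hs; fun_prop)
  rw [integral_eq_lintegral_of_nonneg_ae
    (Filter.Eventually.of_forall fun x => by exact le_max_right _ _)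
    hm.aestronglyMeasurable, lintegral_max_sub_proj2 hV v]
  have h1 : (ENNReal.ofReal ((2 * Real.pi)⁻¹ * (√(2 * Real.pi))⁻¹) *
        ∫⁻ θ in Ioo (-Real.pi) Real.pi, ENNReal.ofReal
          (g2 (‖V.starProjection v‖ * Real.cos θ - 1) ‖v - V.starProjection v‖)).toReal
      ≤ (√(2 * Real.pi))⁻¹ * C := by
    refine ENNReal.toReal_le_of_le_ofReal (by positivity) ?_
    refine (mul_le_mul_right h _).trans (le_of_eq ?_)
    rw [← ENNReal.ofReal_mul (by positivity)]
    congr 1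
    field_simp
  calc √(2 * Real.pi) * _ ≤ √(2 * Real.pi) * ((√(2 * Real.pi))⁻¹ * C) :=
        mul_le_mul_of_nonneg_left h1 hs.le
    _ = C := by field_simp

/-- **(G2)**: bound for the cost of a tilted vector, plane threshold. -/
theorem g2_bound {V : Submodule ℝ E} (hV : Module.finrank ℝ V = 2) (v : E)
    (hv : 1 < ‖V.starProjection v‖) :
    √(2 * Real.pi) * ∫ x, max (⟪v, x⟫ - ‖V.starProjection x‖) 0 ∂(stdGaussian E)
      ≤ √(‖V.starProjection v‖ ^ 2 - 1) - Real.arccos (1 / ‖V.starProjection v‖)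
        + ‖v - V.starProjection v‖ ^ 2 / (2 * √(‖V.starProjection v‖ ^ 2 - 1)) := by
  refine integral_le_of_angle hV ?_ (lintegral_g2_le hv (norm_nonneg _))
  have h1 := arccos_le_sqrt hv
  have : 0 ≤ ‖v - V.starProjection v‖ ^ 2 / (2 * √(‖V.starProjection v‖ ^ 2 - 1)) := by
    (clear hV hv h1; positivity)
  linarith

lemma arctan_le_self {x : ℝ} (hx : 0 ≤ x) : Real.arctan x ≤ x := by
  rcases hx.eq_or_lt with h | h
  · rw [← h, Real.arctan_zero]
  · have h5 := Real.lt_tan (x := Real.arctan x) (by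
      rw [← Real.arctan_zero]; exact Real.arctan_strictMono h) (Real.arctan_lt_pi_div_two x)
    rw [Real.tan_arctan] at h5
    exact h5.le

lemma g2_neg_one {η : ℝ} (hη : 0 ≤ η) : g2 (-1) η = η - Real.arctan η := by
  rw [g2_eq hη]
  have h1 : ∫ t in (0 : ℝ)..η, t ^ 2 / (t ^ 2 + (-1) ^ 2)
      = ∫ t in (0 : ℝ)..η, (1 - (1 + t ^ 2)⁻¹) := by
    refine intervalIntegral.integral_congr fun t _ => ?_
    have h2 : 1 + t ^ 2 ≠ 0 := by positivity
    have h3 : t ^ 2 + (-1) ^ 2 = 1 + t ^ 2 := by ring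
    change t ^ 2 / (t ^ 2 + (-1) ^ 2) = 1 - (1 + t ^ 2)⁻¹
    rw [h3]
    field_simp
    ring
  rw [h1, intervalIntegral.integral_sub (by simp)
    (Continuous.intervalIntegrable (by
      refine Continuous.inv₀ (by fun_prop) fun t => ?_
      positivity) _ _), integral_inv_one_add_sq]
  simp only [Left.neg_nonpos_iff, zero_le_one, sup_of_le_right, mul_zero, intervalIntegral.integral_const, sub_zero, smul_eq_mul, mul_one, Real.arctan_zero, zero_add]

/-- Closed form (as an upper bound) of the cost of a vector orthogonal to the plane. -/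
theorem vertical_bound {V : Submodule ℝ E} (hV : Module.finrank ℝ V = 2) (v : E)
    (hv : V.starProjection v = 0) :
    √(2 * Real.pi) * ∫ x, max (⟪v, x⟫ - ‖V.starProjection x‖) 0 ∂(stdGaussian E)
      ≤ ‖v‖ - Real.arctan ‖v‖ := by
  refine integral_le_of_angle hV (sub_nonneg.2 (arctan_le_self (norm_nonneg _))) ?_
  rw [hv, norm_zero, sub_zero]
  simp only [zero_mul, zero_sub]
  rw [g2_neg_one (norm_nonneg _), lintegral_const, Measure.restrict_apply MeasurableSet.univ,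
    univ_inter, Real.volume_Ioo, ← ENNReal.ofReal_mul (sub_nonneg.2 (arctan_le_self (norm_nonneg _)))]
  apply ENNReal.ofReal_le_ofReal
  apply le_of_eq
  ring

lemma sub_arctan_mono {x y : ℝ} (hx : 0 ≤ x) (hxy : x ≤ y) :
    x - Real.arctan x ≤ y - Real.arctan y := by
  have hm : MonotoneOn (fun t : ℝ => t - Real.arctan t) (Ici 0) := by
    have hd : ∀ t : ℝ, HasDerivAt (fun t : ℝ => t - Real.arctan t) (1 - 1 / (1 + t ^ 2)) t :=
      fun t => (hasDerivAt_id t).sub (Real.hasDerivAt_arctan t)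
    refine monotoneOn_of_deriv_nonneg (convex_Ici 0)
      (fun t _ => (hd t).continuousAt.continuousWithinAt)
      (fun t _ => (hd t).differentiableAt.differentiableWithinAt) fun t _ => ?_
    rw [(hd t).deriv, sub_nonneg, div_le_one (by positivity)]
    nlinarith only []
  exact hm hx (hx.trans hxy) hxy

/-- The vertical bound also holds for vectors of the plane. -/
theorem inplane_bound {V : Submodule ℝ E} (hV : Module.finrank ℝ V = 2) (v : E)
    (hv : V.starProjection v = v) :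
    √(2 * Real.pi) * ∫ x, max (⟪v, x⟫ - ‖V.starProjection x‖) 0 ∂(stdGaussian E)
      ≤ ‖v‖ - Real.arctan ‖v‖ := by
  by_cases h1 : 1 < ‖v‖
  · have h := g2_bound hV v (by rw [hv]; exact h1)
    rw [hv, sub_self, norm_zero, zero_pow two_ne_zero, zero_div, add_zero] at h
    refine h.trans ?_
    have h0 : 0 < ‖v‖ := by linarith only [h1]
    have h2 : Real.arccos (1 / ‖v‖) = Real.arctan √(‖v‖ ^ 2 - 1) := by
      rw [Real.arccos_eq_arctan (by positivity)]
      congr 1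
      have : 1 - (1 / ‖v‖) ^ 2 = (‖v‖ ^ 2 - 1) / ‖v‖ ^ 2 := by
        field_simp
      rw [this, Real.sqrt_div' _ (by positivity), Real.sqrt_sq h0.le]
      field_simp
    rw [h2]
    refine sub_arctan_mono (Real.sqrt_nonneg _) ?_
    rw [Real.sqrt_le_left h0.le]
    linarith only []
  · have h2 : ∀ x : E, max (⟪v, x⟫ - ‖V.starProjection x‖) 0 = 0 := by
      intro x
      apply max_eq_right
      have h3 : ⟪v, x⟫ = ⟪v, V.starProjection x⟫ := by
        have h4 : ⟪v, x - V.starProjection x⟫ = 0 := by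
          rw [real_inner_comm]
          refine Submodule.starProjection_inner_eq_zero x _ ?_
          rw [← hv]
          exact Submodule.starProjection_apply_mem V v
        rw [inner_sub_right] at h4
        (clear hV hv h1; linarith)
      rw [h3]
      have h5 := real_inner_le_norm v (V.starProjection x)
      have h6 : ‖v‖ * ‖V.starProjection x‖ ≤ 1 * ‖V.starProjection x‖ :=
        mul_le_mul_of_nonneg_right (not_lt.1 h1) (norm_nonneg _)
      linarith
    simp_rw [h2]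
    rw [integral_zero, mul_zero]
    exact sub_nonneg.2 (arctan_le_self (norm_nonneg _))

end Vale.Agent.P226.Bound2
end
end

section

section

/-!
# P226: the vertical direction is the most expensive one

For a subspace `V`, among the vectors of given norm the excess `E (⟪v, x⟫ - ‖P_V x‖)₊` is largest
for vectors orthogonal to `V`.
-/

open MeasureTheory ProbabilityTheory
open scoped RealInnerProductSpace

namespace Vale.Agent.P226

open K3

/-- Rearrangement inequality for the positive part. -/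
lemma posPart_swap {x y n k : ℝ} (h1 : y ≤ x) (h2 : k ≤ n) :
    max (x - n) 0 + max (y - k) 0 ≤ max (y - n) 0 + max (x - k) 0 := by
  rcases le_total (x - n) 0 with a | a <;> rcases le_total (y - k) 0 with b | b <;>
    rcases le_total (y - n) 0 with c | c <;> rcases le_total (x - k) 0 with d | d <;>
    simp only [max_eq_left, max_eq_right, a, b, c, d] <;> linarith

lemma posPart_swap' {P Q n k : ℝ} (hn : 0 ≤ n) (hk : 0 ≤ k)
    (h : 0 ≤ (P ^ 2 - Q ^ 2) * (n ^ 2 - k ^ 2)) :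
    max (|P| - n) 0 + max (|Q| - k) 0 ≤ max (|Q| - n) 0 + max (|P| - k) 0 := by
  rw [← sq_abs P, ← sq_abs Q] at h
  have hP := abs_nonneg P
  have hQ := abs_nonneg Q
  rcases le_total |Q| |P| with h1 | h1 <;> rcases le_total k n with h2 | h2
  · exact posPart_swap h1 h2
  · rcases h1.eq_or_lt with h3 | h3
    · rw [h3, add_comm]
    · rcases h2.eq_or_lt with h4 | h4
      · rw [h4, add_comm]
      · exfalso
        have a1 : 0 < |P| ^ 2 - |Q| ^ 2 := by nlinarith only [hQ, h3]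
        have a2 : n ^ 2 - k ^ 2 < 0 := by nlinarith only [hn, h4]
        have := mul_neg_of_pos_of_neg a1 a2
        linarith
  · rcases h1.eq_or_lt with h3 | h3
    · rw [h3, add_comm]
    · rcases h2.eq_or_lt with h4 | h4
      · rw [h4, add_comm]
      · exfalso
        have a1 : |P| ^ 2 - |Q| ^ 2 < 0 := by nlinarith only [hP, h3]
        have a2 : 0 < n ^ 2 - k ^ 2 := by nlinarith only [hk, h4]
        have := mul_neg_of_neg_of_pos a1 a2
        linarith
  · have := posPart_swap h1 h2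
    linarith

variable {E : Type*} [NormedAddCommGroup E] [InnerProductSpace ℝ E] [FiniteDimensional ℝ E]
  [MeasurableSpace E] [BorelSpace E]

lemma integral_comp_isometry (σ : E ≃ₗᵢ[ℝ] E) (f : E → ℝ) :
    ∫ x, f (σ x) ∂(stdGaussian E) = ∫ x, f x ∂(stdGaussian E) := by
  have h := stdGaussian_map (E := E) σ
  conv_rhs => rw [← h]
  exact (σ.toHomeomorph.measurableEmbedding.integral_map f).symm

lemma integrable_norm_proj (V : Submodule ℝ E) :
    Integrable (fun x => ‖V.starProjection x‖) (stdGaussian E) :=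
  (V.starProjection.integrable_comp integrable_id_stdGaussian).norm

/-- Symmetrised form of the excess. -/
lemma two_mul_excess (V : Submodule ℝ E) (v : E) :
    2 * ∫ x, max (⟪v, x⟫ - ‖V.starProjection x‖) 0 ∂(stdGaussian E)
      = ∫ x, max (|⟪v, x⟫| - ‖V.starProjection x‖) 0 ∂(stdGaussian E) := by
  have hi : Integrable (fun x => max (⟪v, x⟫ - ‖V.starProjection x‖) 0) (stdGaussian E) :=
    ((integrable_inner_stdGaussian v).sub (integrable_norm_proj V)).pos_part
  have hi' : Integrable (fun x => max (-⟪v, x⟫ - ‖V.starProjection x‖) 0) (stdGaussian E) :=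
    ((integrable_inner_stdGaussian v).neg.sub (integrable_norm_proj V)).pos_part
  have h1 := integral_comp_isometry (LinearIsometryEquiv.neg ℝ : E ≃ₗᵢ[ℝ] E)
    (fun x => max (⟪v, x⟫ - ‖V.starProjection x‖) 0)
  simp only [LinearIsometryEquiv.coe_neg, inner_neg_right, map_neg, norm_neg] at h1
  rw [two_mul]
  nth_rewrite 2 [← h1]
  rw [← integral_add hi hi']
  refine integral_congr_ae (Filter.Eventually.of_forall fun x => ?_)
  simp only
  have hN := norm_nonneg (V.starProjection x)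
  rcases le_total 0 ⟪v, x⟫ with h | h
  · rw [abs_of_nonneg h, max_eq_right (a := -⟪v, x⟫ - ‖V.starProjection x‖) (by linarith), add_zero]
  · rw [abs_of_nonpos h, max_eq_right (a := ⟪v, x⟫ - ‖V.starProjection x‖) (by linarith), zero_add]

/-- **The vertical direction is the worst.** If the component of `v` orthogonal to `V` is a
nonnegative multiple of `z ∈ Vᗮ` and `‖z‖ = ‖v‖`, then the excess of `v` is at most that of
`z`. -/
theorem vertical_worst {V : Submodule ℝ E} {v z : E} (hz : z ∈ Vᗮ) (hn : ‖z‖ = ‖v‖) {c : ℝ}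
    (hc : 0 ≤ c) (hv : v - V.starProjection v = c • z) :
    ∫ x, max (⟪v, x⟫ - ‖V.starProjection x‖) 0 ∂(stdGaussian E)
      ≤ ∫ x, max (⟪z, x⟫ - ‖V.starProjection x‖) 0 ∂(stdGaussian E) := by
  by_cases hvz : v = z
  · rw [hvz]
  set u : E := V.starProjection v with hu
  have huV : u ∈ V := Submodule.starProjection_apply_mem _ _
  have huz : ⟪u, z⟫ = 0 := hz u huV
  have hzu : ⟪z, u⟫ = 0 := by rw [real_inner_comm]; exact huz
  have hveq : v = u + c • z := by rw [← hv]; abel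
  have hnorm : ‖v‖ ^ 2 = ‖u‖ ^ 2 + c ^ 2 * ‖z‖ ^ 2 := by
    rw [← real_inner_self_eq_norm_sq v, hveq, inner_add_left, inner_add_right, inner_add_right,
      inner_smul_left, inner_smul_right, inner_smul_left, inner_smul_right, huz, hzu,
      real_inner_self_eq_norm_sq, real_inner_self_eq_norm_sq]
    simp
    ring
  have hz0 : z ≠ 0 := by
    rintro rfl
    rw [norm_zero] at hn
    exact hvz (norm_eq_zero.1 hn.symm)
  have hzp : 0 < ‖z‖ := norm_pos_iff.2 hz0
  have hu2 : ‖u‖ ^ 2 = (1 - c ^ 2) * ‖z‖ ^ 2 := by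
    rw [← hn] at hnorm
    linarith only [hnorm]
  have hc1 : c < 1 := by
    by_contra h
    rw [not_lt] at h
    have h1 : 0 ≤ ‖u‖ ^ 2 := sq_nonneg _
    have h2 : (1 - c ^ 2) * ‖z‖ ^ 2 ≤ 0 :=
      mul_nonpos_of_nonpos_of_nonneg (by nlinarith only [h]) (sq_nonneg _)
    have h3 : (1 - c ^ 2) * ‖z‖ ^ 2 = 0 := le_antisymm h2 (hu2 ▸ h1)
    have h4 : ‖u‖ = 0 := by
      rw [h3] at hu2
      exact pow_eq_zero_iff (two_ne_zero) |>.1 hu2
    have h5 : c = 1 := by
      rcases mul_eq_zero.1 h3 with h6 | h6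
      · nlinarith only [h6, hc]
      · exact absurd (pow_eq_zero_iff two_ne_zero |>.1 h6) hzp.ne'
    apply hvz
    rw [hveq, norm_eq_zero.1 h4, h5]
    simp
  -- the two axes
  set n : E := v - z with hnv
  have hnn : ‖n‖ ^ 2 = 2 * (1 - c) * ‖z‖ ^ 2 := by
    have h1 : n = u - (1 - c) • z := by rw [hnv, hveq, sub_smul, one_smul]; abel
    rw [← real_inner_self_eq_norm_sq n, h1, inner_sub_left, inner_sub_right, inner_sub_right,
      inner_smul_left, inner_smul_right, inner_smul_left, inner_smul_right, huz, hzu,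
      real_inner_self_eq_norm_sq, real_inner_self_eq_norm_sq, hu2]
    simp
    ring
  have hnp : 0 < ‖n‖ ^ 2 := by
    rw [hnn]
    have : 0 < 1 - c := by linarith
    positivity
  have hn0 : ‖n‖ ≠ 0 := fun h => by
    rw [h] at hnp
    simp at hnp
  have hvn : ⟪n, v⟫ = ‖n‖ ^ 2 / 2 := by
    have h1 : ‖n‖ ^ 2 = ⟪n, v⟫ - ⟪n, z⟫ := by
      rw [← real_inner_self_eq_norm_sq n]
      nth_rewrite 2 [hnv]
      rw [inner_sub_right]
    have h2 : ⟪n, v⟫ + ⟪n, z⟫ = 0 := by
      rw [hnv, inner_sub_left, inner_sub_left, real_inner_self_eq_norm_sq,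
        real_inner_self_eq_norm_sq, hn, real_inner_comm]
      ring
    linarith only [h1, h2]
  have hzn : ⟪n, z⟫ = -(‖n‖ ^ 2 / 2) := by
    have h1 : ‖n‖ ^ 2 = ⟪n, v⟫ - ⟪n, z⟫ := by
      rw [← real_inner_self_eq_norm_sq n]
      nth_rewrite 2 [hnv]
      rw [inner_sub_right]
    linarith only [hvn, h1]
  set R : E ≃ₗᵢ[ℝ] E := (ℝ ∙ n).reflection with hR
  have hRx : ∀ x, R x = (2 * (⟪n, x⟫ / ‖n‖ ^ 2)) • n - x := by
    intro x
    rw [hR, Submodule.reflection_singleton_apply, ← Nat.cast_smul_eq_nsmul ℝ, smul_smul]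
    simp
  have hRv : ∀ x, ⟪v, R x⟫ = -⟪z, x⟫ := by
    intro x
    rw [hRx, inner_sub_right, inner_smul_right, real_inner_comm n v, hvn]
    have : ⟪n, x⟫ = ⟪v, x⟫ - ⟪z, x⟫ := by rw [hnv, inner_sub_left]
    rw [this]
    field_simp
    ring
  have hRz : ∀ x, ⟪z, R x⟫ = -⟪v, x⟫ := by
    intro x
    rw [hRx, inner_sub_right, inner_smul_right, real_inner_comm n z, hzn]
    have : ⟪n, x⟫ = ⟪v, x⟫ - ⟪z, x⟫ := by rw [hnv, inner_sub_left]
    rw [this]
    field_simp
    ring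
  have hPz : V.starProjection z = 0 := by
    rw [Submodule.starProjection_apply_eq_zero_iff]
    exact hz
  have hPn : V.starProjection n = u := by rw [hnv, map_sub, hPz, sub_zero]
  -- the squared thresholds
  have hN : ∀ x, ‖V.starProjection x‖ ^ 2 - ‖V.starProjection (R x)‖ ^ 2
      = (1 - c) * (⟪v, x⟫ ^ 2 - ⟪z, x⟫ ^ 2) / (‖n‖ ^ 2 / 2) := by
    intro x
    have hux : ⟪u, x⟫ = (1 - c) / 2 * (⟪v, x⟫ + ⟪z, x⟫) + (1 + c) / 2 * (⟪v, x⟫ - ⟪z, x⟫) := by
      have : u = v - c • z := by rw [hveq]; abel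
      rw [this, inner_sub_left, inner_smul_left]
      simp only [Real.ringHom_apply]
      ring
    have hPx' : ⟪u, V.starProjection x⟫ = ⟪u, x⟫ := by
      have h1 : ⟪u, x - V.starProjection x⟫ = 0 :=
        Submodule.sub_starProjection_mem_orthogonal x u huV
      rw [inner_sub_right] at h1
      (clear z hz hn c hc hvz hv hu huV huz hzu hveq hnorm hz0 hzp hu2 hc1 n hnv hnn hnp hn0 hvn hzn R hR hRx hRv hRz hPz hPn hux; linarith)
    have hPx : ⟪V.starProjection x, u⟫ = ⟪u, x⟫ := by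
      rw [real_inner_comm]
      exact hPx'
    have hnx : ⟪n, x⟫ = ⟪v, x⟫ - ⟪z, x⟫ := by rw [hnv, inner_sub_left]
    have e1 : V.starProjection (R x)
        = (2 * (⟪n, x⟫ / ‖n‖ ^ 2)) • u - V.starProjection x := by
      rw [hRx, map_sub, map_smul, hPn]
    rw [e1, ← real_inner_self_eq_norm_sq (_ - _), inner_sub_left, inner_sub_right,
      inner_sub_right, inner_smul_left, inner_smul_right, inner_smul_left, inner_smul_right,
      hPx', hPx, real_inner_self_eq_norm_sq, real_inner_self_eq_norm_sq, hu2, hux,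
      hnx, hnn]
    simp only [conj_trivial]
    have hc1' : (1 - c) ≠ 0 := by linarith only [hc1]
    field_simp
    ring
  have hcomp : ∀ w : E, ∫ x, max (|⟪w, R x⟫| - ‖V.starProjection (R x)‖) 0 ∂(stdGaussian E)
      = ∫ x, max (|⟪w, x⟫| - ‖V.starProjection x‖) 0 ∂(stdGaussian E) := fun w =>
    integral_comp_isometry R (fun x => max (|⟪w, x⟫| - ‖V.starProjection x‖) 0)
  have hint : ∀ w : E, Integrable (fun x => max (|⟪w, x⟫| - ‖V.starProjection x‖) 0)
      (stdGaussian E) := fun w =>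
    ((integrable_inner_stdGaussian w).abs.sub (integrable_norm_proj V)).pos_part
  have hint' : ∀ w : E, Integrable (fun x => max (|⟪w, x⟫| - ‖V.starProjection (R x)‖) 0)
      (stdGaussian E) := by
    intro w
    have h1 : Integrable (fun x => ‖V.starProjection (R x)‖) (stdGaussian E) :=
      ((V.starProjection.comp (R : E →L[ℝ] E)).integrable_comp integrable_id_stdGaussian).norm
    exact ((integrable_inner_stdGaussian w).abs.sub h1).pos_part
  have k1 := hcomp v
  have k2 := hcomp z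
  simp only [hRv, hRz, abs_neg] at k1 k2
  have key : ∫ x, (max (|⟪v, x⟫| - ‖V.starProjection x‖) 0
        + max (|⟪z, x⟫| - ‖V.starProjection (R x)‖) 0) ∂(stdGaussian E)
      ≤ ∫ x, (max (|⟪z, x⟫| - ‖V.starProjection x‖) 0
        + max (|⟪v, x⟫| - ‖V.starProjection (R x)‖) 0) ∂(stdGaussian E) := by
    refine integral_mono ((hint v).add (hint' z)) ((hint z).add (hint' v)) fun x => ?_
    refine posPart_swap' (norm_nonneg _) (norm_nonneg _) ?_
    rw [hN x]
    have h1 : (⟪v, x⟫ ^ 2 - ⟪z, x⟫ ^ 2) * ((1 - c) * (⟪v, x⟫ ^ 2 - ⟪z, x⟫ ^ 2) / (‖n‖ ^ 2 / 2))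
        = (1 - c) * (⟪v, x⟫ ^ 2 - ⟪z, x⟫ ^ 2) ^ 2 / (‖n‖ ^ 2 / 2) := by ring
    rw [h1]
    have : 0 ≤ 1 - c := by linarith only [hc1]
    (clear * - hc1 hn0; positivity)
  rw [integral_add (hint v) (hint' z), integral_add (hint z) (hint' v), k1, k2] at key
  have e1 := two_mul_excess V v
  have e2 := two_mul_excess V z
  (clear hz hn c hc hvz u hv hu huV huz hzu hveq hnorm hz0 hzp hu2 hc1 n hnv hnn hnp hn0 hvn hzn R hR hRx hRv hRz hPz hPn hN hcomp hint hint' k1 k2; linarith)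

/-- Every vector can be replaced by a vertical one of the same norm, if there is one. -/
theorem exists_vertical {V : Submodule ℝ E} (hV : Vᗮ ≠ ⊥) (v : E) :
    ∃ z ∈ Vᗮ, ‖z‖ = ‖v‖ ∧
      ∫ x, max (⟪v, x⟫ - ‖V.starProjection x‖) 0 ∂(stdGaussian E)
        ≤ ∫ x, max (⟪z, x⟫ - ‖V.starProjection x‖) 0 ∂(stdGaussian E) := by
  by_cases hh : v - V.starProjection v = 0
  · obtain ⟨f, hf, hf0⟩ := Submodule.exists_mem_ne_zero_of_ne_bot hV
    have hfn : ‖f‖ ≠ 0 := norm_ne_zero_iff.2 hf0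
    have hz : (‖v‖ / ‖f‖) • f ∈ Vᗮ := Submodule.smul_mem _ _ hf
    have hzn : ‖(‖v‖ / ‖f‖) • f‖ = ‖v‖ := by
      rw [norm_smul, Real.norm_of_nonneg (by positivity)]
      field_simp
    exact ⟨_, hz, hzn, vertical_worst hz hzn le_rfl (by rw [hh, zero_smul])⟩
  · have hhV : v - V.starProjection v ∈ Vᗮ := Submodule.sub_starProjection_mem_orthogonal v
    have hv0 : v ≠ 0 := by
      rintro rfl
      simp at hh
    have hvn : ‖v‖ ≠ 0 := norm_ne_zero_iff.2 hv0
    set h := v - V.starProjection v with hhdef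
    have hhn : ‖h‖ ≠ 0 := norm_ne_zero_iff.2 hh
    have hz : (‖v‖ / ‖h‖) • h ∈ Vᗮ := Submodule.smul_mem _ _ hhV
    have hzn : ‖(‖v‖ / ‖h‖) • h‖ = ‖v‖ := by
      rw [norm_smul, Real.norm_of_nonneg (by positivity)]
      field_simp
    refine ⟨_, hz, hzn, vertical_worst hz hzn (c := ‖h‖ / ‖v‖) (by positivity) ?_⟩
    rw [smul_smul]
    have : ‖h‖ / ‖v‖ * (‖v‖ / ‖h‖) = 1 := by field_simp
    rw [this, one_smul]

end Vale.Agent.P226
end
end

section

section

/-!
# P226: mean norm of the projection on a plane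
-/

open MeasureTheory ProbabilityTheory Set
open scoped ENNReal NNReal RealInnerProductSpace

namespace Vale.Agent.P226.Gauss3

lemma lintegral_rayleigh :
    ∫⁻ w in Ioi (0 : ℝ), ENNReal.ofReal (1 / 2 * Real.exp (-w / 2)) * ENNReal.ofReal (√w)
      = ENNReal.ofReal ((√(2 * Real.pi))⁻¹ * Real.pi) := by
  have h := Real.integral_rpow_mul_exp_neg_mul_Ioi (a := 3 / 2) (r := 1 / 2) (by norm_num)
    (by norm_num)
  have hΓ : Real.Gamma (3 / 2) = 1 / 2 * √Real.pi := by
    have e' : ((3 : ℝ)) / 2 = 1 / 2 + 1 := by norm_num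
    rw [e', Real.Gamma_add_one (by norm_num), Real.Gamma_one_half_eq]
  have e3 : ((1 : ℝ) / (1 / 2)) ^ (3 / 2 : ℝ) = 2 * √2 := by
    have e4 : ((1 : ℝ) / (1 / 2)) = 2 := by norm_num
    have e5 : (3 / 2 : ℝ) = 1 + 1 / 2 := by norm_num
    rw [e4, e5, Real.rpow_add (by norm_num), Real.rpow_one, ← Real.sqrt_eq_rpow]
  rw [hΓ, e3] at h
  have hcongr : ∀ w ∈ Ioi (0 : ℝ), w ^ ((3 / 2 : ℝ) - 1) * Real.exp (-(1 / 2 * w))
      = 2 * (1 / 2 * Real.exp (-w / 2) * √w) := by
    intro w hw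
    have hw' : (0 : ℝ) < w := hw
    have e6 : (3 / 2 : ℝ) - 1 = 1 / 2 := by norm_num
    have e7 : -(1 / 2 * w) = -w / 2 := by ring
    rw [e6, ← Real.sqrt_eq_rpow, e7]
    ring
  have hint : ∫ w in Ioi (0 : ℝ), 1 / 2 * Real.exp (-w / 2) * √w
      = (√(2 * Real.pi))⁻¹ * Real.pi := by
    rw [setIntegral_congr_fun measurableSet_Ioi hcongr, integral_const_mul] at h
    have hs : √(2 * Real.pi) = √2 * √Real.pi := Real.sqrt_mul (by norm_num) _
    have hpp : √Real.pi * √Real.pi = Real.pi := Real.mul_self_sqrt Real.pi_pos.le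
    have h22 : √(2 : ℝ) * √2 = 2 := Real.mul_self_sqrt (by norm_num)
    have hpos : 0 < √(2 * Real.pi) := Real.sqrt_pos.2 (by positivity)
    have h2 : ∫ w in Ioi (0 : ℝ), 1 / 2 * Real.exp (-w / 2) * √w = √2 * √Real.pi / 2 := by
      linarith only [h]
    rw [h2, eq_comm, inv_mul_eq_iff_eq_mul₀ hpos.ne', hs]
    nlinarith only [hpp, h22]
  have hi : IntegrableOn (fun w : ℝ => 1 / 2 * Real.exp (-w / 2) * √w) (Ioi 0) := by
    by_contra hc
    rw [integral_undef hc] at hint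
    have : (0 : ℝ) < (√(2 * Real.pi))⁻¹ * Real.pi := by positivity
    linarith only [hint, this]
  rw [← hint, ofReal_integral_eq_lintegral_ofReal hi
    (Filter.Eventually.of_forall fun w => by positivity)]
  refine lintegral_congr fun w => ?_
  rw [← ENNReal.ofReal_mul (by positivity)]

variable {E : Type*} [NormedAddCommGroup E] [InnerProductSpace ℝ E] [FiniteDimensional ℝ E]
  [MeasurableSpace E] [BorelSpace E]

/-- `E ‖P_V x‖ = π / √(2π)` for a two dimensional subspace `V`. -/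
theorem integral_norm_proj_two {V : Submodule ℝ E} (hV : Module.finrank ℝ V = 2) :
    ∫ x, ‖V.starProjection x‖ ∂(stdGaussian E) = (√(2 * Real.pi))⁻¹ * Real.pi := by
  let b : OrthonormalBasis (Fin 2) ℝ V := (stdOrthonormalBasis ℝ V).reindex (finCongr hV)
  have hb : Orthonormal ℝ (fun i => (b i : E)) :=
    b.orthonormal.comp_linearIsometry V.subtypeₗᵢ
  have hmap := map_inner_pi (fun i => (b i : E)) fun i j hij => hb.2 hij
  have hid : ∀ i, (gaussianReal 0 1).map (fun t => ‖(b i : E)‖ * t) = gaussianReal 0 1 := by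
    intro i
    rw [hb.1 i]; simp
  simp_rw [hid] at hmap
  have hnorm : ∀ x : E, ‖V.starProjection x‖ = √(⟪(b 0 : E), x⟫ ^ 2 + ⟪(b 1 : E), x⟫ ^ 2) := by
    intro x
    have h := b.sum_sq_inner_right (V.orthogonalProjectionOnto x)
    rw [Fin.sum_univ_two] at h
    have h1 : ∀ i, ⟪b i, V.orthogonalProjectionOnto x⟫ = ⟪(b i : E), x⟫ := by
      intro i
      rw [Submodule.inner_orthogonalProjectionOnto_eq_of_mem_left]
    rw [h1, h1] at h
    rw [h, Submodule.starProjection_apply, ← Submodule.coe_norm, Real.sqrt_sq (norm_nonneg _)]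
  rw [integral_eq_lintegral_of_nonneg_ae (Filter.Eventually.of_forall fun x => norm_nonneg _)
    (by (clear hV b hb hid hmap hnorm; fun_prop))]
  let f : (Fin 2 → ℝ) → ℝ≥0∞ := fun y => ENNReal.ofReal (√(y 0 ^ 2 + y 1 ^ 2))
  have hf : Measurable f := by
    simp only [f]
    fun_prop
  have m1 : ∀ {n : ℕ} (a : ℝ), Measurable (fun z : Fin n → ℝ => (Fin.cons a z : Fin (n + 1) → ℝ)) := by
    intro n a
    refine measurable_pi_lambda _ fun i => ?_
    refine Fin.cases ?_ (fun j => ?_) i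
    · simp
    · simpa using measurable_pi_apply j
  have e1 : ∫⁻ x, ENNReal.ofReal ‖V.starProjection x‖ ∂(stdGaussian E)
      = ∫⁻ y, f y ∂((stdGaussian E).map (fun x i => ⟪(b i : E), x⟫)) := by
    rw [lintegral_map hf (by (clear hb hid hmap hnorm f hf m1; fun_prop))]
    refine lintegral_congr fun x => ?_
    simp only [f]
    rw [hnorm]
  have e2 : ∫⁻ y, f y ∂(Measure.pi fun _ : Fin 2 => gaussianReal 0 1)
      = ∫⁻ a, ∫⁻ c, ENNReal.ofReal (√(a ^ 2 + c ^ 2)) ∂(gaussianReal 0 1)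
        ∂(gaussianReal 0 1) := by
    rw [lintegral_pi_succ _ hf]
    refine lintegral_congr fun a => ?_
    rw [lintegral_pi_succ (f := fun z => f (Fin.cons a z)) _ (hf.comp (m1 a))]
    refine lintegral_congr fun c => ?_
    rw [lintegral_pi_zero]
    rfl
  have hm : Measurable fun w : ℝ => ENNReal.ofReal (√w) := by fun_prop
  rw [e1, hmap, e2, lintegral_sq_add_sq hm, lintegral_rayleigh,
    ENNReal.toReal_ofReal (by positivity)]

end Vale.Agent.P226.Gauss3
end
end

section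

section

/-!
# P226: the two dimensional bounds `G2Bound` and `G2vBound`
-/

open MeasureTheory ProbabilityTheory Set
open scoped ENNReal NNReal RealInnerProductSpace

namespace Vale.Agent.P226

variable {E : Type*} [NormedAddCommGroup E] [InnerProductSpace ℝ E] [FiniteDimensional ℝ E]
  [MeasurableSpace E] [BorelSpace E]

/-- The bound (G2) for a plane. -/
theorem G2Bound.of_finrank {V : Submodule ℝ E} (hV : Module.finrank ℝ V = 2) : G2Bound V :=
  fun v hv => Bound2.g2_bound hV v hv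

/-- The bound (G2v) for a plane. -/
theorem G2vBound.of_finrank {V : Submodule ℝ E} (hV : Module.finrank ℝ V = 2) : G2vBound V := by
  intro v
  by_cases h : V.starProjection v = v
  · exact Bound2.inplane_bound hV v h
  · have hVo : Vᗮ ≠ ⊥ := by
      intro hbot
      apply h
      have h1 : v - V.starProjection v ∈ Vᗮ := Submodule.sub_starProjection_mem_orthogonal v
      rw [hbot, Submodule.mem_bot, sub_eq_zero] at h1
      exact h1.symm
    obtain ⟨z, hz, hzn, hle⟩ := exists_vertical hVo v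
    have h2 := mul_le_mul_of_nonneg_left hle (Real.sqrt_nonneg (2 * Real.pi))
    have hz0 : V.starProjection z = 0 := (Submodule.starProjection_apply_eq_zero_iff V).2 hz
    have h3 := Bound2.vertical_bound hV z hz0
    rw [hzn] at h3
    exact h2.trans h3

end Vale.Agent.P226
end
end

section

section

/-!
# P226: the planar certificate (case A)

Real inequality behind the two dimensional threshold function: no configuration with fourth
largest moment at most `0.36` and tail energy at most `0.27` can exceed `9/4`.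
-/

namespace Vale.Agent.P226

open Real

/-- A rational lower bound for the arctangent. -/
lemma arctan_lower {s : ℝ} (hs : 0 ≤ s) :
    s * (105 + 55 * s ^ 2) / (105 + 90 * s ^ 2 + 9 * s ^ 4) ≤ arctan s := by
  have hD : ∀ t : ℝ, 0 < 105 + 90 * t ^ 2 + 9 * t ^ 4 := fun t => by positivity
  have hder : ∀ t : ℝ, HasDerivAt
      (fun t : ℝ => arctan t - t * (105 + 55 * t ^ 2) / (105 + 90 * t ^ 2 + 9 * t ^ 4))
      (576 * t ^ 8 / ((1 + t ^ 2) * (105 + 90 * t ^ 2 + 9 * t ^ 4) ^ 2)) t := by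
    intro t
    have h1 : HasDerivAt (fun t : ℝ => t * (105 + 55 * t ^ 2)) (105 + 165 * t ^ 2) t := by
      have h := (hasDerivAt_id t).mul (((hasDerivAt_pow 2 t).const_mul 55).const_add 105)
      convert! h using 1
      simp
      ring
    have h2 : HasDerivAt (fun t : ℝ => 105 + 90 * t ^ 2 + 9 * t ^ 4)
        (180 * t + 36 * t ^ 3) t := by
      have h := (((hasDerivAt_pow 2 t).const_mul 90).const_add 105).add
        ((hasDerivAt_pow 4 t).const_mul 9)
      convert! h using 1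
      simp only [Nat.cast_ofNat, Nat.add_one_sub_one, pow_one]
      ring
    have h3 := (hasDerivAt_arctan t).sub (h1.div h2 (hD t).ne')
    convert! h3 using 1
    have := hD t
    have h4 : (1 + t ^ 2) ≠ 0 := by positivity
    field_simp
    ring
  have hmono : Monotone
      (fun t : ℝ => arctan t - t * (105 + 55 * t ^ 2) / (105 + 90 * t ^ 2 + 9 * t ^ 4)) := by
    apply monotone_of_deriv_nonneg
    · exact fun t => (hder t).differentiableAt
    · intro t
      rw [(hder t).deriv]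
      have := hD t
      (clear * -; positivity)
  have h := hmono hs
  simp only [arctan_zero, zero_mul, zero_div, sub_zero] at h
  linarith only [h]

/-- A vertical cell of size at most `9/25` uses a definite amount of the budget. -/
lemma Vert2.le {ζ n : ℝ} (h : Vert2 ζ n) (h0 : 0 ≤ ζ) (h1 : ζ ≤ 9 / 25) :
    1.255 * ζ ^ 2 ≤ n := by
  set s := √(ζ / (1 - ζ)) with hs
  have h1ζ : 0 < 1 - ζ := by linarith only [h1]
  have hs0 : 0 ≤ s := sqrt_nonneg _
  have hs2 : s ^ 2 = ζ / (1 - ζ) := sq_sqrt (by positivity)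
  have hζ : ζ = s ^ 2 / (1 + s ^ 2) := by
    rw [hs2]
    field_simp
    ring
  have hs34 : s ≤ 3 / 4 := by
    apply abs_le_of_sq_le_sq' _ (by norm_num) |>.2
    rw [hs2, div_le_iff₀ h1ζ]
    linarith only [h1]
  have h2 := h s hs0
  have h3 := arctan_lower hs0
  have h4 : 0 < 1 + s ^ 2 := by (clear * -; positivity)
  have h5 : 0 < 105 + 90 * s ^ 2 + 9 * s ^ 4 := by (clear * -; positivity)
  have h6 : 1.255 * ζ ^ 2 ≤
      s * (105 + 55 * s ^ 2) / (105 + 90 * s ^ 2 + 9 * s ^ 4) - s * (1 - ζ) := by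
    rw [hζ]
    have hp : 0 ≤ 70 + 116 * s ^ 2 + 46 * s ^ 4 - 131.775 * s - 112.95 * s ^ 3
        - 11.295 * s ^ 5 := by
      have ht : 0 ≤ 3 / 4 - s := by linarith only [hs34]
      nlinarith only [hs0, ht, mul_nonneg (mul_nonneg (mul_nonneg (mul_nonneg hs0 hs0) hs0) hs0) ht]
    have he : s * (105 + 55 * s ^ 2) / (105 + 90 * s ^ 2 + 9 * s ^ 4)
        - s * (1 - s ^ 2 / (1 + s ^ 2)) - 1.255 * (s ^ 2 / (1 + s ^ 2)) ^ 2
        = s ^ 3 * (70 + 116 * s ^ 2 + 46 * s ^ 4 - 131.775 * s - 112.95 * s ^ 3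
        - 11.295 * s ^ 5) / ((105 + 90 * s ^ 2 + 9 * s ^ 4) * (1 + s ^ 2) ^ 2) := by
      field_simp
      ring
    have hn : 0 ≤ s ^ 3 * (70 + 116 * s ^ 2 + 46 * s ^ 4 - 131.775 * s - 112.95 * s ^ 3
        - 11.295 * s ^ 5) / ((105 + 90 * s ^ 2 + 9 * s ^ 4) * (1 + s ^ 2) ^ 2) := by
      apply div_nonneg (mul_nonneg (pow_nonneg hs0 3) hp) (by (clear * -; positivity))
    linarith only [he, hn]
  linarith only [h2, h3, h6]

/-- A big cell is controlled by the sine of its budget. -/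
lemma InV2.le {a H n : ℝ} (h : InV2 a H n) (hn : 0 ≤ n) :
    a ≤ (1 - H / 2) * sin (min n (π / 2)) := by
  have hπ := pi_pos
  rcases le_total n (π / 2) with hc | hc
  · rw [min_eq_left hc]
    have := h n hn hc
    linarith
  · rw [min_eq_right hc]
    have := h (π / 2) (by positivity) le_rfl
    rw [cos_pi_div_two] at this
    linarith only [this]

lemma sin_sq_add_sin_sq (x y : ℝ) :
    sin x ^ 2 + sin y ^ 2 = 1 - cos (x + y) * cos (x - y) := by
  rw [cos_add, cos_sub]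
  nlinarith [sin_sq_add_cos_sq x, sin_sq_add_cos_sq y]

/-- Trigonometric core, ordered version. -/
lemma trig_core_ordered {x y z B : ℝ} (hx : 0 ≤ x) (hy : 0 ≤ y)
    (hzπ : z ≤ π / 2) (hxz : x ≤ z) (hyz : y ≤ z) (hB : 0 ≤ B) (hB1 : B ≤ 1 / 2)
    (hsum : x + y + z ≤ π - B) :
    sin x ^ 2 + sin y ^ 2 + sin z ^ 2 ≤ 1 + cos B ∨
      sin x ^ 2 + sin y ^ 2 + sin z ^ 2 ≤ 3 * sin ((π - B) / 3) ^ 2 := by
  have hπ := pi_gt_three
  have hz : 0 ≤ z := hx.trans hxz
  rcases le_or_gt (x + y) (π / 2) with hc | hc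
  · left
    have h1 : sin x ^ 2 + sin y ^ 2 ≤ sin (x + y) ^ 2 := by
      have h2 : sin (x + y) ^ 2 - (sin x ^ 2 + sin y ^ 2)
          = 2 * sin x * sin y * cos (x + y) := by
        rw [sin_add, cos_add]
        nlinarith only [congrArg (fun u => sin x ^ 2 * u) (sin_sq_add_cos_sq y), congrArg (fun u => sin y ^ 2 * u) (sin_sq_add_cos_sq x)]
      have h3 : 0 ≤ sin x := sin_nonneg_of_nonneg_of_le_pi hx (by linarith only [hzπ, hxz, hπ])
      have h4 : 0 ≤ sin y := sin_nonneg_of_nonneg_of_le_pi hy (by linarith only [hzπ, hyz, hπ])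
      have h5 : 0 ≤ cos (x + y) := cos_nonneg_of_neg_pi_div_two_le_of_le (by linarith only [hx, hy, hπ]) hc
      have h6 : 0 ≤ 2 * sin x * sin y * cos (x + y) := by (clear * - h3 h4 h5; positivity)
      linarith only [h2, h6]
    have h7 : sin (x + y) ^ 2 + sin z ^ 2 ≤ 1 + cos B := by
      rw [sin_sq_add_sin_sq]
      have h8 : -cos B ≤ cos (x + y + z) := by
        rw [← cos_pi_sub]
        exact cos_le_cos_of_nonneg_of_le_pi (by linarith only [hx, hy, hxz]) (by linarith only [hB]) (by linarith only [hsum])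
      have h9 := abs_cos_le_one (x + y - z)
      have h10 : 0 ≤ cos B := cos_nonneg_of_neg_pi_div_two_le_of_le (by linarith only [hB, hπ]) (by linarith only [hB1, hπ])
      have h11 : 0 ≤ cos (x + y - z) :=
        cos_nonneg_of_neg_pi_div_two_le_of_le (by linarith only [hx, hy, hzπ]) (by linarith only [hzπ, hxz, hyz])
      have h12 := (abs_le.1 h9).2
      nlinarith only [h8, h11, h10, h12]
    linarith only [h1, h7]
  · right
    set t := π - B - (x + y) with ht
    set t0 := (π - B) / 3 with ht0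
    have hzt : z ≤ t := by linarith only [hsum]
    have ht1 : t0 ≤ t := by
      have : x + y ≤ 2 * t := by linarith only [hxz, hyz, hsum]
      rw [ht0]; linarith only [hxz, hyz, hsum]
    have ht2 : t + B ≤ π / 2 := by rw [ht]; linarith only [hc]
    have h1 : sin z ^ 2 ≤ sin t ^ 2 := by
      have h2 : 0 ≤ sin z := sin_nonneg_of_nonneg_of_le_pi hz (by linarith only [hB, hsum, hπ, hc])
      have h3 : sin z ≤ sin t := sin_le_sin_of_le_of_le_pi_div_two (by linarith only [hx, hxz, hπ]) (by linarith only [hB, hc]) hzt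
      (clear * - h2 h3; gcongr)
    have h4 : sin x ^ 2 + sin y ^ 2 ≤ 1 + cos (t + B) := by
      rw [sin_sq_add_sin_sq]
      have h5 : cos (t + B) = -cos (x + y) := by
        rw [← cos_pi_sub]
        congr 1
        rw [ht]; ring
      have h6 : cos (x + y) ≤ 0 := cos_nonpos_of_pi_div_two_le_of_le hc.le (by linarith only [hx, hxz, hB, hsum, hπ])
      have h7 := (abs_le.1 (abs_cos_le_one (x - y))).2
      rw [h5]
      nlinarith only [h6, h7]
    have h8 : 1 + cos (t + B) + sin t ^ 2 ≤ 3 * sin t0 ^ 2 := by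
      set m := (t + t0) / 2 with hm
      set δ := (t - t0) / 2 with hδ
      have e1 : t = m + δ := by rw [hm, hδ]; ring
      have e2 : t0 = m - δ := by rw [hm, hδ]; ring
      have hδ0 : 0 ≤ δ := by rw [hδ]; linarith only [hxz, hyz, hsum, ht0]
      have hδ1 : δ ≤ π / 2 := by rw [hδ]; linarith only [hB, hπ, hc, ht0]
      have h9 : cos (t0 + B) = -cos (2 * t0) := by
        rw [← cos_pi_sub]
        congr 1
        rw [ht0]; ring
      have h10 : cos (2 * t0) = 1 - 2 * sin t0 ^ 2 := by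
        rw [cos_two_mul, ← sin_sq_add_cos_sq t0]; ring
      have h11 : sin (2 * m) * cos δ ≤ sin (m + B) := by
        have h12 : sin (2 * m) = sin (π - 2 * m) := (sin_pi_sub _).symm
        have h13 : sin (π - 2 * m) ≤ sin (m + B) := by
          apply sin_le_sin_of_le_of_le_pi_div_two
          · rw [hm]; linarith only [hB, hπ, hc, ht0]
          · rw [hm]; linarith only [hxz, hyz, hsum, hc, ht0]
          · rw [hm, ht0] at *; linarith only [hxz, hyz, hsum]
        have h14 : 0 ≤ sin (2 * m) := by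
          apply sin_nonneg_of_nonneg_of_le_pi
          · rw [hm]; linarith only [hx, hxz, hsum, hπ, hc, ht0]
          · rw [hm]; linarith only [hB, hπ, hc, ht0]
        have h15 := (abs_le.1 (abs_cos_le_one δ)).2
        nlinarith only [h12, h13, h14, h15]
      have h16 : 0 ≤ sin δ := sin_nonneg_of_nonneg_of_le_pi hδ0 (by linarith only [hB, hπ, hc, ht0, hδ])
      have h17 : cos (t + B) + sin t ^ 2 - cos (t0 + B) - sin t0 ^ 2
          = 2 * sin δ * (sin (2 * m) * cos δ - sin (m + B)) := by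
        have e3 : cos (t + B) - cos (t0 + B) = -2 * sin (m + B) * sin δ := by
          rw [cos_sub_cos]
          congr 2
          · rw [e1, e2]; ring_nf
          · rw [e1, e2]; ring
        have e4 : sin t ^ 2 - sin t0 ^ 2 = 2 * sin δ * (sin (2 * m) * cos δ) := by
          rw [e1, e2, sin_add, sin_sub, sin_two_mul]
          ring
        linarith only [e3, e4]
      have h18 : 2 * sin δ * (sin (2 * m) * cos δ - sin (m + B)) ≤ 0 := by
        apply mul_nonpos_of_nonneg_of_nonpos (by (clear * - h16; positivity))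
        linarith only [h11]
      linarith only [h9, h10, h17, h18]
    linarith only [h1, h4, h8]

/-- Trigonometric core. -/
lemma trig_core {x y z B : ℝ} (hx : 0 ≤ x) (hy : 0 ≤ y) (hz : 0 ≤ z)
    (hxπ : x ≤ π / 2) (hyπ : y ≤ π / 2) (hzπ : z ≤ π / 2) (hB : 0 ≤ B) (hB1 : B ≤ 1 / 2)
    (hsum : x + y + z ≤ π - B) :
    sin x ^ 2 + sin y ^ 2 + sin z ^ 2 ≤ 1 + cos B ∨
      sin x ^ 2 + sin y ^ 2 + sin z ^ 2 ≤ 3 * sin ((π - B) / 3) ^ 2 := by
  rcases le_total x z with h1 | h1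
  · rcases le_total y z with h2 | h2
    · exact trig_core_ordered hx hy hzπ h1 h2 hB hB1 hsum
    · have h := trig_core_ordered hx hz hyπ (h1.trans h2) h2 hB hB1 (by linarith only [hsum])
      rcases h with h | h
      · left; linarith only [h]
      · right; linarith only [h]
  · rcases le_total y x with h2 | h2
    · have h := trig_core_ordered hy hz hxπ h2 h1 hB hB1 (by linarith only [hsum])
      rcases h with h | h
      · left; linarith only [h]
      · right; linarith only [h]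
    · have h := trig_core_ordered hx hz hyπ h2 (h1.trans h2) hB hB1 (by linarith only [hsum])
      rcases h with h | h
      · left; linarith only [h]
      · right; linarith only [h]

/-- Monotonicity in the common orthogonal component. -/
lemma mono_H {Q H σ : ℝ} (hQ0 : 0 ≤ Q) (hQ : Q ≤ 3) (hH : 0 ≤ H) (hσ : 9 * H ≤ σ) :
    (1 - H / 2) ^ 2 * Q + 3 * H + σ ≤ (1 - σ / 18) ^ 2 * Q + 4 / 3 * σ := by
  have h1 : 0 ≤ (σ / 9 - H) := by linarith
  have h2 : 0 ≤ 3 - Q + Q * (σ / 9 + H) / 4 := by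
    have : 0 ≤ Q * (σ / 9 + H) / 4 := by
      have : 0 ≤ σ / 9 + H := by linarith only [hH, hσ]
      positivity
    linarith only [hQ, this]
  nlinarith only [h1, h2]

lemma three_sin_sq (B : ℝ) :
    3 * sin ((π - B) / 3) ^ 2
      = 3 / 2 + 3 / 4 * cos (2 * B / 3) - 3 / 4 * √3 * sin (2 * B / 3) := by
  have h1 : sin ((π - B) / 3) ^ 2 = (1 - cos (2 * ((π - B) / 3))) / 2 := by
    rw [cos_two_mul]
    have := sin_sq_add_cos_sq ((π - B) / 3)
    linarith only [this]
  have h2 : cos (2 * ((π - B) / 3)) = -(1 / 2) * cos (2 * B / 3) + √3 / 2 * sin (2 * B / 3) := by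
    have h3 : 2 * ((π - B) / 3) = π - (π / 3 + 2 * B / 3) := by ring
    rw [h3, cos_pi_sub, cos_add, cos_pi_div_three, sin_pi_div_three]
    ring
  rw [h1, h2]
  ring

lemma numeric_one {σ : ℝ} (h0 : 0 ≤ σ) (h1 : σ ≤ 0.27) :
    (1 - σ / 18) ^ 2 * (1 + cos (1.255 * σ)) + 4 / 3 * σ ≤ 9 / 4 := by
  have hb := (abs_le.1 (cos_bound (x := 1.255 * σ) (by rw [abs_of_nonneg (by positivity)]; linarith))).2
  rw [abs_of_nonneg (by positivity : 0 ≤ 1.255 * σ)] at hb
  have h2 : 1 + cos (1.255 * σ) ≤ 2 - 0.787512 * σ ^ 2 + 0.13 * σ ^ 4 := by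
    nlinarith only [hb]
  have h3 : (1 - σ / 18) ^ 2 * (1 + cos (1.255 * σ))
      ≤ (1 - σ / 18) ^ 2 * (2 - 0.787512 * σ ^ 2 + 0.13 * σ ^ 4) := by
    gcongr
  have ht : 0 ≤ 0.27 - σ := by linarith only [h1]
  nlinarith only [h3, ht, mul_nonneg (pow_nonneg h0 5) ht]

lemma numeric_two {σ : ℝ} (h0 : 0 ≤ σ) (h1 : σ ≤ 0.27) :
    (1 - σ / 18) ^ 2 * (3 * sin ((π - 1.255 * σ) / 3) ^ 2) + 4 / 3 * σ ≤ 9 / 4 := by
  rw [three_sin_sq]
  set v := 2 * (1.255 * σ) / 3 with hv
  have hv0 : 0 ≤ v := by positivity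
  have hv1 : v ≤ 1 / 4 := by rw [hv]; linarith only [h1]
  have hc := (abs_le.1 (cos_bound (x := v) (by rw [abs_of_nonneg hv0]; linarith only [h1, hv]))).2
  have hs := (abs_le.1 (sin_bound (x := v) (by rw [abs_of_nonneg hv0]; linarith only [h1, hv]))).1
  rw [abs_of_nonneg hv0] at hc hs
  have h3 : (1.732 : ℝ) ≤ √3 := by
    apply le_sqrt_of_sq_le
    norm_num
  have hsin : 0 ≤ sin v := sin_nonneg_of_nonneg_of_le_pi hv0 (by linarith only [h1, hv, pi_gt_three])
  have h4 : 3 / 2 + 3 / 4 * cos v - 3 / 4 * √3 * sin v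
      ≤ 9 / 4 - 3 / 8 * v ^ 2 + 3 / 4 * (v ^ 4 * (5 / 96))
        - 1.299 * (v - v ^ 3 / 6 - v ^ 5 / 100) := by
    nlinarith only [hc, hs, h3, hsin]
  have h5 : (1 - σ / 18) ^ 2 * (3 / 2 + 3 / 4 * cos v - 3 / 4 * √3 * sin v)
      ≤ (1 - σ / 18) ^ 2 * (9 / 4 - 3 / 8 * v ^ 2 + 3 / 4 * (v ^ 4 * (5 / 96))
        - 1.299 * (v - v ^ 3 / 6 - v ^ 5 / 100)) := by
    (clear * - h4; gcongr)
  have ht : 0 ≤ 0.27 - σ := by linarith only [h1]
  have h6 : (1 - σ / 18) ^ 2 * (9 / 4 - 3 / 8 * v ^ 2 + 3 / 4 * (v ^ 4 * (5 / 96))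
        - 1.299 * (v - v ^ 3 / 6 - v ^ 5 / 100)) + 4 / 3 * σ ≤ 9 / 4 := by
    rw [hv]
    nlinarith only [h0, ht, mul_nonneg (pow_nonneg h0 3) ht, mul_nonneg (pow_nonneg h0 5) ht]
  linarith only [h5, h6]

/-- The real inequality of case A. -/
theorem caseA_real {x y z σ H : ℝ} (hx : 0 ≤ x) (hy : 0 ≤ y) (hz : 0 ≤ z)
    (hxπ : x ≤ π / 2) (hyπ : y ≤ π / 2) (hzπ : z ≤ π / 2) (hσ0 : 0 ≤ σ) (hσ : σ ≤ 0.27)
    (hH0 : 0 ≤ H) (hH : 9 * H ≤ σ) (hsum : x + y + z ≤ π - 1.255 * σ) :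
    (1 - H / 2) ^ 2 * (sin x ^ 2 + sin y ^ 2 + sin z ^ 2) + 3 * H + σ ≤ 9 / 4 := by
  have hQ0 : 0 ≤ sin x ^ 2 + sin y ^ 2 + sin z ^ 2 := by (clear * -; positivity)
  have hQ3 : sin x ^ 2 + sin y ^ 2 + sin z ^ 2 ≤ 3 := by
    linarith only [sin_sq_le_one x, sin_sq_le_one y, sin_sq_le_one z]
  have h1 := mono_H hQ0 hQ3 hH0 hH
  rcases trig_core hx hy hz hxπ hyπ hzπ (by positivity : 0 ≤ 1.255 * σ) (by linarith only [hσ]) hsum
    with h | h
  · have h2 : (1 - σ / 18) ^ 2 * (sin x ^ 2 + sin y ^ 2 + sin z ^ 2)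
        ≤ (1 - σ / 18) ^ 2 * (1 + cos (1.255 * σ)) := by (clear * - h; gcongr)
    have := numeric_one hσ0 hσ
    linarith only [h1, h2, this]
  · have h2 : (1 - σ / 18) ^ 2 * (sin x ^ 2 + sin y ^ 2 + sin z ^ 2)
        ≤ (1 - σ / 18) ^ 2 * (3 * sin ((π - 1.255 * σ) / 3) ^ 2) := by (clear * - h; gcongr)
    have := numeric_two hσ0 hσ
    linarith only [h1, h2, this]

/-- Case A: fourth largest moment at most `0.36` and tail energy at most `0.27`. -/
theorem Aff3.caseA {m : ℕ} {ζ n : Fin (m + 4) → ℝ} {H : ℝ} (h : Aff3 ζ n H)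
    (h3 : ζ 3 ≤ 0.36) (hσ : ∑ i : Fin (m + 1), ζ i.succ.succ.succ ^ 2 ≤ 0.27) : False := by
  have hπ := pi_pos
  set σ := ∑ i : Fin (m + 1), ζ i.succ.succ.succ ^ 2 with hσdef
  have hσ0 : 0 ≤ σ := Finset.sum_nonneg fun i _ => by positivity
  have hH0 := h.H_nonneg
  have hH9 := h.H_tail
  have hH : H ≤ 0.03 := by linarith only [hσ, hH9]
  -- tail cells
  have htail : ∀ i : Fin (m + 1), 1.255 * ζ i.succ.succ.succ ^ 2 ≤ n i.succ.succ.succ := by
    intro i
    apply (h.vert _).le (h.nonneg _)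
    have h4 : ζ i.succ.succ.succ ≤ ζ 3 := by
      apply h.anti
      change (0 : Fin (m + 1)).succ.succ.succ ≤ i.succ.succ.succ
      simp only [Fin.succ_le_succ_iff]
      exact Fin.zero_le i
    linarith only [h3, h4]
  have htailsum : 1.255 * σ ≤ ∑ i : Fin (m + 1), n i.succ.succ.succ := by
    rw [hσdef, Finset.mul_sum]
    exact Finset.sum_le_sum fun i _ => htail i
  have hsumn := h.sum
  rw [sum_split3] at hsumn
  have hbig := h.big
  rw [sum_split3 (fun i => ζ i ^ 2)] at hbig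
  -- big cells
  have hcell : ∀ j : Fin (m + 4), InV2 (√(ζ j ^ 2 - H)) H (n j) → H ≤ ζ j ^ 2 →
      ζ j ^ 2 ≤ (1 - H / 2) ^ 2 * sin (min (n j) (π / 2)) ^ 2 + H := by
    intro j hj hHj
    have h5 := hj.le (h.n_nonneg j)
    have h6 : √(ζ j ^ 2 - H) ^ 2 = ζ j ^ 2 - H := sq_sqrt (by linarith only [hHj])
    have h7 : √(ζ j ^ 2 - H) ^ 2 ≤ ((1 - H / 2) * sin (min (n j) (π / 2))) ^ 2 := by
      (clear * - h5; gcongr)
    rw [mul_pow] at h7
    linarith only [h6, h7]
  have hle : ∀ j : Fin (m + 4), j ≤ 2 → H ≤ ζ j ^ 2 := by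
    intro j hj
    have h8 : ζ 2 ≤ ζ j := h.anti hj
    have h9 := h.H_le2
    have h10 := h.nonneg 2
    nlinarith only [h9, h8, h10]
  have c0 := hcell 0 h.in0 (hle 0 (by simp))
  have c1 := hcell 1 h.in1 (hle 1 (by
    change (0 : Fin (m + 3)).succ ≤ (1 : Fin (m + 3)).succ
    simp only [Fin.succ_le_succ_iff]
    exact Fin.zero_le _))
  have c2 := hcell 2 h.in2 (hle 2 le_rfl)
  have hmin0 : ∀ j : Fin (m + 4), 0 ≤ min (n j) (π / 2) := fun j =>
    le_min (h.n_nonneg j) (by positivity)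
  have hfin := caseA_real (hmin0 0) (hmin0 1) (hmin0 2) (min_le_right _ _) (min_le_right _ _)
    (min_le_right _ _) hσ0 hσ hH0 hH9 (by
      have a0 : min (n 0) (π / 2) ≤ n 0 := min_le_left _ _
      have a1 : min (n 1) (π / 2) ≤ n 1 := min_le_left _ _
      have a2 : min (n 2) (π / 2) ≤ n 2 := min_le_left _ _
      linarith only [htailsum, hsumn, a0, a1, a2])
  linarith only [hbig, c0, c1, c2, hfin]

end Vale.Agent.P226
end
end

section

section

/-!
# P226: real inequalities of case B (three dimensional certificate)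

Everything in this file is elementary real algebra.

* `TopCell z H n`: data of one of the four largest cells (`z` rescaled norm of the moment, `H`
  squared rescaled common tilt, `n` mass of `‖P_V x‖` on the cell).
* `TailCell t n`: data of one of the other cells.
-/

namespace Vale.Agent.P226.CaseB

/-- Cell inequality for a cell whose moment has in-plane length `a` and squared tilt `H`. -/
def TopCell (z H n : ℝ) : Prop :=
  ∃ a, 0 ≤ a ∧ a ^ 2 + H = z ^ 2 ∧ ∀ x, 0 < x → x ≤ 1 → a + H / 2 ≤ x * n + (1 - x) ^ 2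

/-- Cell inequality for a cell whose moment has length `t`, no information on the tilt. -/
def TailCell (t n : ℝ) : Prop :=
  0 ≤ t ∧ ∀ c, 0 < c → c ≤ 1 → t * √(1 - c ^ 2) ≤ c * n + (1 - c) ^ 2

/-! ### Consequences of the cell inequalities -/

lemma le_one_of_forall {e n : ℝ} (h : ∀ x, 0 < x → x ≤ 1 → e ≤ x * n + (1 - x) ^ 2) : e ≤ 1 := by
  by_contra hc
  push Not at hc
  have hp : 0 < |n| + 2 + e := by positivity
  have hx1 : (e - 1) / (|n| + 2 + e) ≤ 1 := by
    rw [div_le_one hp]; have := abs_nonneg n; linarith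
  have hx0 : 0 < (e - 1) / (|n| + 2 + e) := div_pos (by linarith) hp
  have h1 := h _ hx0 hx1
  set x := (e - 1) / (|n| + 2 + e) with hx
  have h2 : x * (|n| + 2 + e) = e - 1 := by rw [hx]; field_simp
  have h3 : x * n ≤ x * |n| := mul_le_mul_of_nonneg_left (le_abs_self n) hx0.le
  nlinarith only [hx0, h1, h2, h3, hc, hx1]

/-- The basic consequence of the family of cell inequalities. -/
lemma two_sub_le {e n : ℝ} (h : ∀ x, 0 < x → x ≤ 1 → e ≤ x * n + (1 - x) ^ 2) (he : 0 ≤ e) :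
    2 - 2 * √(1 - e) ≤ n := by
  have he1 := le_one_of_forall h
  rcases he1.lt_or_eq with h1 | h1
  · have hx : 0 < √(1 - e) := Real.sqrt_pos.2 (by linarith)
    have hx1 : √(1 - e) ≤ 1 := Real.sqrt_le_one.2 (by linarith)
    have h2 := h _ hx hx1
    have h3 : √(1 - e) ^ 2 = 1 - e := Real.sq_sqrt (by linarith)
    have h4 : √(1 - e) * (2 - 2 * √(1 - e)) ≤ √(1 - e) * n := by linarith
    exact le_of_mul_le_mul_left h4 hx
  · subst h1
    have h5 : √(1 - (1 : ℝ)) = 0 := by simp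
    rw [h5]
    by_contra hc
    push Not at hc
    have h6 : 0 < min 1 ((2 - n) / 2) := lt_min one_pos (by linarith only [hc])
    have h7 := h _ h6 (min_le_left _ _)
    have h8 : min 1 ((2 - n) / 2) ≤ (2 - n) / 2 := min_le_right _ _
    nlinarith only [h7, h6, h8]

/-- The data used below for a top cell, in terms of `x = √(1 - (a + H/2))`. -/
lemma TopCell.exists_x {z H n : ℝ} (h : TopCell z H n) (hH : 0 ≤ H) :
    ∃ x a, 0 ≤ x ∧ x ≤ 1 ∧ 0 ≤ a ∧ a ^ 2 + H = z ^ 2 ∧ a + H / 2 = 1 - x ^ 2 ∧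
      2 * (1 - x) ≤ n := by
  obtain ⟨a, ha, haz, hx⟩ := h
  have h0 : 0 ≤ a + H / 2 := by linarith
  have h1 := le_one_of_forall hx
  have h2 := two_sub_le hx h0
  have h3 : √(1 - (a + H / 2)) ^ 2 = 1 - (a + H / 2) := Real.sq_sqrt (by linarith only [h1])
  exact ⟨√(1 - (a + H / 2)), a, Real.sqrt_nonneg _, Real.sqrt_le_one.2 (by linarith only [hH, ha]), ha, haz,
    by linarith only [h3], by linarith only [h2]⟩

/-- Linear lower bound for the mass of a top cell, from bounds at `H = 0` and `H = 1/16`. -/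
lemma TopCell.linear {z H n p μ ν xm lo : ℝ} (h : TopCell z H n) (hH : 0 ≤ H) (hH1 : H ≤ 1 / 16)
    (hμ : 0 ≤ μ) (hxm0 : 0 ≤ xm) (hlo : 0 ≤ lo) (hz : lo ≤ z)
    (hE : (1 - xm ^ 2) ^ 2 + xm ^ 2 / 16 + 1 / 1024 ≤ lo ^ 2)
    (hg : ∀ x, 0 ≤ x → x ≤ xm → p + μ * (1 - x ^ 2) ^ 2 ≤ 2 * (1 - x))
    (hU : ∀ x, 0 ≤ x → x ≤ xm →
      p + μ * ((1 - x ^ 2) ^ 2 + x ^ 2 / 16 + 1 / 1024) - ν / 16 ≤ 2 * (1 - x)) :
    p + μ * z ^ 2 - ν * H ≤ n := by
  obtain ⟨x, a, hx0, hx1, ha, haz, hax, hn⟩ := h.exists_x hH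
  have hxxm : x ≤ xm := by
    by_contra hc
    push Not at hc
    have h1 : xm ^ 2 < x ^ 2 := by nlinarith only [hxm0, hc, hlo, hz, ha]
    have h2 : a < (1 - xm ^ 2) - H / 2 := by linarith only [hax, h1]
    have h3 : a ^ 2 < ((1 - xm ^ 2) - H / 2) ^ 2 := by nlinarith only [hax, hz, ha, h1]
    have h4 : lo ^ 2 ≤ z ^ 2 := by nlinarith only [hlo, hz]
    have h5 : ((1 - xm ^ 2) - H / 2) ^ 2 + H ≤ (1 - xm ^ 2) ^ 2 + xm ^ 2 / 16 + 1 / 1024 := by
      nlinarith only [hH1, hH]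
    linarith only [hE, haz, h3, h4, h5]
  have hz2 : z ^ 2 = (1 - x ^ 2) ^ 2 + H * x ^ 2 + H ^ 2 / 4 := by
    rw [← haz]
    have : a = 1 - x ^ 2 - H / 2 := by linarith only [hax]
    rw [this]; ring
  have e1 := mul_le_mul_of_nonneg_left (hg x hx0 hxxm) (by linarith only [hH1] : 0 ≤ 1 - 16 * H)
  have e2 := mul_le_mul_of_nonneg_left (hU x hx0 hxxm) (by linarith only [hH] : 0 ≤ 16 * H)
  have e3 : μ * H ^ 2 / 4 ≤ μ * H / 64 := by nlinarith only [hH1, mul_nonneg hμ hH]
  rw [hz2]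
  linarith

/-- Bound for the fourth cell: tangent at `x₀`. -/
lemma TopCell.tangent {z H n : ℝ} (h : TopCell z H n) (hH : 0 ≤ H) {x₀ : ℝ} (hx₀ : 0 < x₀) :
    ∃ a, 0 ≤ a ∧ a ^ 2 + H = z ^ 2 ∧ (a + H / 2 - (1 - x₀) ^ 2) / x₀ ≤ n := by
  obtain ⟨x, a, hx0, hx1, ha, haz, hax, hn⟩ := h.exists_x hH
  refine ⟨a, ha, haz, ?_⟩
  rw [div_le_iff₀ hx₀]
  have : x₀ * (2 * (1 - x)) ≤ x₀ * n := mul_le_mul_of_nonneg_left hn hx₀.le
  nlinarith only [hax, this, sq_nonneg (x - x₀)]

/-! ### Tail cells -/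

lemma TailCell.le_one {t n : ℝ} (h : TailCell t n) : t ≤ 1 := by
  by_contra hc
  push Not at hc
  have hp : 0 < |n| + 2 + 2 * t := by positivity
  have hx1 : (t - 1) / (|n| + 2 + 2 * t) ≤ 1 := by
    rw [div_le_one hp]; have := abs_nonneg n; linarith
  have hx0 : 0 < (t - 1) / (|n| + 2 + 2 * t) := div_pos (by linarith) hp
  have h1 := h.2 _ hx0 hx1
  set x := (t - 1) / (|n| + 2 + 2 * t) with hx
  have h2 : x * (|n| + 2 + 2 * t) = t - 1 := by rw [hx]; field_simp
  have h3 : x * n ≤ x * |n| := mul_le_mul_of_nonneg_left (le_abs_self n) hx0.le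
  have hx2 : x ^ 2 ≤ 1 := by nlinarith only [hx1, hx0]
  have h4 : 1 - x ^ 2 ≤ √(1 - x ^ 2) :=
    Real.le_sqrt_of_sq_le (by nlinarith only [hx2])
  have h5 : t * (1 - x ^ 2) ≤ t * √(1 - x ^ 2) := mul_le_mul_of_nonneg_left h4 (by linarith)
  have h6 : x ^ 2 * (1 + t) ≤ x * (1 + t) := mul_le_mul_of_nonneg_right (by nlinarith only [hx1, hx0]) (by linarith)
  nlinarith only [hx0, h1, h2, h3, h5, h6, hc]

lemma TailCell.mass {t n c : ℝ} (h : TailCell t n) (hc : 0 < c) (hc1 : c ≤ 1)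
    (ht : t ^ 2 = (1 - c ^ 2) ^ 3) : (1 - c) ^ 2 * (2 + c) ≤ n := by
  have h1 := h.2 c hc hc1
  have h0 : 0 ≤ 1 - c ^ 2 := by nlinarith only [hc1, hc]
  have h2 : t * √(1 - c ^ 2) = (1 - c ^ 2) ^ 2 := by
    refine (sq_eq_sq₀ (mul_nonneg h.1 (Real.sqrt_nonneg _)) (sq_nonneg _)).1 ?_
    rw [mul_pow, Real.sq_sqrt h0, ht]; ring
  rw [h2] at h1
  have h3 : c * ((1 - c) ^ 2 * (2 + c)) ≤ c * n := by linarith
  exact le_of_mul_le_mul_left h3 hc

/-- Parametrisation of the size of a tail cell. -/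
lemma exists_c {t : ℝ} (h0 : 0 ≤ t) (h1 : t ≤ 1) :
    ∃ c, 0 ≤ c ∧ c ≤ 1 ∧ t ^ 2 = (1 - c ^ 2) ^ 3 := by
  have hf : ContinuousOn (fun c : ℝ => (1 - c ^ 2) ^ 3) (Set.Icc 0 1) := by (clear * -; fun_prop)
  have h := intermediate_value_Icc' (zero_le_one' ℝ) hf
  have h2 : t ^ 2 ∈ Set.Icc ((1 - (1 : ℝ) ^ 2) ^ 3) ((1 - (0 : ℝ) ^ 2) ^ 3) := by
    constructor
    · norm_num; positivity
    · norm_num; rw [abs_of_nonneg h0]; exact h1
  obtain ⟨c, hc, hc2⟩ := h h2
  exact ⟨c, hc.1, hc.2, hc2.symm⟩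

lemma anti_poly {c₀ c : ℝ} (h0 : 1 / 2 ≤ c₀) (h : c₀ ≤ c) :
    (1 - c) * (1 + c) ^ 3 ≤ (1 - c₀) * (1 + c₀) ^ 3 := by
  have e : (1 - c₀) * (1 + c₀) ^ 3 - (1 - c) * (1 + c) ^ 3
      = (c - c₀) * (-2 + 2 * (c ^ 2 + c * c₀ + c₀ ^ 2) + (c ^ 3 + c ^ 2 * c₀ + c * c₀ ^ 2 + c₀ ^ 3)) := by
    ring
  have hc : 1 / 2 ≤ c := h0.trans h
  have h1 : 1 / 4 ≤ c ^ 2 := by nlinarith only [h0, h]
  have h2 : 1 / 4 ≤ c₀ ^ 2 := by nlinarith only [h0]
  have h3 : 1 / 4 ≤ c * c₀ := by nlinarith only [h, h0]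
  have h4 : 1 / 8 ≤ c ^ 3 := by nlinarith only [h1, h0, h]
  have h5 : 1 / 8 ≤ c₀ ^ 3 := by nlinarith only [h2, h0]
  have h6 : 1 / 8 ≤ c ^ 2 * c₀ := by nlinarith only [h1, h0]
  have h7 : 1 / 8 ≤ c * c₀ ^ 2 := by nlinarith only [h5, h]
  have h8 : 0 ≤ (c - c₀) * (-2 + 2 * (c ^ 2 + c * c₀ + c₀ ^ 2) +
      (c ^ 3 + c ^ 2 * c₀ + c * c₀ ^ 2 + c₀ ^ 3)) :=
    mul_nonneg (by linarith only [h]) (by linarith only [h1, h2, h3, h4, h5, h6, h7])
  linarith only [h8]

/-- A row of the table for tail cells with `c₀ ≥ 1/2`. -/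
lemma TailCell.row {t n z₀ ρ c₀ : ℝ} (h : TailCell t n) (hz : t ≤ z₀) (hc₀ : 1 / 2 ≤ c₀)
    (hc1 : c₀ ≤ 1) (hz₀ : z₀ ^ 2 ≤ (1 - c₀ ^ 2) ^ 3) (hρ : 0 ≤ ρ)
    (hp : ρ * ((1 - c₀) * (1 + c₀) ^ 3) ≤ 2 + c₀) : ρ * t ^ 2 ≤ n := by
  obtain ⟨c, h0, h1, ht⟩ := exists_c h.1 h.le_one
  have hcc : c₀ ≤ c := by
    by_contra hc
    push Not at hc
    have h2 : c ^ 2 < c₀ ^ 2 := by nlinarith only [hc, h0]
    have h3 : (1 - c₀ ^ 2) ^ 3 < (1 - c ^ 2) ^ 3 :=
      pow_lt_pow_left₀ (by linarith) (by nlinarith only [hc1, hc₀]) (by norm_num)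
    have h4 : t ^ 2 ≤ z₀ ^ 2 := by nlinarith only [hz, h.1]
    linarith only [hz₀, ht, h3, h4]
  have h2 := h.mass (by linarith only [hc₀, hcc]) h1 ht
  have h3 := mul_le_mul_of_nonneg_left (anti_poly hc₀ hcc) hρ
  have h4 : (1 - c) ^ 2 * (ρ * ((1 - c) * (1 + c) ^ 3)) ≤ (1 - c) ^ 2 * (2 + c) :=
    mul_le_mul_of_nonneg_left (by linarith only [hp, hcc, h3]) (sq_nonneg _)
  rw [ht]
  calc ρ * (1 - c ^ 2) ^ 3 = (1 - c) ^ 2 * (ρ * ((1 - c) * (1 + c) ^ 3)) := by ring
    _ ≤ (1 - c) ^ 2 * (2 + c) := h4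
    _ ≤ n := h2

/-- The row without a bound on the size. -/
lemma TailCell.row_all {t n : ℝ} (h : TailCell t n) : 1457 / 1000 * t ^ 2 ≤ n := by
  obtain ⟨c, h0, h1, ht⟩ := exists_c h.1 h.le_one
  rcases h0.lt_or_eq with hc | hc
  · have h2 := h.mass hc h1 ht
    have h3 : 1457 / 1000 * ((1 - c) * (1 + c) ^ 3) ≤ 2 + c := by
      nlinarith only [mul_nonneg h0 (sq_nonneg (c - 413 / 1000)), mul_nonneg (mul_nonneg h0 h0) (sq_nonneg (c - 413 / 1000))]
    have h4 : (1 - c) ^ 2 * (1457 / 1000 * ((1 - c) * (1 + c) ^ 3)) ≤ (1 - c) ^ 2 * (2 + c) :=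
      mul_le_mul_of_nonneg_left h3 (sq_nonneg _)
    rw [ht]
    calc 1457 / 1000 * (1 - c ^ 2) ^ 3
        = (1 - c) ^ 2 * (1457 / 1000 * ((1 - c) * (1 + c) ^ 3)) := by ring
      _ ≤ (1 - c) ^ 2 * (2 + c) := h4
      _ ≤ n := h2
  · subst hc
    have h5 := h.2 (1 / 10) (by norm_num) (by norm_num)
    have h6 : t ^ 2 = 1 := by rw [ht]; norm_num
    have h7 : t = 1 := by nlinarith only [ht, h.1]
    subst h7
    have h8 : (99 : ℝ) / 100 ≤ √(1 - (1 / 10) ^ 2) := Real.le_sqrt_of_sq_le (by norm_num)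
    linarith

/-! ### The rows used below -/

lemma TailCell.row025 {t n : ℝ} (h : TailCell t n) (hz : t ≤ 1 / 4) : 11 / 5 * t ^ 2 ≤ n :=
  h.row hz (c₀ := 776 / 1000) (by norm_num) (by norm_num) (by norm_num) (by norm_num)
    (by norm_num)

lemma TailCell.row030 {t n : ℝ} (h : TailCell t n) (hz : t ≤ 3 / 10) : 2 * t ^ 2 ≤ n :=
  h.row hz (c₀ := 742 / 1000) (by norm_num) (by norm_num) (by norm_num) (by norm_num)
    (by norm_num)

lemma TailCell.row036 {t n : ℝ} (h : TailCell t n) (hz : t ≤ 36 / 100) :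
    184 / 100 * t ^ 2 ≤ n :=
  h.row hz (c₀ := 7025 / 10000) (by norm_num) (by norm_num) (by norm_num) (by norm_num)
    (by norm_num)

lemma TailCell.row042 {t n : ℝ} (h : TailCell t n) (hz : t ≤ 42 / 100) :
    171 / 100 * t ^ 2 ≤ n :=
  h.row hz (c₀ := 662 / 1000) (by norm_num) (by norm_num) (by norm_num) (by norm_num)
    (by norm_num)

lemma TailCell.row047 {t n : ℝ} (h : TailCell t n) (hz : t ≤ 47 / 100) :
    163 / 100 * t ^ 2 ≤ n :=
  h.row hz (c₀ := 628 / 1000) (by norm_num) (by norm_num) (by norm_num) (by norm_num)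
    (by norm_num)

lemma TailCell.row052 {t n : ℝ} (h : TailCell t n) (hz : t ≤ 52 / 100) :
    157 / 100 * t ^ 2 ≤ n :=
  h.row hz (c₀ := 594 / 1000) (by norm_num) (by norm_num) (by norm_num) (by norm_num)
    (by norm_num)

lemma TailCell.row058 {t n : ℝ} (h : TailCell t n) (hz : t ≤ 58 / 100) :
    152 / 100 * t ^ 2 ≤ n :=
  h.row hz (c₀ := 551 / 1000) (by norm_num) (by norm_num) (by norm_num) (by norm_num)
    (by norm_num)

/-- The row at `0.6495`, which is the largest size for which `c₀ ≥ 1/2`. -/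
lemma TailCell.row064 {t n : ℝ} (h : TailCell t n) (hz : t ≤ 649 / 1000) :
    148 / 100 * t ^ 2 ≤ n :=
  h.row hz (c₀ := 1 / 2) (by norm_num) (by norm_num) (by norm_num) (by norm_num)
    (by norm_num)

/-! ### Linear bounds for the mass of a top cell -/

lemma TopCell.lin40 {z H n : ℝ} (h : TopCell z H n) (hH : 0 ≤ H) (hH1 : H ≤ 1 / 16)
    (hz : 2 / 5 ≤ z) : 3 / 20 + 125 / 84 * z ^ 2 - 3 / 10 * H ≤ n := by
  refine h.linear hH hH1 (xm := 41 / 50) (lo := 2 / 5) (by norm_num) (by norm_num) (by norm_num)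
    hz (by norm_num) (fun x h0 h1 => ?_) (fun x h0 h1 => ?_)
  · have h2 : 0 ≤ (x - 2 / 5) ^ 2 * (2 - 3 * (2 / 5) ^ 2 - 2 * (2 / 5) * x - x ^ 2) :=
      mul_nonneg (sq_nonneg _) (by nlinarith only [h1, h0])
    linarith
  · nlinarith only [mul_nonneg (mul_nonneg h0 (sub_nonneg.2 h1)) (sq_nonneg (x - 2 / 5))]

lemma TopCell.lin42 {z H n : ℝ} (h : TopCell z H n) (hH : 0 ≤ H) (hH1 : H ≤ 1 / 16)
    (hz : 42 / 100 ≤ z) : 4 / 21 + 343 / 240 * z ^ 2 - 55 / 100 * H ≤ n := by
  refine h.linear hH hH1 (xm := 795 / 1000) (lo := 42 / 100) (by norm_num) (by norm_num)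
    (by norm_num) hz (by norm_num) (fun x h0 h1 => ?_) (fun x h0 h1 => ?_)
  · have h2 : 0 ≤ (x - 3 / 7) ^ 2 * (2 - 3 * (3 / 7) ^ 2 - 2 * (3 / 7) * x - x ^ 2) :=
      mul_nonneg (sq_nonneg _) (by nlinarith only [h1, h0])
    linarith
  · nlinarith only [mul_nonneg (mul_nonneg h0 (sub_nonneg.2 h1)) (sq_nonneg (x - 3 / 7))]

lemma TopCell.lin47 {z H n : ℝ} (h : TopCell z H n) (hH : 0 ≤ H) (hH1 : H ≤ 1 / 16)
    (hz : 47 / 100 ≤ z) : 4 / 21 + 343 / 240 * z ^ 2 - 33 / 100 * H ≤ n := by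
  refine h.linear hH hH1 (xm := 756 / 1000) (lo := 47 / 100) (by norm_num) (by norm_num)
    (by norm_num) hz (by norm_num) (fun x h0 h1 => ?_) (fun x h0 h1 => ?_)
  · have h2 : 0 ≤ (x - 3 / 7) ^ 2 * (2 - 3 * (3 / 7) ^ 2 - 2 * (3 / 7) * x - x ^ 2) :=
      mul_nonneg (sq_nonneg _) (by nlinarith only [h1, h0])
    linarith
  · nlinarith only [mul_nonneg (mul_nonneg h0 (sub_nonneg.2 h1)) (sq_nonneg (x - 3 / 7))]

lemma TopCell.lin52 {z H n : ℝ} (h : TopCell z H n) (hH : 0 ≤ H) (hH1 : H ≤ 1 / 16)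
    (hz : 52 / 100 ≤ z) : 1 / 4 + 4 / 3 * z ^ 2 - 70 / 100 * H ≤ n := by
  refine h.linear hH hH1 (xm := 7165 / 10000) (lo := 52 / 100) (by norm_num) (by norm_num)
    (by norm_num) hz (by norm_num) (fun x h0 h1 => ?_) (fun x h0 h1 => ?_)
  · have h2 : 0 ≤ (x - 1 / 2) ^ 2 * (5 / 4 - x - x ^ 2) :=
      mul_nonneg (sq_nonneg _) (by nlinarith)
    linarith
  · nlinarith only [mul_nonneg (mul_nonneg h0 (sub_nonneg.2 h1)) (sq_nonneg (x - 1 / 2))]

lemma TopCell.lin58 {z H n : ℝ} (h : TopCell z H n) (hH : 0 ≤ H) (hH1 : H ≤ 1 / 16)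
    (hz : 58 / 100 ≤ z) : 1 / 4 + 4 / 3 * z ^ 2 - 55 / 100 * H ≤ n := by
  refine h.linear hH hH1 (xm := 668 / 1000) (lo := 58 / 100) (by norm_num) (by norm_num)
    (by norm_num) hz (by norm_num) (fun x h0 h1 => ?_) (fun x h0 h1 => ?_)
  · have h2 : 0 ≤ (x - 1 / 2) ^ 2 * (5 / 4 - x - x ^ 2) :=
      mul_nonneg (sq_nonneg _) (by nlinarith only [h1, h0])
    linarith
  · nlinarith only [mul_nonneg (mul_nonneg h0 (sub_nonneg.2 h1)) (sq_nonneg (x - 1 / 2))]

lemma TopCell.lin64 {z H n : ℝ} (h : TopCell z H n) (hH : 0 ≤ H) (hH1 : H ≤ 1 / 16)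
    (hz : 649 / 1000 ≤ z) : 1 / 4 + 4 / 3 * z ^ 2 - 46 / 100 * H ≤ n := by
  refine h.linear hH hH1 (xm := 609 / 1000) (lo := 649 / 1000) (by norm_num) (by norm_num)
    (by norm_num) hz (by norm_num) (fun x h0 h1 => ?_) (fun x h0 h1 => ?_)
  · have h2 : 0 ≤ (x - 1 / 2) ^ 2 * (5 / 4 - x - x ^ 2) :=
      mul_nonneg (sq_nonneg _) (by nlinarith only [h1, h0])
    linarith
  · nlinarith only [h1, mul_nonneg (mul_nonneg h0 (sub_nonneg.2 h1)) (sq_nonneg (x - 1 / 2))]

/-! ### Pieces of case B -/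

/-- Summing a row over the tail. -/
lemma sum_row {ι : Type*} [Fintype ι] {t nt : ι → ℝ} {ρ : ℝ} (h : ∀ j, ρ * t j ^ 2 ≤ nt j) :
    ρ * ∑ j, t j ^ 2 ≤ ∑ j, nt j := by
  rw [Finset.mul_sum]
  exact Finset.sum_le_sum fun j _ => h j

/-- A quadratic which is concave is nonnegative between two points where it is nonnegative. -/
lemma quad_nonneg {α β γ l r a : ℝ} (hγ : 0 ≤ γ) (h1 : l ≤ a) (h2 : a ≤ r)
    (hl : 0 ≤ α + β * l - γ * l ^ 2) (hr : 0 ≤ α + β * r - γ * r ^ 2) :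
    0 ≤ α + β * a - γ * a ^ 2 := by
  rcases (h1.trans h2).eq_or_lt with h | h
  · have : a = l := le_antisymm (h ▸ h2) h1
    rwa [this]
  · have h3 : 0 ≤ (r - a) * (α + β * l - γ * l ^ 2) := mul_nonneg (by linarith) hl
    have h4 : 0 ≤ (a - l) * (α + β * r - γ * r ^ 2) := mul_nonneg (by linarith) hr
    have h5 : 0 ≤ γ * ((a - l) * (r - a)) * (r - l) :=
      mul_nonneg (mul_nonneg hγ (mul_nonneg (by linarith) (by linarith))) (by linarith)
    have h6 : 0 ≤ (r - l) * (α + β * a - γ * a ^ 2) := by linarith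
    exact nonneg_of_mul_nonneg_right h6 (by linarith)

/-- The bound for the fourth cell: a quadratic in the in-plane length `a` plus a multiple of
`H`, over the region `lo² ≤ a² + H ≤ hi²`, `0 ≤ H ≤ 1/16`. -/
lemma region {α β γ η lo hi am a H : ℝ} (hγ : 0 ≤ γ) (hη : 0 ≤ η) (ha : 0 ≤ a) (hH : 0 ≤ H)
    (hH1 : H ≤ 1 / 16) (hlo : lo ^ 2 ≤ a ^ 2 + H) (hhi : a ^ 2 + H ≤ hi ^ 2)
    (hhi0 : 0 ≤ hi) (ham : am ^ 2 ≤ lo ^ 2 - 1 / 16 ∨ am = 0)
    (h1 : 0 ≤ α + β * lo - γ * lo ^ 2) (h2 : 0 ≤ α + β * hi - γ * hi ^ 2)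
    (h3 : 0 ≤ α + η * lo ^ 2 + β * am - (γ + η) * am ^ 2) :
    0 ≤ α + β * a - γ * a ^ 2 + η * H := by
  rcases le_total lo a with h | h
  · have h4 : a ≤ hi := by nlinarith only [hH, hhi, hhi0]
    have h5 := quad_nonneg hγ h h4 h1 h2
    have h6 : 0 ≤ η * H := mul_nonneg hη hH
    linarith
  · have h4 : am ≤ a := by
      rcases ham with ham | ham
      · by_contra hc
        push Not at hc
        nlinarith only [hH1, hlo, ham, ha, hc]
      · rw [ham]; exact ha
    have h5 := quad_nonneg (α := α + η * lo ^ 2) (β := β) (γ := γ + η) (by linarith) h4 h h3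
      (by linarith)
    have h6 : η * (lo ^ 2 - a ^ 2) ≤ η * H := mul_le_mul_of_nonneg_left (by linarith) hη
    linarith

/-- Pieces with `z₄ < 0.52`: three cells are bounded by a common linear function, the fourth
one by a tangent at `x₀`, and the tail by `ρ t²`. -/
lemma piece {Q T N n3 z3 H p μ ν ρ x₀ lo hi am θ α β γ η : ℝ} (hH : 0 ≤ H) (hH1 : H ≤ 1 / 16)
    (hHt : 16 * H ≤ T) (c3 : TopCell z3 H n3) (hlo : lo ≤ z3) (hhi : z3 ≤ hi)
    (hQ : 3 * p + μ * Q - 3 * ν * H + n3 + N ≤ 4)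
    (hS : 9 / 4 < Q + z3 ^ 2 + T) (hσ : (1 - θ) * (27 / 100) ≤ (1 - θ) * (z3 ^ 2 + T))
    (er : ρ * T ≤ N) (hμ : 0 < μ) (hρ : μ ≤ ρ) (hx₀ : 0 < x₀) (hlo0 : 0 ≤ lo) (hhi0 : 0 ≤ hi)
    (ham : am ^ 2 ≤ lo ^ 2 - 1 / 16 ∨ am = 0) (hθ : 0 ≤ θ)
    (hα : α = 3 * p + 9 / 4 * μ - 4 - (1 - x₀) ^ 2 / x₀ + (ρ - μ) * (1 - θ) * (27 / 100))
    (hβ : β = 1 / x₀) (hγ : γ = μ + (ρ - μ) * (1 - θ))
    (hη : η = 1 / (2 * x₀) - 3 * ν - μ + (ρ - μ) * (17 * θ - 1))
    (hγ0 : 0 ≤ γ) (hη0 : 0 ≤ η)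
    (h1 : 0 ≤ α + β * lo - γ * lo ^ 2) (h2 : 0 ≤ α + β * hi - γ * hi ^ 2)
    (h3 : 0 ≤ α + η * lo ^ 2 + β * am - (γ + η) * am ^ 2) : False := by
  obtain ⟨a, ha, haz, ht3⟩ := c3.tangent hH hx₀
  have key := region (a := a) (H := H) hγ0 hη0 ha hH hH1 (by rw [haz]; nlinarith only [hlo, hlo0])
    (by rw [haz]; nlinarith only [hlo, hhi, hlo0]) hhi0 ham h1 h2 h3
  have e1 : (a + H / 2 - (1 - x₀) ^ 2) / x₀ = 1 / x₀ * a + 1 / (2 * x₀) * H - (1 - x₀) ^ 2 / x₀ := by
    (clear * - hx₀; field_simp)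
  rw [e1] at ht3
  have e2 : (ρ - μ) * ((1 - θ) * (27 / 100 - z3 ^ 2) + θ * (16 * H)) ≤ (ρ - μ) * T := by
    refine mul_le_mul_of_nonneg_left ?_ (by linarith only [hρ])
    have : θ * (16 * H) ≤ θ * T := mul_le_mul_of_nonneg_left hHt hθ
    linarith only [hσ, this]
  rw [← haz] at e2 hS
  have e3 : μ * (9 / 4) < μ * (Q + (a ^ 2 + H) + T) := mul_lt_mul_of_pos_left hS hμ
  rw [hα, hβ, hγ, hη] at key
  set r := 1 / x₀
  set r2 := 1 / (2 * x₀)
  set r3 := (1 - x₀) ^ 2 / x₀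
  linarith

/-- The range `z₄ ≥ 0.52`: all four cells are bounded by `1/4 + 4/3 z² - ν H`. -/
lemma piece_high {Q T N n H ν ρ : ℝ} (hHt : 16 * H ≤ T) (hT : 0 ≤ T)
    (hQ : 1 + 4 / 3 * Q - 4 * ν * H ≤ n) (hn : n + N ≤ 4)
    (hS : 9 / 4 < Q + T) (er : ρ * T ≤ N) (hν : 0 ≤ ν) (hρ : 4 / 3 + ν / 4 ≤ ρ) : False := by
  have h1 : ν * (16 * H) ≤ ν * T := mul_le_mul_of_nonneg_left hHt hν
  have h2 : (4 / 3 + ν / 4) * T ≤ ρ * T := mul_le_mul_of_nonneg_right hρ hT
  linarith

/-- **Case B.** -/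
theorem caseB {ι : Type*} [Fintype ι] {z0 z1 z2 z3 H n0 n1 n2 n3 : ℝ} {t nt : ι → ℝ}
    (hH : 0 ≤ H) (hH1 : H ≤ 1 / 16) (hHt : 16 * H ≤ ∑ j, t j ^ 2)
    (h01 : z1 ≤ z0) (h12 : z2 ≤ z1) (h23 : z3 ≤ z2) (ht : ∀ j, t j ≤ z3)
    (c0 : TopCell z0 H n0) (c1 : TopCell z1 H n1) (c2 : TopCell z2 H n2) (c3 : TopCell z3 H n3)
    (ct : ∀ j, TailCell (t j) (nt j))
    (hn : n0 + n1 + n2 + n3 + ∑ j, nt j ≤ 4)
    (hS : 9 / 4 < z0 ^ 2 + z1 ^ 2 + z2 ^ 2 + z3 ^ 2 + ∑ j, t j ^ 2)
    (hz2 : 2 / 5 ≤ z2)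
    (hcase : 36 / 100 ≤ z3 ∨ (1 / 5 ≤ z3 ∧ 27 / 100 ≤ z3 ^ 2 + ∑ j, t j ^ 2)) : False := by
  have hz3 : 1 / 5 ≤ z3 := by
    rcases hcase with h | h
    · linarith only [h]
    · exact h.1
  have hT : 0 ≤ ∑ j, t j ^ 2 := Finset.sum_nonneg fun j _ => sq_nonneg _
  rcases le_or_gt z3 (42 / 100) with h42 | h42
  · -- the three largest cells are at least 2/5, m = 2/5
    have e0 := c0.lin40 hH hH1 (by linarith only [h01, h12, hz2])
    have e1 := c1.lin40 hH hH1 (by linarith only [h12, hz2])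
    have e2 := c2.lin40 hH hH1 hz2
    rcases lt_or_ge z3 (36 / 100) with h36 | h36
    · have hσ : 27 / 100 ≤ z3 ^ 2 + ∑ j, t j ^ 2 := by
        rcases hcase with h | h
        · exact absurd h36 (not_lt.2 h)
        · exact h.2
      rcases le_or_gt z3 (30 / 100) with h30 | h30
      · rcases le_or_gt z3 (25 / 100) with h25 | h25
        · exact piece (Q := z0 ^ 2 + z1 ^ 2 + z2 ^ 2) (T := ∑ j, t j ^ 2) (N := ∑ j, nt j)
            (p := 3 / 20) (μ := 125 / 84) (ν := 3 / 10) (ρ := 11 / 5) (x₀ := 9 / 10)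
            (lo := 1 / 5) (hi := 1 / 4) (am := 0) (θ := 1 / 2) hH hH1 hHt c3 hz3
            (h25.trans (by norm_num)) (by linarith only [hn, e0, e1, e2]) hS (by linarith only [hσ])
            (sum_row fun j => (ct j).row025 ((ht j).trans (h25.trans (by norm_num))))
            (by norm_num) (by norm_num) (by norm_num) (by norm_num) (by norm_num)
            (Or.inr rfl) (by norm_num) rfl rfl rfl rfl (by norm_num) (by norm_num)
            (by norm_num) (by norm_num) (by norm_num)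
        · exact piece (Q := z0 ^ 2 + z1 ^ 2 + z2 ^ 2) (T := ∑ j, t j ^ 2) (N := ∑ j, nt j)
            (p := 3 / 20) (μ := 125 / 84) (ν := 3 / 10) (ρ := 2) (x₀ := 86 / 100)
            (lo := 25 / 100) (hi := 30 / 100) (am := 0) (θ := 3 / 5) hH hH1 hHt c3 h25.le
            h30 (by linarith only [hn, e0, e1, e2]) hS (by linarith only [hσ])
            (sum_row fun j => (ct j).row030 ((ht j).trans (h30.trans (by norm_num))))
            (by norm_num) (by norm_num) (by norm_num) (by norm_num) (by norm_num)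
            (Or.inr rfl) (by norm_num) rfl rfl rfl rfl (by norm_num) (by norm_num)
            (by norm_num) (by norm_num) (by norm_num)
      · exact piece (Q := z0 ^ 2 + z1 ^ 2 + z2 ^ 2) (T := ∑ j, t j ^ 2) (N := ∑ j, nt j)
          (p := 3 / 20) (μ := 125 / 84) (ν := 3 / 10) (ρ := 184 / 100) (x₀ := 82 / 100)
          (lo := 30 / 100) (hi := 36 / 100) (am := 165 / 1000) (θ := 3 / 5) hH hH1 hHt c3 h30.le
          h36.le (by linarith only [hn, e0, e1, e2]) hS (by linarith only [hσ])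
          (sum_row fun j => (ct j).row036 ((ht j).trans h36.le))
          (by norm_num) (by norm_num) (by norm_num) (by norm_num) (by norm_num)
          (Or.inl (by norm_num)) (by norm_num) rfl rfl rfl rfl (by norm_num) (by norm_num)
          (by norm_num) (by norm_num) (by norm_num)
    · exact piece (Q := z0 ^ 2 + z1 ^ 2 + z2 ^ 2) (T := ∑ j, t j ^ 2) (N := ∑ j, nt j)
        (p := 3 / 20) (μ := 125 / 84) (ν := 3 / 10) (ρ := 171 / 100) (x₀ := 78 / 100)
        (lo := 36 / 100) (hi := 42 / 100) (am := 259 / 1000) (θ := 1) hH hH1 hHt c3 h36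
        h42 (by linarith only [hn, e0, e1, e2]) hS (by linarith only [])
        (sum_row fun j => (ct j).row042 ((ht j).trans h42))
        (by norm_num) (by norm_num) (by norm_num) (by norm_num) (by norm_num)
        (Or.inl (by norm_num)) (by norm_num) rfl rfl rfl rfl (by norm_num) (by norm_num)
        (by norm_num) (by norm_num) (by norm_num)
  · rcases le_or_gt z3 (47 / 100) with h47 | h47
    · have e0 := c0.lin42 hH hH1 (by linarith only [h01, h12, h23, h42])
      have e1 := c1.lin42 hH hH1 (by linarith only [h12, h23, h42])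
      have e2 := c2.lin42 hH hH1 (by linarith only [h23, h42])
      exact piece (Q := z0 ^ 2 + z1 ^ 2 + z2 ^ 2) (T := ∑ j, t j ^ 2) (N := ∑ j, nt j)
        (p := 4 / 21) (μ := 343 / 240) (ν := 55 / 100) (ρ := 163 / 100) (x₀ := 73 / 100)
        (lo := 42 / 100) (hi := 47 / 100) (am := 337 / 1000) (θ := 1) hH hH1 hHt c3 h42.le
        h47 (by linarith only [hn, e0, e1, e2]) hS (by linarith only [])
        (sum_row fun j => (ct j).row047 ((ht j).trans h47))
        (by norm_num) (by norm_num) (by norm_num) (by norm_num) (by norm_num)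
        (Or.inl (by norm_num)) (by norm_num) rfl rfl rfl rfl (by norm_num) (by norm_num)
        (by norm_num) (by norm_num) (by norm_num)
    · rcases le_or_gt z3 (52 / 100) with h52 | h52
      · have e0 := c0.lin47 hH hH1 (by linarith only [h01, h12, h23, h47])
        have e1 := c1.lin47 hH hH1 (by linarith only [h12, h23, h47])
        have e2 := c2.lin47 hH hH1 (by linarith only [h23, h47])
        exact piece (Q := z0 ^ 2 + z1 ^ 2 + z2 ^ 2) (T := ∑ j, t j ^ 2) (N := ∑ j, nt j)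
          (p := 4 / 21) (μ := 343 / 240) (ν := 33 / 100) (ρ := 157 / 100) (x₀ := 73 / 100)
          (lo := 47 / 100) (hi := 52 / 100) (am := 397 / 1000) (θ := 1) hH hH1 hHt c3 h47.le
          h52 (by linarith only [hn, e0, e1, e2]) hS (by linarith only [])
          (sum_row fun j => (ct j).row052 ((ht j).trans h52))
          (by norm_num) (by norm_num) (by norm_num) (by norm_num) (by norm_num)
          (Or.inl (by norm_num)) (by norm_num) rfl rfl rfl rfl (by norm_num) (by norm_num)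
          (by norm_num) (by norm_num) (by norm_num)
      · rcases le_or_gt z3 (58 / 100) with h58 | h58
        · have e0 := c0.lin52 hH hH1 (by linarith only [h01, h12, h23, h52])
          have e1 := c1.lin52 hH hH1 (by linarith only [h12, h23, h52])
          have e2 := c2.lin52 hH hH1 (by linarith only [h23, h52])
          have e3 := c3.lin52 hH hH1 h52.le
          exact piece_high (Q := z0 ^ 2 + z1 ^ 2 + z2 ^ 2 + z3 ^ 2) (n := n0 + n1 + n2 + n3)
            (ν := 70 / 100) (ρ := 152 / 100) hHt hT (by linarith only [e0, e1, e2, e3]) hn hS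
            (sum_row fun j => (ct j).row058 ((ht j).trans h58)) (by norm_num) (by norm_num)
        · rcases le_or_gt z3 (649 / 1000) with h64 | h64
          · have e0 := c0.lin58 hH hH1 (by linarith only [h01, h12, h23, h58])
            have e1 := c1.lin58 hH hH1 (by linarith only [h12, h23, h58])
            have e2 := c2.lin58 hH hH1 (by linarith only [h23, h58])
            have e3 := c3.lin58 hH hH1 h58.le
            exact piece_high (Q := z0 ^ 2 + z1 ^ 2 + z2 ^ 2 + z3 ^ 2) (n := n0 + n1 + n2 + n3)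
              (ν := 55 / 100) (ρ := 148 / 100) hHt hT (by linarith only [e0, e1, e2, e3]) hn hS
              (sum_row fun j => (ct j).row064 ((ht j).trans h64)) (by norm_num) (by norm_num)
          · have e0 := c0.lin64 hH hH1 (by linarith only [h01, h12, h23, h64])
            have e1 := c1.lin64 hH hH1 (by linarith only [h12, h23, h64])
            have e2 := c2.lin64 hH hH1 (by linarith only [h23, h64])
            have e3 := c3.lin64 hH hH1 h64.le
            exact piece_high (Q := z0 ^ 2 + z1 ^ 2 + z2 ^ 2 + z3 ^ 2) (n := n0 + n1 + n2 + n3)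
              (ν := 46 / 100) (ρ := 1457 / 1000) hHt hT (by linarith only [e0, e1, e2, e3]) hn hS
              (sum_row fun j => (ct j).row_all) (by norm_num) (by norm_num)

end Vale.Agent.P226.CaseB
end
end

section

section

/-!
# P226: case B for the data of a minimal counterexample
-/

namespace Vale.Agent.P226

open CaseB

lemma InV3.topCell {ζ H n : ℝ} (h : InV3 (√(ζ ^ 2 - H)) H n) (hH : H ≤ ζ ^ 2) :
    TopCell ζ H n :=
  ⟨√(ζ ^ 2 - H), Real.sqrt_nonneg _, by rw [Real.sq_sqrt (by linarith)]; ring,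
    fun x h0 h1 => h x h0 h1⟩

lemma Vert3.tailCell {ζ n : ℝ} (h : Vert3 ζ n) (h0 : 0 ≤ ζ) : TailCell ζ n :=
  ⟨h0, fun c hc0 hc1 => by have := h c hc0 hc1; linarith⟩

/-- **Case B**: either the fourth size is at least `0.36`, or it is at least `0.2` and the sum of
the squares of all sizes but the three largest is at least `0.27`. -/
theorem Aff4.caseB {m : ℕ} {ζ n : Fin (m + 4) → ℝ} {H : ℝ} (h : Aff4 ζ n H) (h2 : 0.4 < ζ 2)
    (hcase : 0.36 ≤ ζ 3 ∨
      (0.2 ≤ ζ 3 ∧ 0.27 ≤ ∑ i : Fin (m + 1), ζ i.succ.succ.succ ^ 2)) : False := by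
  have hs := h.sum
  have hb := h.big
  rw [sum_split4] at hs hb
  have h01 : ζ 1 ≤ ζ 0 := h.anti (Fin.zero_le _)
  have h12 : ζ 2 ≤ ζ 1 := h.anti (by
    rw [Fin.le_def]
    have e1 : (1 : Fin (m + 4)).val = 1 := rfl
    have e2 : (2 : Fin (m + 4)).val = 2 := rfl
    omega)
  have h23 : ζ 3 ≤ ζ 2 := h.anti (by
    rw [Fin.le_def]
    have e1 : (3 : Fin (m + 4)).val = 3 := rfl
    have e2 : (2 : Fin (m + 4)).val = 2 := rfl
    omega)
  have htail : ∀ i : Fin m, ζ i.succ.succ.succ.succ ≤ ζ 3 := fun i => h.anti (by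
    rw [Fin.le_def]
    simp only [Fin.val_succ]
    have : (3 : Fin (m + 4)).val = 3 := rfl
    omega)
  have q : ∀ i j : Fin (m + 4), ζ j ≤ ζ i → ζ j ^ 2 ≤ ζ i ^ 2 := fun i j hij =>
    pow_le_pow_left₀ (h.nonneg j) hij 2
  have H3 := h.H_le3
  have H2 : H ≤ ζ 2 ^ 2 := H3.trans (q _ _ h23)
  have H1 : H ≤ ζ 1 ^ 2 := H2.trans (q _ _ h12)
  have H0 : H ≤ ζ 0 ^ 2 := H1.trans (q _ _ h01)
  refine CaseB.caseB (t := fun i : Fin m => ζ i.succ.succ.succ.succ)
    (nt := fun i : Fin m => n i.succ.succ.succ.succ) h.H_nonneg h.H_le h.H_tail h01 h12 h23 htail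
    (h.in0.topCell H0) (h.in1.topCell H1) (h.in2.topCell H2) (h.in3.topCell H3)
    (fun j => (h.vert _).tailCell (h.nonneg _)) hs.le hb (by linarith only [h2]) ?_
  rcases hcase with h5 | ⟨h5, h6⟩
  · left; linarith only [h5]
  · right
    refine ⟨by linarith only [h5], ?_⟩
    rw [Fin.sum_univ_succ] at h6
    have e3 : ζ (Fin.succ (Fin.succ (Fin.succ (0 : Fin (m + 1))))) = ζ 3 := rfl
    rw [e3] at h6
    linarith only [h6]

end Vale.Agent.P226
end
end

section

section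

/-!
# P226: removing one cell of a minimal counterexample

If the bound holds for `k` cells and fails for a partition in `k + 1` cells, then distributing the
cell `A j` among three other cells does not increase the functional above the bound.  This gives
an upper bound for the integral over `A j` of the support function of the centred triangle.
-/

open MeasureTheory ProbabilityTheory
open scoped RealInnerProductSpace

namespace Vale.Agent.P226

open K3

variable {E : Type*} [NormedAddCommGroup E] [InnerProductSpace ℝ E] [FiniteDimensional ℝ E]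
  [MeasurableSpace E] [BorelSpace E]

/-- A measurable choice of the index of the largest of three linear forms. -/
noncomputable def argmax3 (u : Fin 3 → E) (x : E) : Fin 3 :=
  if ⟪u 1, x⟫ ≤ ⟪u 0, x⟫ ∧ ⟪u 2, x⟫ ≤ ⟪u 0, x⟫ then 0
  else if ⟪u 2, x⟫ ≤ ⟪u 1, x⟫ then 1 else 2

lemma measurable_argmax3 (u : Fin 3 → E) : Measurable (argmax3 u) := by
  have h : ∀ i j : Fin 3, MeasurableSet {x : E | ⟪u i, x⟫ ≤ ⟪u j, x⟫} := fun i j =>
    measurableSet_le (by fun_prop) (by fun_prop)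
  unfold argmax3
  refine Measurable.ite ?_ measurable_const (Measurable.ite ?_ measurable_const measurable_const)
  · exact (h 1 0).inter (h 2 0)
  · exact h 2 1

/-- The maximum of three linear forms. -/
noncomputable def max3 (u : Fin 3 → E) (x : E) : ℝ := max ⟪u 0, x⟫ (max ⟪u 1, x⟫ ⟪u 2, x⟫)

omit [FiniteDimensional ℝ E] [MeasurableSpace E] [BorelSpace E] in
lemma inner_argmax3 (u : Fin 3 → E) (x : E) : ⟪u (argmax3 u x), x⟫ = max3 u x := by
  unfold argmax3 max3
  split_ifs with h1 h2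
  · rw [max_eq_left (max_le h1.1 h1.2)]
  · rw [max_eq_left h2, max_eq_right]
    rw [not_and_or, not_le, not_le] at h1
    rcases h1 with h1 | h1
    · exact h1.le
    · exact h1.le.trans h2
  · rw [not_le] at h2
    rw [max_eq_right h2.le, max_eq_right]
    rw [not_and_or, not_le, not_le] at h1
    rcases h1 with h1 | h1
    · exact h1.le.trans h2.le
    · exact h1.le

namespace Bad

end Bad

end Vale.Agent.P226
end
end

section

section

/-!
# P226: families which are partitions up to null sets, and the propeller itself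
-/

open MeasureTheory ProbabilityTheory Set
open scoped RealInnerProductSpace

namespace Vale.Agent.P226

open K3

variable {E : Type*} [NormedAddCommGroup E] [InnerProductSpace ℝ E] [FiniteDimensional ℝ E]
  [MeasurableSpace E] [BorelSpace E]

/-- From exact partitions to families of almost everywhere disjoint sets. -/
theorem sum_le_of_bdd {k : ℕ} (hb : Bdd E (k + 1)) {A : Fin k → Set E}
    (hm : ∀ i, NullMeasurableSet (A i) (stdGaussian E))
    (hd : ∀ i j, i ≠ j → stdGaussian E (A i ∩ A j) = 0) :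
    ∑ i, ‖∫ x in A i, x ∂(stdGaussian E)‖ ^ 2 ≤ 9 / (8 * Real.pi) := by
  classical
  choose A' hsub hm' hae using fun i => (hm i).exists_measurable_superset_ae_eq
  set U : Fin k → Set E := fun i => ⋃ j : {j : Fin k // j < i}, A' j with hU
  have hUm : ∀ i, MeasurableSet (U i) := fun i => MeasurableSet.iUnion fun j => hm' j
  set C : Fin k → Set E := fun i => A' i \ U i with hC
  have hCm : ∀ i, MeasurableSet (C i) := fun i => (hm' i).diff (hUm i)
  have hCdlt : ∀ i j, i < j → Disjoint (C i) (C j) := by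
    intro i j hij
    rw [Set.disjoint_left]
    intro x hx hx'
    exact hx'.2 (mem_iUnion.2 ⟨⟨i, hij⟩, hx.1⟩)
  have hCd : Pairwise fun i j => Disjoint (C i) (C j) := by
    intro i j hij
    rcases lt_or_gt_of_ne hij with h | h
    · exact hCdlt i j h
    · exact (hCdlt j i h).symm
  have hnull : ∀ i j, i ≠ j → stdGaussian E (A' i ∩ A' j) = 0 := by
    intro i j hij
    rw [measure_congr ((hae i).inter (hae j))]
    exact hd i j hij
  have hCA' : ∀ i, C i =ᵐ[stdGaussian E] A' i := by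
    intro i
    refine sdiff_ae_eq_self.2 ?_
    have : A' i ∩ U i = ⋃ j : {j : Fin k // j < i}, A' i ∩ A' j := by
      rw [hU, inter_iUnion]
    rw [this]
    exact measure_iUnion_null fun j => hnull i j (ne_of_gt j.2)
  have hCA : ∀ i, C i =ᵐ[stdGaussian E] A i := fun i => (hCA' i).trans (hae i)
  let D : Option (Fin k) → Set E := fun o => o.elim (⋃ i, C i)ᶜ C
  have hD : IsPart D := by
    refine ⟨?_, ?_, ?_⟩
    · rintro (_ | i)
      · exact (MeasurableSet.iUnion hCm).compl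
      · exact hCm i
    · rintro (_ | i) (_ | j) hij
      · exact absurd rfl hij
      · exact (disjoint_compl_left (a := ⋃ i, C i)).mono_right (subset_iUnion C j)
      · exact (disjoint_compl_right (a := ⋃ i, C i)).mono_left (subset_iUnion C i)
      · exact hCd fun h => hij (congrArg some h)
    · refine eq_univ_of_forall fun x => ?_
      by_cases hx : x ∈ ⋃ i, C i
      · obtain ⟨i, hi⟩ := mem_iUnion.1 hx
        exact mem_iUnion.2 ⟨some i, hi⟩
      · exact mem_iUnion.2 ⟨none, hx⟩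
  have h1 := hb.of_card (ι := Option (Fin k)) (by simp only [Fintype.card_option, Fintype.card_fin, Nat.add_left_cancel_iff]) D hD
  rw [Fintype.sum_option] at h1
  have h2 : ∑ i, ‖∫ x in A i, x ∂(stdGaussian E)‖ ^ 2 = ∑ i, ‖fm (D (some i))‖ ^ 2 := by
    refine Finset.sum_congr rfl fun i _ => ?_
    have h3 : fm (D (some i)) = ∫ x in A i, x ∂(stdGaussian E) :=
      setIntegral_congr_set (hCA i)
    rw [h3]
  rw [h2]
  have := sq_nonneg ‖fm (D none)‖
  (clear hb A hm hd hsub hm' hae hU hUm hC hCm hCdlt hCd hnull hCA' hCA hD h2; linarith)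

omit [MeasurableSpace E] [BorelSpace E] in
/-- Three unit vectors at mutual angle `2π/3`. -/
lemma exists_three_vectors (hE : 2 ≤ Module.finrank ℝ E) : ∃ u : Fin 3 → E,
    (∀ i, ‖u i‖ ^ 2 = 1) ∧ ‖u 0 - u 1‖ = √3 ∧ ‖u 1 - u 2‖ = √3 ∧ ‖u 0 - u 2‖ = √3 := by
  let b := stdOrthonormalBasis ℝ E
  let e := b ⟨0, by omega⟩
  let f := b ⟨1, by omega⟩
  have he : ‖e‖ = 1 := b.orthonormal.1 _
  have hf : ‖f‖ = 1 := b.orthonormal.1 _
  have hef : ⟪e, f⟫ = 0 := b.orthonormal.2 (by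
    intro h
    have := congrArg Fin.val h
    simp at this)
  have key : ∀ x y : ℝ, ‖x • e + y • f‖ ^ 2 = x ^ 2 + y ^ 2 := by
    intro x y
    rw [norm_add_sq_real, norm_smul, norm_smul, inner_smul_left, inner_smul_right, hef, he, hf]
    simp
  have h3 : (√3 : ℝ) ^ 2 = 3 := Real.sq_sqrt (by norm_num)
  have hnorm : ∀ x y : ℝ, x ^ 2 + y ^ 2 = 3 → ‖x • e + y • f‖ = √3 := by
    intro x y h
    rw [← h, ← key, Real.sqrt_sq (norm_nonneg _)]
  refine ⟨![(1 : ℝ) • e + (0 : ℝ) • f, (-(1 / 2) : ℝ) • e + (√3 / 2) • f,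
    (-(1 / 2) : ℝ) • e + (-(√3 / 2)) • f], ?_, ?_, ?_, ?_⟩
  · intro i
    fin_cases i
    · simp only [Fin.zero_eta, Matrix.cons_val_zero, key]
      norm_num
    · simp only [Fin.mk_one, Matrix.cons_val_one, Matrix.cons_val_zero, key]
      linarith
    · simp only [Fin.reduceFinMk, Matrix.cons_val, key]
      linarith
  · simp only [Matrix.cons_val_zero, Matrix.cons_val_one]
    have : (1 : ℝ) • e + (0 : ℝ) • f - ((-(1 / 2) : ℝ) • e + (√3 / 2) • f)
        = (3 / 2 : ℝ) • e + (-(√3 / 2)) • f := by module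
    rw [this]
    exact hnorm _ _ (by nlinarith only [h3])
  · simp only [Matrix.cons_val_one, Matrix.cons_val]
    have : ((-(1 / 2) : ℝ) • e + (√3 / 2) • f) - ((-(1 / 2) : ℝ) • e + (-(√3 / 2)) • f)
        = (0 : ℝ) • e + (√3) • f := by module
    rw [this]
    exact hnorm _ _ (by nlinarith only [h3])
  · simp only [Matrix.cons_val_zero, Matrix.cons_val]
    have : (1 : ℝ) • e + (0 : ℝ) • f - ((-(1 / 2) : ℝ) • e + (-(√3 / 2)) • f)
        = (3 / 2 : ℝ) • e + (√3 / 2) • f := by module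
    rw [this]
    exact hnorm _ _ (by nlinarith only [h3])

/-- The propeller partition, with any number of empty cells added. -/
theorem exists_propeller (hE : 2 ≤ Module.finrank ℝ E) {k : ℕ} (hk : 3 ≤ k) :
    ∃ A : Fin k → Set E, IsPart A ∧ 9 / (8 * Real.pi) ≤ ∑ i, ‖fm (A i)‖ ^ 2 := by
  obtain ⟨m, rfl⟩ : ∃ m, k = m + 3 := ⟨k - 3, by omega⟩
  obtain ⟨u, hu, h01, h12, h02⟩ := exists_three_vectors hE
  let A : Fin (m + 3) → Set E := fun i => {x | (argmax3 u x).val = i.val}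
  have hA : IsPart A := by
    refine ⟨?_, ?_, ?_⟩
    · intro i
      have : A i = argmax3 u ⁻¹' {j | j.val = i.val} := rfl
      rw [this]
      exact measurable_argmax3 u (MeasurableSet.of_discrete)
    · intro i j hij
      rw [Set.disjoint_left]
      intro x hx hx'
      have hx1 : (argmax3 u x).val = i.val := hx
      have hx2 : (argmax3 u x).val = j.val := hx'
      exact hij (Fin.ext (hx1.symm.trans hx2))
    · refine eq_univ_of_forall fun x => mem_iUnion.2 ⟨⟨(argmax3 u x).val, ?_⟩, rfl⟩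
      have := (argmax3 u x).2
      omega
  refine ⟨A, hA, ?_⟩
  -- the three nonempty cells
  let A3 : Fin 3 → Set E := fun i => {x | argmax3 u x = i}
  have h0 : A 0 = A3 0 := by
    ext x
    exact (Fin.ext_iff (a := argmax3 u x) (b := 0)).symm
  have h1 : A 1 = A3 1 := by
    ext x
    exact (Fin.ext_iff (a := argmax3 u x) (b := 1)).symm
  have h2 : A 2 = A3 2 := by
    ext x
    exact (Fin.ext_iff (a := argmax3 u x) (b := 2)).symm
  have hle : ∑ i, ‖fm (A3 i)‖ ^ 2 ≤ ∑ i, ‖fm (A i)‖ ^ 2 := by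
    rw [Fin.sum_univ_three, ← h0, ← h1, ← h2, Fin.sum_univ_succ, Fin.sum_univ_succ,
      Fin.sum_univ_succ]
    have h3 : 0 ≤ ∑ i : Fin m, ‖fm (A i.succ.succ.succ)‖ ^ 2 :=
      Finset.sum_nonneg fun i _ => sq_nonneg _
    have e1 : (Fin.succ 0 : Fin (m + 3)) = 1 := rfl
    have e2 : (Fin.succ (Fin.succ 0) : Fin (m + 3)) = 2 := rfl
    rw [e1, e2]
    (clear hE hk hu h01 h12 h02 hA A3 h0 h1 h2 e1 e2; linarith)
  refine le_trans ?_ hle
  have hA3 : IsPart A3 := by
    refine ⟨?_, ?_, ?_⟩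
    · intro i
      have : A3 i = argmax3 u ⁻¹' {i} := rfl
      rw [this]
      exact measurable_argmax3 u (MeasurableSet.of_discrete)
    · intro i j hij
      rw [Set.disjoint_left]
      intro x hx hx'
      exact hij (hx.symm.trans hx')
    · exact eq_univ_of_forall fun x => mem_iUnion.2 ⟨argmax3 u x, rfl⟩
  have hS : ∑ i, ⟪u i, fm (A3 i)⟫ = (√3 + √3 + √3) / (2 * √(2 * Real.pi)) := by
    have h4 := integral_max3 (u 0) (u 1) (u 2)
    rw [h01, h12, h02] at h4
    rw [← h4]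
    have h5 : ∀ i, ⟪u i, fm (A3 i)⟫
        = ∫ x in A3 i, max ⟪u 0, x⟫ (max ⟪u 1, x⟫ ⟪u 2, x⟫) ∂(stdGaussian E) := by
      intro i
      rw [inner_fm]
      refine setIntegral_congr_fun (hA3.meas i) fun x hx => ?_
      have hx' : argmax3 u x = i := hx
      have h6 := inner_argmax3 u x
      rw [hx'] at h6
      exact h6
    simp_rw [h5]
    rw [← integral_iUnion_fintype hA3.meas hA3.disj
      fun i => (integrable_max3 (u 0) (u 1) (u 2)).integrableOn, hA3.cover, setIntegral_univ]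
  set S := (√3 + √3 + √3) / (2 * √(2 * Real.pi)) with hSdef
  have hS2 : S ^ 2 = 27 / (8 * Real.pi) := by
    have e3 : (√3 : ℝ) ^ 2 = 3 := Real.sq_sqrt (by norm_num)
    have e4 : √(2 * Real.pi) ^ 2 = 2 * Real.pi := Real.sq_sqrt (by positivity)
    rw [hSdef, div_pow, mul_pow, e4]
    have : (√3 + √3 + √3) ^ 2 = 27 := by nlinarith only [e3]
    rw [this]
    ring
  have h7 : 0 ≤ ∑ i, ‖fm (A3 i) - (S / 3) • u i‖ ^ 2 := Finset.sum_nonneg fun i _ => sq_nonneg _
  have h8 : ∀ i, ‖fm (A3 i) - (S / 3) • u i‖ ^ 2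
      = ‖fm (A3 i)‖ ^ 2 - 2 * (S / 3) * ⟪u i, fm (A3 i)⟫ + (S / 3) ^ 2 := by
    intro i
    rw [norm_sub_sq_real, inner_smul_right, real_inner_comm, norm_smul, mul_pow, hu,
      Real.norm_eq_abs, sq_abs]
    ring
  simp_rw [h8] at h7
  rw [Finset.sum_add_distrib, Finset.sum_sub_distrib, ← Finset.mul_sum, hS] at h7
  simp only [Finset.sum_const, Finset.card_univ, Fintype.card_fin, nsmul_eq_mul] at h7
  have h9 : 9 / (8 * Real.pi) = S ^ 2 / 3 := by
    rw [hS2]; ring
  rw [h9]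
  push_cast at h7
  (clear hE m hk hu h01 h12 h02 A hA h0 h1 h2 hle hA3 hS hSdef hS2 h8 h9; nlinarith)

/-- The propeller attains the bound. -/
theorem exists_eq_of_bdd (hE : 2 ≤ Module.finrank ℝ E) {k : ℕ} (hk : 3 ≤ k) (hb : Bdd E k) :
    ∃ A : Fin k → Set E, (∀ i, MeasurableSet (A i)) ∧
      (∀ i j, i ≠ j → Disjoint (A i) (A j)) ∧ (⋃ i, A i) = univ ∧
      ∑ i, ‖∫ x in A i, x ∂(stdGaussian E)‖ ^ 2 = 9 / (8 * Real.pi) := by
  obtain ⟨A, hA, hge⟩ := exists_propeller hE hk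
  exact ⟨A, hA.meas, fun i j hij => hA.disj hij, hA.cover, le_antisymm (hb A hA) hge⟩

/-- The full statement of the propeller problem from the absence of minimal counterexamples. -/
theorem final_of_isEmpty_bad (h : ∀ d, IsEmpty (Bad (EuclideanSpace ℝ (Fin d)))) :
    (∀ (d k : ℕ) (A : Fin k → Set (EuclideanSpace ℝ (Fin d))),
      (∀ i, NullMeasurableSet (A i) (stdGaussian (EuclideanSpace ℝ (Fin d)))) →
      (Pairwise fun i j => AEDisjoint (stdGaussian (EuclideanSpace ℝ (Fin d))) (A i) (A j)) →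
      (∀ᵐ x ∂(stdGaussian (EuclideanSpace ℝ (Fin d))), x ∈ ⋃ i, A i) →
      ∑ i, ‖∫ x in A i, x ∂(stdGaussian (EuclideanSpace ℝ (Fin d)))‖ ^ 2 ≤ 9 / (8 * Real.pi)) ∧
    (∀ d k : ℕ, 2 ≤ d → 3 ≤ k →
      IsGreatest {r : ℝ | ∃ A : Fin k → Set (EuclideanSpace ℝ (Fin d)),
        (∀ i, MeasurableSet (A i)) ∧ (Pairwise fun i j => Disjoint (A i) (A j)) ∧
        ⋃ i, A i = Set.univ ∧
        r = ∑ i, ‖∫ x in A i, x ∂(stdGaussian (EuclideanSpace ℝ (Fin d)))‖ ^ 2}
        (9 / (8 * Real.pi))) := by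
  have hb : ∀ d n, Bdd (EuclideanSpace ℝ (Fin d)) n := fun d => bdd_of_isEmpty_bad (h d)
  refine ⟨fun d k A hm hd _ => sum_le_of_bdd (hb _ _) hm fun i j hij => hd hij,
    fun d k hd hk => ⟨?_, ?_⟩⟩
  · obtain ⟨A, h1, h2, h3, h4⟩ := exists_eq_of_bdd (E := EuclideanSpace ℝ (Fin d))
      (by simpa only [finrank_euclideanSpace, Fintype.card_fin] using hd) hk (hb d k)
    exact ⟨A, h1, fun i j hij => h2 i j hij, h3, h4.symm⟩
  · rintro r ⟨A, h1, h2, h3, rfl⟩
    exact hb d k A ⟨h1, h2, h3⟩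

end Vale.Agent.P226
end
end

section

section

/-!
# P226: there is no minimal counterexample
-/

open MeasureTheory ProbabilityTheory
open scoped RealInnerProductSpace

namespace Vale.Agent.P226

variable {E : Type*} [NormedAddCommGroup E] [InnerProductSpace ℝ E] [FiniteDimensional ℝ E]
  [MeasurableSpace E] [BorelSpace E]

/-- A minimal counterexample to the propeller bound does not exist. -/
theorem Bad.elim (B : Bad E) : False := by
  have h2 : 0.4 < B.ζ 2 := B.span3.caseC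
  have a4 := B.aff4
  have a3 := B.aff3 (.of_finrank B.finrank_V2) (.of_finrank B.finrank_V2)
    (Gauss3.integral_norm_proj_two B.finrank_V2)
  rcases le_total (B.ζ 3) 0.36 with h3 | h3
  · rcases le_total (∑ i : Fin (B.m + 1), B.ζ i.succ.succ.succ ^ 2) 0.27 with hσ | hσ
    · exact a3.caseA h3 hσ
    · have h4 : 0.2 ≤ B.ζ 3 := by
        by_contra hc
        push Not at hc
        exact absurd (B.span3.caseD hc.le) (not_lt.2 hσ)
      exact a4.caseB h2 (Or.inr ⟨h4, hσ⟩)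
  · exact a4.caseB h2 (Or.inl h3)

instance isEmpty_bad : IsEmpty (Bad E) := ⟨Bad.elim⟩

end Vale.Agent.P226
end
end
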